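import Vale.Agent.P153.R2.SLEX.EndS
import Vale.Agent.P153.R2.INTF.Poly

/-!
P153, block SLEX (I_end): the interface does not return from a small neighbourhood of `b`.
-/

set_option autoImplicit false

namespace Vale.Agent.P153.R2.SLEX

open Filter Topology Set
open Vale.Agent.P145.PT Vale.Agent.P153 Vale.Agent.P153.F.Top Vale.Agent.P153.R2.FLDI
open Vale.Agent.P153.Topo (Conn adj_symm)
open Vale.Agent.P153.R2.UNIQ (Hg bpt bptD)
open Vale.Agent.P153.R2.INTF (St run fa fb Good Alive NZ run_good Arcs mem_CA)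
open Vale.Agent.P153.R2.DRV (ru nu st sg sh pl Cs Pos Mn Pn bk bk_mem sh_bk mean_law Cs_finite)
open Vale.Agent.P153.R2.OBSV (sw sw_mem sw_bij)

section Lattice

variable {n k : ℕ} {p : ZMod n → ℤ × ℤ} {S : Finset Final.Tri} {δ : ℝ} {g h : Hg}

/-- The probability of a set of heights, in terms of the signed heights. -/
theorem law_real_Cs (hp : Final.IsPolygon p) (hS : Final.Encloses p S) (A : Set Hg) :
    (Final.law p k S).real A = Pr (Cs p k S) {g | bk p S g ∈ A} := by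
  classical
  have hfin : (Final.Heights p k S).Finite := by
    rw [heightsF]
    exact hB_fin (polyF hp) (enclF hS)
  have hA : (Final.law p k S).real A = (Final.law p k S).real (Final.Heights p k S ∩ A) := by
    unfold Final.law Final.unif
    rw [MeasureTheory.measureReal_def, MeasureTheory.measureReal_def]
    congr 1
    unfold ProbabilityTheory.uniformOn
    rw [ProbabilityTheory.cond_apply hfin.measurableSet,
      ProbabilityTheory.cond_apply hfin.measurableSet, ← inter_assoc, inter_self]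
  have hm : MeasurableSet (Final.Heights p k S ∩ A) := (hfin.inter_of_left A).measurableSet
  rw [hA, ← MeasureTheory.integral_indicator_one hm]
  have h1 := mean_law (k := k) hp hS ((Final.Heights p k S ∩ A).indicator 1)
  unfold Final.mean at h1
  rw [h1, Pr_eq_Ex Cs_finite]
  refine Ex_congr fun g hg => ?_
  have hgH : bk p S g ∈ Final.Heights p k S := bk_mem hp hS hg
  unfold ind
  by_cases hgA : bk p S g ∈ A
  · have h2 : bk p S g ∈ Final.Heights p k S ∩ A := ⟨hgH, hgA⟩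
    have h3 : g ∈ {g | bk p S g ∈ A} := hgA
    rw [indicator_of_mem h2, if_pos h3]
    rfl
  · have h3 : g ∉ {g | bk p S g ∈ A} := hgA
    rw [indicator_of_notMem fun hc => hgA hc.2, if_neg h3]

/-- The vertices next to the run. -/
theorem ru_mem (hp : Final.IsPolygon p) (hS : Final.Encloses p S) (hk : 0 < k) (hkn : k < n)
    (hg : g ∈ Cs p k S) (j : ℕ) :
    ((ru p S g j).1 ∈ inn p S ∨ (ru p S g j).1 ∈ Pn p k S) ∧
      ((ru p S g j).2 ∈ inn p S ∨ (ru p S g j).2 ∈ Mn p k S) := by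
  obtain ⟨h1, h2⟩ := ru_verts hp hS hk hkn hg j
  obtain ⟨h3, h4⟩ := INTF.CA.good_val hg (DRV.ru_good hp hS hk hkn hg j)
  constructor
  · rcases INTF.vert_poly (p := p) h1 with h5 | h5
    · exact Or.inl h5
    · rw [← INTF.Pn_Mn (k := k) (S := S)] at h5
      rcases h5 with h5 | h5
      · exact Or.inr h5
      · rw [(INTF.val_poly hp hS hk hkn hg).2 h5] at h3
        norm_num at h3
  · rcases INTF.vert_poly (p := p) h2 with h5 | h5
    · exact Or.inl h5
    · rw [← INTF.Pn_Mn (k := k) (S := S)] at h5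
      rcases h5 with h5 | h5
      · rw [(INTF.val_poly hp hS hk hkn hg).1 h5] at h4
        norm_num at h4
      · exact Or.inr h5

/-- A state with two vertices on the polygon is an edge between the two arcs. -/
theorem pm_state (hp : Final.IsPolygon p) {x y : Pt} (hx : x ∈ Pn p k S) (hy : y ∈ Mn p k S) :
    ∃ i j : ZMod n, i.val < k ∧ k ≤ j.val ∧ ((p i = x ∧ p j = y) ∨ (p i = y ∧ p j = x)) := by
  obtain ⟨i, rfl⟩ := INTF.Pn_sub hx
  obtain ⟨j, rfl⟩ := INTF.Mn_sub hy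
  rw [INTF.mem_Pn hp] at hx
  rw [INTF.mem_Mn hp] at hy
  rcases hx with ⟨h1, h2⟩ | ⟨h1, h2⟩
  · rcases hy with ⟨-, h3⟩ | ⟨h3, -⟩
    · exact ⟨i, j, h2, h3, Or.inl ⟨rfl, rfl⟩⟩
    · exact absurd h1 h3
  · rcases hy with ⟨h3, -⟩ | ⟨-, h3⟩
    · exact absurd h3 h1
    · exact ⟨j, i, h3, h2, Or.inr ⟨rfl, rfl⟩⟩

theorem toC_dist_le (a b : ℝ × ℝ) : dist (Final.toC a) (Final.toC b) ≤ 2 * dist a b := by
  rw [dist_eq_norm]
  have h1 := Complex.norm_le_abs_re_add_abs_im (Final.toC a - Final.toC b)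
  have h2 : |(Final.toC a - Final.toC b).re| ≤ dist a b := by
    have : (Final.toC a - Final.toC b).re = a.1 - b.1 := rfl
    rw [this, ← Real.dist_eq, Prod.dist_eq]
    exact le_max_left _ _
  have h3 : |(Final.toC a - Final.toC b).im| ≤ dist a b := by
    have : (Final.toC a - Final.toC b).im = a.2 - b.2 := rfl
    rw [this, ← Real.dist_eq, Prod.dist_eq]
    exact le_max_right _ _
  linarith

end Lattice

/-- The mirror of the event. -/
theorem sw_Pr {F P M : Set Pt} (hA : Arcs F P M) (E : Set Hg) :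
    Pr (INTF.CA F M) {h | sw F P h ∈ E} = Pr (INTF.CA F P) E := by
  rw [Pr_eq_Ex (INTF.CA_finite hA.fin), Pr_eq_Ex (INTF.CA_finite hA.fin), Ex_bij _ (sw_bij hA)]
  refine Ex_congr fun h _ => ?_
  unfold ind
  simp only [Set.mem_ofPred_eq]

section Det

variable {n k : ℕ} {p : ZMod n → ℤ × ℤ} {S : Finset Final.Tri} {δ : ℝ} {g : Hg}

/-- **The deterministic part.** -/
theorem det_end (hδ : 0 < δ) (hp : Final.IsPolygon p) (hS : Final.Encloses p S) (hk : 0 < k)
    (hkn : k < n) {z : ℝ × ℝ} {Q₁ Q₂ : Set Pt} {a₁ b₁ a₂ r₂ b' : ℝ}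
    (C₁ : Crc (inn p S) δ z Q₁ a₁ b₁) (C₂ : Crc (inn p S) δ z Q₂ a₂ r₂) (h2c : Cn Q₂)
    (h12 : a₁ ≤ a₂) (_hb' : b₁ + 8 * δ ≤ b') (hδ1 : 16 * δ ≤ a₁) (hδ2 : b₁ + 6 * δ ≤ a₂)
    (hδ3 : r₂ + 8 * δ ≤ b')
    (hpm : ∀ i j : ZMod n, i.val < k → k ≤ j.val → Adj (p i) (p j) →
      (dist (dp δ (p i)) z < a₁ / 2 ∧ dist (dp δ (p j)) z < a₁ / 2) ∨
      (b' ≤ dist (dp δ (p i)) z ∧ b' ≤ dist (dp δ (p j)) z))
    (h0 : b' ≤ dist (dp δ (p 0)) z) (h0' : b' ≤ dist (dp δ (p (-1))) z) (hg : g ∈ Cs p k S)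
    {u v : ℕ} (huv : u ≤ v) (hv : v ≤ nu p S g)
    (hu : dist (dp δ (ru p S g u).1) z < 3 * a₁ / 4)
    (hv' : r₂ + 4 * δ ≤ dist (dp δ (ru p S g v).1) z) :
    g ∈ Ev (inn p S) (Pn p k S) Q₁ Q₂ ∨
      sw (inn p S) (Pn p k S) g ∈ Ev (inn p S) (Mn p k S) Q₁ Q₂ := by
  have hA := INTF.arcs_poly hp hS hk hkn
  have hgood : ∀ j, Good g (ru p S g j) := fun j => DRV.ru_good hp hS hk hkn hg j
  have hadj : ∀ j, Adj (ru p S g j).1 (ru p S g j).2 := fun j => (hgood j).1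
  have halive := (INTF.alive_nu hp hS hk hkn hg).1
  have hNb : ∀ j < nu p S g, Nb (ru p S g j) (ru p S g (j + 1)) := by
    intro j hj
    refine Stp.nb (hadj j) (hadj (j + 1)) ?_
    have e : ru p S g (j + 1) = INTF.nx g (ru p S g j) := INTF.run_succ (halive j hj)
    rw [e]
    exact nx_stp g (hgood j)
  have hF : ∀ j, a₁ / 2 ≤ dist (dp δ (ru p S g j).1) z → dist (dp δ (ru p S g j).1) z < b' →
      (ru p S g j).1 ∈ inn p S ∨ (ru p S g j).2 ∈ inn p S := by
    intro j h1 h2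
    obtain ⟨h3, h4⟩ := ru_mem hp hS hk hkn hg j
    by_contra hcon
    push Not at hcon
    have h5 := h3.resolve_left hcon.1
    have h6 := h4.resolve_left hcon.2
    obtain ⟨i, i', hi, hi', h7 | h7⟩ := pm_state hp h5 h6
    · have h8 := hpm i i' hi hi' (by rw [h7.1, h7.2]; exact hadj j)
      rw [h7.1] at h8
      rcases h8 with h8 | h8 <;> linarith [h8.1]
    · have h8 := hpm i i' hi hi' (by rw [h7.1, h7.2]; exact adj_symm (hadj j))
      rw [h7.2] at h8
      rcases h8 with h8 | h8 <;> linarith [h8.2]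
  have hr₂ : a₂ < r₂ := by
    obtain ⟨q, hq, -⟩ := C₂.wall
    exact (C₂.far q hq).trans_lt (C₂.near q hq)
  have hstart : r₂ + 4 * δ ≤ dist (dp δ (ru p S g 0).1) z := by
    have e : ru p S g 0 = st p S := rfl
    rw [e]
    by_cases hP : Pos p S
    · rw [INTF.st_pos hP]
      show r₂ + 4 * δ ≤ dist (dp δ (p 0)) z
      linarith
    · rw [INTF.st_neg hP]
      show r₂ + 4 * δ ≤ dist (dp δ (p (-1))) z
      linarith
  have hsd : ∀ j x, (x = (ru p S g j).1 ∨ x = (ru p S g j).2) →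
      dist (dp δ x) z ≤ dist (dp δ (ru p S g j).1) z + 2 * δ := by
    rintro j x (rfl | rfl)
    · linarith
    · exact dist_adj_z hδ (Or.inr (hadj j))
  have hsd' : ∀ j x, (x = (ru p S g j).1 ∨ x = (ru p S g j).2) →
      dist (dp δ (ru p S g j).1) z ≤ dist (dp δ x) z + 2 * δ := by
    rintro j x (rfl | rfl)
    · linarith
    · exact dist_adj_z hδ (Or.inr (adj_symm (hadj j)))
  have hsep : ∀ x ∈ Q₁, ∀ y ∈ Q₂, x ≠ y ∧ ¬ Adj x y := by
    intro x hx y hy
    have h1 := C₁.near x hx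
    have h2 := C₂.far y hy
    refine ⟨fun h3 => ?_, fun h3 => ?_⟩
    · rw [h3] at h1
      linarith
    · have h4 := dist_adj_z (z := z) hδ (Or.inr h3 : x = y ∨ Adj x y)
      linarith
  -- the first touch
  obtain ⟨j₂, hj₂, ht₂⟩ := touch hδ C₂ (τ := fun j => ru p S g (u - j)) (m := u)
    (fun j hj => by
      have := hNb (u - (j + 1)) (by omega)
      rw [show u - (j + 1) + 1 = u - j by omega] at this
      exact this.symm) (fun j => hadj _)
    (fun j _ h1 h2 => hF _ (by linarith) (by linarith)) (by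
      show dist (dp δ (ru p S g (u - 0)).1) z < 3 * a₂ / 4
      rw [Nat.sub_zero]
      linarith) (by
      show r₂ + 4 * δ ≤ dist (dp δ (ru p S g (u - u)).1) z
      rw [Nat.sub_self]
      exact hstart) (by linarith)
  set i₂ := u - j₂ with hi₂
  have ht₂' : TchE Q₂ (ru p S g i₂) := ht₂
  have hD₂ : b₁ + 4 * δ ≤ dist (dp δ (ru p S g i₂).1) z := by
    rcases ht₂' with h1 | h1
    · have := C₂.far _ h1
      linarith
    · have h2 := C₂.far _ h1
      have h3 := dist_adj_z (z := z) hδ (Or.inr (hadj i₂) : _ ∨ Adj _ _)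
      linarith
  -- the touch of `Q₁`
  obtain ⟨j₁, hj₁, ht₁⟩ := touch hδ C₁ (τ := fun j => ru p S g (u - j)) (m := j₂)
    (fun j hj => by
      have := hNb (u - (j + 1)) (by omega)
      rw [show u - (j + 1) + 1 = u - j by omega] at this
      exact this.symm) (fun j => hadj _)
    (fun j _ h1 h2 => hF _ h1 (by linarith)) (by
      show dist (dp δ (ru p S g (u - 0)).1) z < 3 * a₁ / 4
      rw [Nat.sub_zero]
      exact hu) hD₂ hδ1
  set w := u - j₁ with hw
  have ht₁' : TchE Q₁ (ru p S g w) := ht₁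
  have hne : i₂ ≠ w := by
    intro h1
    rw [h1] at ht₂'
    rcases ht₁' with h3 | h3 <;> rcases ht₂' with h4 | h4
    · exact (hsep _ h3 _ h4).1 rfl
    · exact (hsep _ h3 _ h4).2 (hadj w)
    · exact (hsep _ h3 _ h4).2 (adj_symm (hadj w))
    · exact (hsep _ h3 _ h4).1 rfl
  have hiw : i₂ < w := by omega
  -- the return
  obtain ⟨j₃, hj₃, ht₃⟩ := touch hδ C₂ (τ := fun j => ru p S g (u + j)) (m := v - u)
    (fun j hj => by
      have := hNb (u + j) (by omega)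
      rw [add_assoc] at this
      exact this) (fun j => hadj _)
    (fun j _ h1 h2 => hF _ (by linarith) (by linarith)) (by
      show dist (dp δ (ru p S g (u + 0)).1) z < 3 * a₂ / 4
      rw [Nat.add_zero]
      linarith) (by
      show r₂ + 4 * δ ≤ dist (dp δ (ru p S g (u + (v - u))).1) z
      rw [show u + (v - u) = v by omega]
      exact hv') (by linarith)
  obtain ⟨m1, m2⟩ := INTF.st_mem (S := S) hp hk hkn
  exact run_ev hA hg (INTF.good_st hp hS hk hkn hg) m1 m2 (INTF.st_side hp hS).2 halive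
    (fun j _ => ru_mem hp hS hk hkn hg j) C₂.sub h2c hsep hiw (by omega : w ≤ u + j₃)
    (by omega) ht₂' ht₁' ht₃

end Det

section Main

variable {Φ : (ℝ × ℝ) ≃ₜ (ℝ × ℝ)} {δ : ℕ → ℝ} {N k : ℕ → ℕ}
  {p : ∀ n, ZMod (N n) → ℤ × ℤ} {S : ℕ → Finset ((ℤ × ℤ) × Bool)}

/-- **I_end** from the landing statement. -/
theorem i_end_of (hL : LOC.S_land 2) : UNIQ.I_end := by
  intro Φ δ N k p S h x hx r hr e he
  have hA := approxF h
  obtain ⟨t, ht, ρ₀, hρ₀, H⟩ := end_plus hL (e / 2) (half_pos he)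
  set z := Φ (Final.circ Real.pi) with hz
  set D := dist (Φ (Final.circ 0)) z with hD
  have hD0 : 0 < D := by
    rw [hD]
    refine dist_pos.2 fun h1 => ?_
    have h2 := Φ.injective h1
    unfold Final.circ at h2
    rw [Real.cos_zero, Real.cos_pi, Prod.mk.injEq] at h2
    linarith [h2.1]
  have hr₂ : 0 < min (r / 4) (D / 4) := lt_min (by positivity) (by positivity)
  obtain ⟨a₁, b₁, a₂, ha₁, hab₁, hba, har, hev⟩ := four_ev h (t₀ := Real.pi)
    ⟨Real.pi_pos, by linarith [Real.pi_pos]⟩ ht hρ₀ hr₂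
  set r₂ := min (r / 4) (D / 4) with hr₂d
  have hr₂a : r₂ ≤ r / 4 := min_le_left _ _
  have hr₂b : r₂ ≤ D / 4 := min_le_right _ _
  set b' := 2 * r₂ with hb'
  have hb'D : b' < D := by linarith
  refine ⟨a₁ / 2, by positivity, ?_⟩
  set m := min (a₁ / 32) (min ((a₂ - b₁) / 8) (r₂ / 16)) with hm
  have hm0 : 0 < m := lt_min (by positivity) (lt_min (by linarith) (by positivity))
  filter_upwards [hev, pm_ev h (half_pos ha₁) hb'D, ends_ev h (half_pos ha₁) hb'D,
    hA.lim.eventually (gt_mem_nhds hm0)] with n g1 g2 g3 g4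
  have hδ := hA.pos n
  obtain ⟨g4a, g4b⟩ := lt_min_iff.1 g4
  obtain ⟨g4b, g4c⟩ := lt_min_iff.1 g4b
  have hp := (h.1 n).2.2.2.1
  have hS := (h.1 n).2.2.2.2
  have hk := (h.1 n).2.1
  have hkn := (h.1 n).2.2.1
  obtain ⟨x₀, Q₁, Q₁', Q₂', Q₂, ρ₁, R₁, ρ, R, ρ₂, R₂, hF, k1, k2, k3, k4, k5, k6, C₁, C₂⟩ := g1
  have hArcs := INTF.arcs_poly hp hS hk hkn
  have e1 := H _ _ _ x₀ Q₁ Q₁' Q₂' Q₂ ρ₁ R₁ ρ R ρ₂ R₂ hArcs hF k1 k2 k3 k4 k5 k6
  have e2 := H _ _ _ x₀ Q₁ Q₁' Q₂' Q₂ ρ₁ R₁ ρ R ρ₂ R₂ hArcs.symm hF k1 k2 k3 k4 k5 k6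
  rw [law_real_Cs hp hS]
  refine (Pr_mono (B := Ev (inn (p n) (S n)) (Pn (p n) (k n) (S n)) Q₁ Q₂ ∪
    {g | sw (inn (p n) (S n)) (Pn (p n) (k n) (S n)) g ∈
      Ev (inn (p n) (S n)) (Mn (p n) (k n) (S n)) Q₁ Q₂}) fun g hg hgA => ?_).trans
    ((Pr_union_le _ _ _).trans ?_)
  · obtain ⟨s, s', hss', hs1, hs2⟩ := hgA
    have hgH : bk (p n) (S n) g ∈ Final.Heights (p n) (k n) (S n) := bk_mem hp hS hg
    obtain ⟨-, -, -, -, -, hcan⟩ := POLY.s_can (N n) (k n) (p n) (S n) (δ n) hδ hk hkn hp hS _ hgH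
    obtain ⟨σ, -, hσ2, hσ0, hσ1, hσ⟩ := hcan (x n _) (hx n _ hgH)
    rw [sh_bk hp hS hg] at hσ hσ1
    have hσn : ∀ s : unitInterval, 0 ≤ σ s := fun s => by
      rw [← hσ0]
      exact hσ2.monotone (unitInterval.nonneg s)
    have hσv : σ s' ≤ nu (p n) (S n) g := by
      rw [← hσ1]
      exact hσ2.monotone (unitInterval.le_one s')
    have huv : ⌊σ s⌋₊ ≤ ⌊σ s'⌋₊ := Nat.floor_mono (hσ2.monotone hss')
    have hvn : ⌊σ s'⌋₊ ≤ nu (p n) (S n) g := by
      have := Nat.floor_mono hσv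
      rwa [Nat.floor_natCast] at this
    have near : ∀ s : unitInterval, dist (Final.toC (dp (δ n) (ru (p n) (S n) g ⌊σ s⌋₊).1))
        (x n (bk (p n) (S n) g) s) ≤ 2 * δ n := by
      intro s
      rw [hσ s]
      exact pl_near hδ.le hp hS hk hkn hg (hσn s) (Or.inl rfl)
    have hbz : bpt Φ = Final.toC z := rfl
    refine det_end hδ hp hS hk hkn C₁ C₂ C₂.cn (by linarith) (b' := b') (by linarith)
      (by linarith) (by linarith) (by linarith) g2 g3.1 g3.2.1 hg huv hvn ?_ ?_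
    · have h1 := near s
      have h2 := dist_le_toC (dp (δ n) (ru (p n) (S n) g ⌊σ s⌋₊).1) z
      have h3 := dist_triangle (Final.toC (dp (δ n) (ru (p n) (S n) g ⌊σ s⌋₊).1))
        (x n (bk (p n) (S n) g) s) (Final.toC z)
      rw [hbz] at hs1
      linarith
    · have h1 := near s'
      have h2 := toC_dist_le (dp (δ n) (ru (p n) (S n) g ⌊σ s'⌋₊).1) z
      have h3 := dist_triangle_left (x n (bk (p n) (S n) g) s') (Final.toC z)
        (Final.toC (dp (δ n) (ru (p n) (S n) g ⌊σ s'⌋₊).1))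
      rw [hbz] at hs2
      linarith
  · have e3 : Pr (Cs (p n) (k n) (S n)) {g | sw (inn (p n) (S n)) (Pn (p n) (k n) (S n)) g ∈
        Ev (inn (p n) (S n)) (Mn (p n) (k n) (S n)) Q₁ Q₂} ≤ e / 2 := by
      refine (sw_Pr hArcs _).le.trans e2
    have e4 : Pr (Cs (p n) (k n) (S n)) (Ev (inn (p n) (S n)) (Pn (p n) (k n) (S n)) Q₁ Q₂) ≤
        e / 2 := e1
    linarith

/-- **I_end** from the landing statement of block LAND. -/
theorem i_end (hL : LAND.S_land 2) : UNIQ.I_end := i_end_of (LOC.s_land_of (by norm_num) hL)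

end Main

end Vale.Agent.P153.R2.SLEX
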