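import Vale.Agent.P153.R2.SLEX.StrC
import Vale.Agent.P153.R2.FLDI.ScenA
import Vale.Agent.P153.R2.SDAR.Tigh
import Vale.Agent.P153.R2.LOC.Mir

/-!
P153, block SLEX: `I_int` (crossings of interior annuli are tight) from the block property with a
uniform ratio.
-/

set_option autoImplicit false
set_option linter.unusedVariables false

namespace Vale.Agent.P153.R2.SLEX

open Filter Topology Set Metric MeasureTheory
open Vale.Agent.P145.PT Vale.Agent.P153 Vale.Agent.P153.F.Top Vale.Agent.P153.R2.FLDI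
open Vale.Agent.P153.Topo (Conn adj_symm)
open Vale.Agent.P153.R2.UNIQ (Hg)
open Vale.Agent.P153.F.X (S_int S_pos S_rsw)
open Vale.Agent.P153.R2.NH (Big)
open Vale.Agent.P153.R2.LOC (An aff Pr_aff)

/-- X0: the block property with a ratio which does not depend on the level. -/
def S_uni : Prop := ∃ K : ℕ, 1 ≤ K ∧ ∀ j : ℕ, ∃ (α : ℝ) (r₀ : ℤ), 0 < α ∧ α ≤ 1 ∧ HB j α K r₀

/-- The mirror image of `x1`. -/
theorem x1_up {η : Hg} {F : Set Pt} {j : ℕ} {α : ℝ} {y : Pt} {r : ℕ} {R : ℤ} {N r₀ : ℤ}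
    (hblk : HB j α N r₀) (hα0 : 0 < α) (hα1 : α ≤ 1)
    (hr : 1 ≤ r) (hr₀ : r₀ ≤ 2 * (r : ℤ)) (hN : 1 ≤ N) (hRK : R = N * (2 * r) + 2 * r)
    (hF : F.Finite) (hFb : bx y (R + 1) ⊆ F) {k : ℕ} (hk : 1 ≤ k) :
    Pr (Cfg F (exa F η)) {h | Crs (An y r R) (bx y r) (bx y R)ᶜ (up h 1) k} ≤
      6 / (α * k) + Pr (Cfg F (exa F (aff (-1) 0 η)))
        {h | Big ((r : ℤ) - 2) {x | 2 * (j : ℤ) + 1 ≤ |h x|}} := by
  have h1 := x1 (η := aff (-1) 0 η) (y := y) hblk hα0 hα1 hr hr₀ hN hRK hF hFb hk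
  rw [Pr_aff (e := -1) (c := 0) (Or.inr rfl) Even.zero hF η
    {h | Crs (An y r R) (bx y r) (bx y R)ᶜ (dn h (-1)) k}] at h1
  refine le_trans (le_of_eq ?_) h1
  congr 1
  ext h
  have e : dn (aff (-1) 0 h) (-1) = up h 1 := by
    ext x
    show -1 * h x + 0 ≤ -1 ↔ 1 ≤ h x
    omega
  show Crs (An y r R) (bx y r) (bx y R)ᶜ (up h 1) k ↔
    Crs (An y r R) (bx y r) (bx y R)ᶜ (dn (aff (-1) 0 h) (-1)) k
  rw [e]

/-- **I_int** from the uniform block property and the plane measure. -/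
theorem i_int_of {P : Measure (Pt → ℤ)} (hP : GFF.Plane P) (hint : S_int P) (hpos : S_pos P)
    (hrsw : S_rsw P) (hU : S_uni) : I_int := by
  obtain ⟨K, hK, hU⟩ := hU
  have hK' : (1 : ℝ) ≤ K := by exact_mod_cast hK
  refine ⟨ratio K, by unfold ratio; linarith, ?_⟩
  intro Φ δ N k p S h x hx w ρ hρ hball e he
  have hA := approxF h
  obtain ⟨Rb', hRb'⟩ := (domF_bdd (Φ := Φ)).closure.subset_ball (0 : ℝ × ℝ)
  set Rb := max Rb' 1 with hRbd
  have hRb : closure (Final.dom Φ) ⊆ ball (0 : ℝ × ℝ) Rb :=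
    hRb'.trans (ball_subset_ball (le_max_left _ _))
  have hRb0 : 0 < Rb := lt_of_lt_of_le one_pos (le_max_right _ _)
  obtain ⟨M₀, δ₀, hδ₀, hT⟩ := NH.tigh hP hint hpos hrsw hRb0 hρ
    (show (0 : ℝ) < e / 8 by positivity)
  obtain ⟨α, r₀, hα0, hα1, hHB⟩ := hU (M₀ + 1)
  obtain ⟨M, hM⟩ := exists_nat_ge (48 / (α * e))
  refine ⟨M ^ 2 + 3, ?_⟩
  have h2 : ∀ᶠ n in atTop, δ n < min δ₀ (min (ρ / 4) (ρ / (|(r₀ : ℝ)| + 1))) :=
    hA.lim.eventually (gt_mem_nhds (lt_min hδ₀ (lt_min (by positivity) (by positivity))))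
  filter_upwards [cross_ev h hx K hK hρ hball, h2, ev_ball h hRb] with n g1 g2 g3
  obtain ⟨y, r, R, hR, hr1, hr2, -, hinn, hcr⟩ := g1
  obtain ⟨g2a, g2b⟩ := lt_min_iff.1 g2
  obtain ⟨g2b, g2c⟩ := lt_min_iff.1 g2b
  have hδ := hA.pos n
  have hp := (h.1 n).2.2.2.1
  have hS := (h.1 n).2.2.2.2
  rw [law_real hp hS]
  -- the radii
  have hrδ : 2 * ρ ≤ r * δ n := by rwa [div_le_iff₀ hδ] at hr1
  have hr1' : 1 ≤ r := by
    by_contra hcon
    have : r = 0 := by omega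
    rw [this] at hrδ
    simp at hrδ
    linarith
  have hr₀ : r₀ ≤ 2 * (r : ℤ) := by
    have h3 : (r₀ : ℝ) ≤ 2 * r := by
      have h4 : δ n * (|(r₀ : ℝ)| + 1) < ρ := by rwa [lt_div_iff₀ (by positivity)] at g2c
      have h5 : (r₀ : ℝ) ≤ |(r₀ : ℝ)| := le_abs_self _
      by_contra hcon
      push Not at hcon
      nlinarith
    exact_mod_cast h3
  have hM1 : (0 : ℝ) < ((M + 1 : ℕ) : ℝ) := by positivity
  have h6 : 6 / (α * ((M + 1 : ℕ) : ℝ)) ≤ e / 8 := by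
    rw [div_le_iff₀ (by positivity)]
    rw [div_le_iff₀ (by positivity)] at hM
    push_cast
    nlinarith [mul_pos hα0 he]
  have hd : ρ ≤ δ n * (((r : ℤ) - 2 : ℤ) : ℝ) := by
    push_cast
    nlinarith
  have hfin : (inn (p n) (S n)).Finite := Finset.finite_toSet _
  have hCC : CC (inn (p n) (S n)) := PLAN.CC_inner (polyF hp) (enclF hS)
  have hη : ∀ x, |dat (p n) (k n) x| = 1 := by
    intro x
    rcases dat_pm (p := p n) (k n) x with h3 | h3 <;> rw [h3] <;> norm_num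
  have hη' : ∀ x, |aff (-1) 0 (dat (p n) (k n)) x| = 1 := by
    intro x
    unfold aff
    rcases dat_pm (p := p n) (k n) x with h3 | h3 <;> rw [h3] <;> norm_num
  have hlev : ∀ h : Hg, {x | 2 * ((M₀ + 1 : ℕ) : ℤ) + 1 ≤ |h x|} =
      {x | 2 * (M₀ : ℤ) + 3 ≤ |h x|} := by
    intro h
    ext x
    simp only [mem_ofPred_eq]
    push_cast
    constructor <;> intro h3 <;> linarith
  have t1 := hT M₀ le_rfl (δ n) hδ g2a (inn (p n) (S n)) hfin hCC g3 (dat (p n) (k n)) hη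
    ((r : ℤ) - 2) hd
  have t2 := hT M₀ le_rfl (δ n) hδ g2a (inn (p n) (S n)) hfin hCC g3
    (aff (-1) 0 (dat (p n) (k n))) hη' ((r : ℤ) - 2) hd
  have u1 := x1 (η := dat (p n) (k n)) (y := y) hHB hα0 hα1 hr1' hr₀ (by exact_mod_cast hK) hR hfin
    hinn (k := M + 1) (by omega)
  have u2 := x1_up (η := dat (p n) (k n)) (y := y) hHB hα0 hα1 hr1' hr₀ (by exact_mod_cast hK) hR
    hfin hinn (k := M + 1) (by omega)
  simp only [hlev] at u1 u2
  have hsub : Pr (FLDI.CA (p n) (k n) (S n))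
      {g | cut0 (S n) g ∈ {h | C1.Cross (x n h) w ρ (ratio K * ρ) (M ^ 2 + 3)}} ≤
      Pr (FLDI.CA (p n) (k n) (S n))
        ({g | Crs (An y r R) (bx y r) (bx y R)ᶜ (up g 1) (M + 1)} ∪
        {g | Crs (An y r R) (bx y r) (bx y R)ᶜ (dn g (-1)) (M + 1)}) :=
    Pr_mono fun g hg hc => hcr g hg _ M le_rfl hc
  have hun := Pr_union_le (FLDI.CA (p n) (k n) (S n))
    {g | Crs (An y r R) (bx y r) (bx y R)ᶜ (up g 1) (M + 1)}
    {g | Crs (An y r R) (bx y r) (bx y R)ᶜ (dn g (-1)) (M + 1)}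
  have u1' : Pr (FLDI.CA (p n) (k n) (S n))
      {g | Crs (An y r R) (bx y r) (bx y R)ᶜ (dn g (-1)) (M + 1)} ≤ _ := u1
  have u2' : Pr (FLDI.CA (p n) (k n) (S n))
      {g | Crs (An y r R) (bx y r) (bx y R)ᶜ (up g 1) (M + 1)} ≤ _ := u2
  linarith

/-- **I_cross** from the uniform block property, the landing statement and the plane measure. -/
theorem i_cross_uni {P : Measure (Pt → ℤ)} (hP : GFF.Plane P) (hint : S_int P) (hpos : S_pos P)
    (hrsw : S_rsw P) (hL : LAND.S_land 2) (hU : S_uni) : UNIQ.I_cross :=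
  i_cross_of (i_int_of hP hint hpos hrsw hU) (i_bdp hL)

end Vale.Agent.P153.R2.SLEX
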