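import Vale.Agent.P153.R2.SLEX.UniD
import Vale.Agent.P153.R2.SLEX.IntA
import Vale.Agent.P153.R2.RDEC.Final

/-!
# P153-R2, block SLEX: `S_uni`, `I_int`, `I_bdp` and `I_cross` from the plane hypotheses
-/

namespace Vale.Agent.P153.R2.SLEX

open Set MeasureTheory
open Vale.Agent.P153 Vale.Agent.P153.R2 Vale.Agent.P153.F.X

/-- **X0**: the block property with a ratio which does not depend on the level. -/
theorem s_uni_of (hL : LOC.S_land 2)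
    (hone : ∃ R₁ s₀ : ℤ, 1 ≤ R₁ ∧ 1 ≤ s₀ ∧ F2.OneS R₁ s₀ (1 / 4)) : S_uni := by
  obtain ⟨N, hN, h⟩ := hb_all hL hone
  refine ⟨N.toNat, by omega, fun j => ?_⟩
  obtain ⟨α, h1, h2, r₀, -, h3⟩ := h j
  refine ⟨α, r₀, h1, h2, ?_⟩
  rwa [Int.toNat_of_nonneg (by omega)]

variable {Q : Measure A.Om} {κ : ℝ}

theorem s_uni (hQ : A.IsQ Q) (hP : GFF.Plane (Q.map A.rc)) (hS : GFF.SpecOut (Q.map A.rc) κ)
    (hC : GFF.RowCLT (Q.map A.rc) κ) (hκ : 0 < κ) : S_uni :=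
  s_uni_of (LOC.s_land_of (by norm_num) (RD.s_land hQ hP hS hC hκ 2))
    (F2.s_one (F2A.s_lc hQ hP hS hC hκ))

/-- **I_int.** -/
theorem i_int (hQ : A.IsQ Q) (hP : GFF.Plane (Q.map A.rc)) (hS : GFF.SpecOut (Q.map A.rc) κ)
    (hC : GFF.RowCLT (Q.map A.rc) κ) (hκ : 0 < κ) : I_int := by
  have lvl := F.lvl_of hQ hP hS hC hκ
  exact i_int_of hP (s_int hP) lvl.pos lvl.rsw (s_uni hQ hP hS hC hκ)

/-- **I_cross.** -/
theorem i_cross (hQ : A.IsQ Q) (hP : GFF.Plane (Q.map A.rc)) (hS : GFF.SpecOut (Q.map A.rc) κ)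
    (hC : GFF.RowCLT (Q.map A.rc) κ) (hκ : 0 < κ) : UNIQ.I_cross :=
  i_cross_of (i_int hQ hP hS hC hκ) (i_bdp (RD.s_land hQ hP hS hC hκ 2))

end Vale.Agent.P153.R2.SLEX
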