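import Vale.Agent.P153.R2.FLDI.Conn7

/-!
P153, block SLEX, piece X4, part 1: the two signs are separated near a boundary point (all vertices
near the point at once).
-/

set_option autoImplicit false

namespace Vale.Agent.P153.R2.SLEX

open Filter Topology Set
open Vale.Agent.P145.PT Vale.Agent.P153 Vale.Agent.P153.F.Top Vale.Agent.P153.R2.FLDI
open Vale.Agent.P153.Topo (Conn)
open Vale.Agent.P153.R2.LOC (NO Co Co_subset TW ds mem_bx_iff ds_adj multW_ne S_land)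
open Vale.Agent.P153.R2.POLY (rp)

variable {Φ : (ℝ × ℝ) ≃ₜ (ℝ × ℝ)} {δ : ℕ → ℝ} {N k : ℕ → ℕ}
  {p : ∀ n, ZMod (N n) → ℤ × ℤ} {S : ℕ → Finset ((ℤ × ℤ) × Bool)}

/-- The lattice crosscuts of an approximation, with the crosscut inside the larger ball. -/
theorem crosscut_in (h : Final.Approx Φ δ N k p S) {t₀ : ℝ} (ht₀ : t₀ ∈ Ioo 0 (2 * Real.pi))
    {ρ : ℝ} (hρ : 0 < ρ) : ∃ r : ℝ, 0 < r ∧ ∀ᶠ n in atTop, ∃ (Q : Set Pt) (q : Pt), q ∈ Q ∧
      Q ⊆ inn (p n) (S n) ∧ (∃ o, Adj q o ∧ o ∉ inn (p n) (S n)) ∧ (∀ v ∈ Q, Conn Q q v) ∧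
      (∀ v ∈ Q, r ≤ dist (dp (δ n) v) (Φ (Final.circ t₀))) ∧
      (∀ v ∈ Q, dist (dp (δ n) v) (Φ (Final.circ t₀)) < ρ) ∧
      ∀ a b : Pt, a ∈ inn (p n) (S n) → dist (dp (δ n) a) (Φ (Final.circ t₀)) < r →
        ρ ≤ dist (dp (δ n) b) (Φ (Final.circ t₀)) → ¬ Conn (inn (p n) (S n) \ Q) a b := by
  have hA := approxF h
  obtain ⟨t₁, t₂, t₃, t₄, d, r, x₀, x₁, x₂, E, F, Y, h23, hd, hr, hx₀, hE, hF, harc, hY, hYr, hYb,
    hYE, hYc⟩ := exists_crosscut Φ ht₀ (ρ := ρ / 2) (half_pos hρ)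
  set z := Φ (Final.circ t₀) with hz
  have hzY : z ∈ Y := hYr z (by rw [dist_self]; exact hr)
  refine ⟨min r (d / 2), lt_min hr (half_pos hd), ?_⟩
  have hε : 0 < min (d / 2) (ρ / 8) := lt_min (half_pos hd) (by positivity)
  have h2 : ∀ᶠ n in atTop, δ n < min (d / 16) (ρ / 64) :=
    hA.lim.eventually (gt_mem_nhds (lt_min (by positivity) (by positivity)))
  filter_upwards [ev_par h hε, h2, ev_ng_in h hx₀, ev_ng_out h hE.out, ev_ng_out h hF.out]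
    with n g1 g2 g3 g4 g5
  obtain ⟨s, hs, hs0, hsN, hdist, -⟩ := g1
  have hδ := hA.pos n
  obtain ⟨g2a, g2b⟩ := lt_min_iff.1 g2
  have e1 : min (d / 2) (ρ / 8) ≤ d / 2 := min_le_left _ _
  have e2 : min (d / 2) (ρ / 8) ≤ ρ / 8 := min_le_right _ _
  obtain ⟨Q, q, k1, k2, k3, k4, k5, k6⟩ := cross_n hδ (h.1 n).2.2.2.1 (h.1 n).2.2.2.2 hs hs0 hsN
    hdist h23 (by linarith) hE hF harc hY hYr hYb hYE hYc (by linarith) g3 g4 g5
  refine ⟨Q, q, k1, k2, k3, k4, fun v hv => ?_, fun v hv => ?_, fun a b ha har hb => ?_⟩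
  · obtain ⟨e, he, h3⟩ := k5 v hv
    have h4 := hYE z hzY e he
    have h5 := dist_triangle_left z e (dp (δ n) v)
    have h6 : min r (d / 2) ≤ d / 2 := min_le_right _ _
    linarith
  · obtain ⟨e, he, h3⟩ := k5 v hv
    have h4 : dist e z < ρ / 2 := by
      rcases he with he | he
      · exact hE.near e he
      · exact hF.near e he
    have h5 := dist_triangle (dp (δ n) v) e z
    linarith
  · exact k6 a b ha (har.trans_le (min_le_left _ _)) hb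

/-- Some inner vertex in the ball of radius `r` at `z` is joined to distance `ρ` from `z` by a path
of inner vertices with heights different from `c`. -/
def FarPt {n : ℕ} (p : ZMod n → ℤ × ℤ) (S : Finset ((ℤ × ℤ) × Bool)) (δ : ℝ)
    (z : ℝ × ℝ) (r ρ : ℝ) (c : ℤ) : Set Hg :=
  {h | ∃ a b : Pt, dist (dp δ a) z < r ∧ ρ ≤ dist (dp δ b) z ∧
    Conn {v | v ∈ inn p S ∧ h v ≠ c} a b}

/-- **Landing at a boundary point**, for all vertices near the point at once. -/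
theorem land_pt (hL : S_land (0 + 2)) (h : Final.Approx Φ δ N k p S) {c : ℤ} {z : ℝ × ℝ}
    (hz : c = 1 ∧ z ∈ Final.arcPlus Φ ∨ c = -1 ∧ z ∈ Final.arcMinus Φ) {ρ ε : ℝ} (hρ : 0 < ρ)
    (hε : 0 < ε) : ∃ r : ℝ, 0 < r ∧ ∀ᶠ n in atTop,
      Pr (CA (p n) (k n) (S n)) (FarPt (p n) (S n) (δ n) z r ρ c) ≤ ε := by
  have hA := approxF h
  obtain ⟨t, ht, ρ₀, hρ₀, H⟩ := multW_ne 0 hL ε hε
  -- the boundary point
  obtain ⟨t₀, ht₀, rfl⟩ : ∃ t₀ ∈ Ioo 0 (2 * Real.pi), Φ (Final.circ t₀) = z := by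
    have hpi := Real.pi_pos
    rcases hz with ⟨-, t₀, ht₀, rfl⟩ | ⟨-, t₀, ht₀, rfl⟩
    · exact ⟨t₀, ⟨ht₀.1, by linarith [ht₀.2]⟩, rfl⟩
    · exact ⟨t₀, ⟨by linarith [ht₀.1], ht₀.2⟩, rfl⟩
  set z := Φ (Final.circ t₀) with hzd
  have hc : c = 1 ∨ c = -1 := by
    rcases hz with h | h
    · exact Or.inl h.1
    · exact Or.inr h.1
  obtain ⟨r₁, hr₁, hcross⟩ := crosscut_ev h ht₀ hρ
  obtain ⟨ρ₂, hρ₂, hdat⟩ := data_near h hz
  have ht' : (1 : ℝ) ≤ t := by exact_mod_cast ht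
  -- the radii
  set r₃ : ℝ := min ρ (min r₁ ρ₂) / 4 with hr₃
  have hr₃0 : 0 < r₃ := by
    rw [hr₃]
    exact div_pos (lt_min hρ (lt_min hr₁ hρ₂)) (by norm_num)
  have hr₃1 : 4 * r₃ ≤ r₁ := by
    rw [hr₃]; linarith [min_le_right ρ (min r₁ ρ₂), min_le_left r₁ ρ₂]
  have hr₃2 : 4 * r₃ ≤ ρ₂ := by
    rw [hr₃]; linarith [min_le_right ρ (min r₁ ρ₂), min_le_right r₁ ρ₂]
  have hr₃3 : 4 * r₃ ≤ ρ := by
    rw [hr₃]; linarith [min_le_left ρ (min r₁ ρ₂)]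
  set r : ℝ := r₃ / (16 * t) with hr
  have hr0 : 0 < r := by positivity
  have hrt : 16 * t * r = r₃ := by
    rw [hr]
    field_simp
  have hrr : 16 * r ≤ r₃ := by
    rw [← hrt]
    nlinarith
  obtain ⟨r', hr', hin⟩ := crosscut_in h ht₀ hr0
  refine ⟨min r' r, lt_min hr' hr0, ?_⟩
  set m := min (r₃ / (2 * (t + 2))) (4 * r / (ρ₀ + 1)) with hm
  have hρ₀' : (1 : ℝ) ≤ ρ₀ := by exact_mod_cast hρ₀
  have hm0 : 0 < m := lt_min (by positivity) (by positivity)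
  have hδm : ∀ᶠ n in atTop, δ n < m := hA.lim.eventually (gt_mem_nhds hm0)
  filter_upwards [hcross, hdat, ev_par h hr0, hδm, hin] with n g1 g2 g3 g4 g5
  have hδ := hA.pos n
  obtain ⟨g4b, g4c⟩ := lt_min_iff.1 g4
  have hp := (h.1 n).2.2.2.1
  have hS := (h.1 n).2.2.2.2
  have : NeZero (N n) := ⟨by have := hp.1; omega⟩
  have e1 : δ n * (t + 2) ≤ r₃ / 2 := by
    rw [lt_div_iff₀ (by positivity)] at g4b
    linarith
  have e2 : δ n * (ρ₀ + 1) ≤ 4 * r := by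
    rw [lt_div_iff₀ (by positivity)] at g4c
    linarith
  have e3 : 3 * δ n ≤ r₃ / 2 := by
    nlinarith
  obtain ⟨Q, q, hqQ, hQV, hqo, hQc, hQz, hQcut⟩ := g1
  obtain ⟨Q₁, q₁, hq₁Q, hQ₁V, ⟨o₁, hqo₁, ho₁⟩, hQ₁c, hQ₁z, hQ₁i, hQ₁cut⟩ := g5
  obtain ⟨s, hs, hs0, hsN, -, hdist⟩ := g3
  obtain ⟨i, hi, hit⟩ := exists_seg hs hs0 hsN ht₀
  have hx₀z : dist (dp (δ n) (p n i)) z < r := hdist i hi t₀ hit
  set V := inn (p n) (S n) with hV
  set x₀ : Pt := p n i with hx₀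
  have hx₀V : x₀ ∉ V := fun hin => (F.Dom.dl_inner.1 (Finset.mem_coe.1 hin)).2 _ rfl
  -- the lattice radii
  set ρL : ℤ := ⌈8 * r / δ n⌉ with hρL
  set R : ℤ := ⌊r₃ / δ n⌋ with hR
  have hρL1 : 8 * r / δ n ≤ ρL := Int.le_ceil _
  have hρL2 : (ρL : ℝ) < 8 * r / δ n + 1 := Int.ceil_lt_add_one _
  have hR1 : (R : ℝ) ≤ r₃ / δ n := Int.floor_le _
  have hR2 : r₃ / δ n < R + 1 := Int.lt_floor_add_one _
  have k1 : ρ₀ ≤ ρL := by
    have h1 : (ρ₀ : ℝ) ≤ ρL := by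
      refine le_trans ?_ hρL1
      rw [le_div_iff₀ hδ]
      nlinarith
    exact_mod_cast h1
  have k2 : t * ρL ≤ R := by
    have h1 : (t * ρL : ℝ) < R + 1 := by
      refine lt_of_le_of_lt ?_ hR2
      rw [le_div_iff₀ hδ]
      have h2 : (ρL : ℝ) * δ n ≤ 8 * r + δ n := by
        have h3 : (ρL : ℝ) * δ n ≤ (8 * r / δ n + 1) * δ n :=
          mul_le_mul_of_nonneg_right hρL2.le hδ.le
        rw [add_mul, div_mul_cancel₀ _ hδ.ne', one_mul] at h3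
        exact h3
      calc (t : ℝ) * ρL * δ n = t * (ρL * δ n) := by ring
        _ ≤ t * (8 * r + δ n) := mul_le_mul_of_nonneg_left h2 (by linarith)
        _ = r₃ / 2 + t * δ n := by rw [← hrt]; ring
        _ ≤ r₃ := by nlinarith
    have h2 : t * ρL < R + 1 := by exact_mod_cast h1
    omega
  have hRδ : 3 / 2 * δ n * (R + 1 : ℤ) ≤ 2 * r₃ := by
    have h1 : (R : ℝ) * δ n ≤ r₃ := by rwa [le_div_iff₀ hδ] at hR1
    push_cast
    nlinarith
  -- vertices in the box of radius `R + 1`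
  have hbox : ∀ v, ds x₀ v ≤ R + 1 → dist (dp (δ n) v) z < 4 * r₃ := by
    intro v hv
    have h1 := dist_le_ds hδ hv
    have h2 := dist_triangle (dp (δ n) v) (dp (δ n) x₀) z
    linarith
  -- vertices near `z` are in the box of radius `ρL`
  have hnear : ∀ v, dist (dp (δ n) v) z < r → v ∈ bx x₀ ρL := by
    intro v hv
    rw [mem_bx_iff]
    refine ds_le_of_dist hδ (le_trans ?_ hρL1)
    refine div_le_div_of_nonneg_right ?_ hδ.le
    have h4 := dist_triangle_right (dp (δ n) v) (dp (δ n) x₀) z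
    linarith
  -- the set `N`
  set NN : Set Pt := {v | Conn (V ∩ bx x₀ ρL) q₁ v} with hNN
  have hQ₁b : Q₁ ⊆ V ∩ bx x₀ ρL := fun v hv => ⟨hQ₁V hv, hnear v (hQ₁i v hv)⟩
  have hqN : q₁ ∈ NN := Conn.refl (hQ₁b hq₁Q)
  have hp₀ : NO V q₁ := ⟨hQ₁V hq₁Q, o₁, hqo₁, ho₁⟩
  -- the walls
  have hcfg : (Cfg V (exa V (dat (p n) (k n)))).Nonempty := ca_ne (polyF hp) (enclF hS) (k n)
  have key := H c V V x₀ ρL R q₁ (dat (p n) (k n)) NN Q
    (by rcases hc with rfl | rfl <;> decide)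
    ⟨Finset.finite_toSet _, PLAN.CC_inner (polyF hp) (enclF hS), Subset.rfl, hcfg,
      fun v hv _ => (Co_subset hv).1⟩
    (fun v _ => by
      rcases dat_pm (p := p n) (k n) v with h1 | h1 <;> rcases hc with rfl | rfl <;>
        rw [h1] <;> norm_num)
    (fun v hv w hw hwv _ => by
      obtain ⟨j, rfl⟩ := inn_out hS (Co_subset hw).1 hwv hv
      refine g2 j ?_
      have h1 := (Co_subset hw).2
      rw [mem_bx_iff] at h1
      have h2 := ds_adj (x₀ := x₀) hwv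
      rw [abs_le] at h2
      linarith [hbox (p n j) (by omega)])
    hx₀V k1 k2 hp₀ hqN (fun v hv => hv.right_mem.1) (fun v hv => hv.right_mem.2)
    (fun v hv => conn_comp hqN hv) hQV
    (by
      rw [Set.disjoint_left]
      intro v hv hvC
      have h1 := (Co_subset hvC).2
      rw [mem_bx_iff] at h1
      linarith [hQz v hv, hbox v (by omega)])
    (fun v hv w hw => (hQc v hv).symm.trans (hQc w hw))
  refine (Pr_mono fun g hg hfar => ?_).trans key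
  obtain ⟨a, b, ha, hb, hab⟩ := hfar
  obtain ⟨ha1, ha2⟩ := lt_min_iff.1 ha
  have haV : a ∈ V := hab.left_mem.1
  have haN : a ∈ NN := by
    -- the path up to its first exit from the ball of radius `r`
    obtain ⟨q', o', c1, c2, c3, c4⟩ := first_exit (V := {v | dist (dp (δ n) v) z < r}) hab ha2
      (by
        rw [mem_ofPred_eq, not_lt]
        linarith)
    have c4' : r ≤ dist (dp (δ n) o') z := not_lt.1 c4
    rcases conn_meet (Q := Q₁) c1 with h1 | ⟨y, hy, h1⟩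
    · exfalso
      have h3 : Conn (V \ Q₁) a o' := by
        have h4 : Conn (V \ Q₁) a q' := by
          refine Conn.mono ?_ h1
          intro v hv
          exact ⟨hv.1.1.1, hv.2⟩
        exact h4.tail c2 ⟨c3.1, fun hc => by linarith [hQ₁i o' hc]⟩
      exact hQ₁cut a o' haV ha1 c4' h3
    · have h2 : Conn (V ∩ bx x₀ ρL) a y := by
        refine Conn.mono ?_ h1
        intro v hv
        exact ⟨hv.1.1, hnear v hv.2⟩
      exact (Conn.mono hQ₁b (hQ₁c y hy)).trans h2.symm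
  rcases conn_meet (Q := Q) hab with h1 | ⟨y, hy, h1⟩
  · exfalso
    have h3 : Conn (V \ Q) a b := by
      refine Conn.mono ?_ h1
      intro v hv
      exact ⟨hv.1.1, hv.2⟩
    refine hQcut a b haV ?_ hb h3
    linarith
  · refine ⟨a, haN, y, hy, Conn.mono ?_ h1⟩
    intro v hv
    exact Or.inl ⟨hv.1, hv.2⟩

end Vale.Agent.P153.R2.SLEX
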