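import Vale.Agent.P153.R2.SLEX.Cover
import Vale.Agent.P153.R2.UNIQ.Prob
import Vale.Agent.P153.R2.FLDI.Fin2

/-!
# P153, block SLEX, X5: `I_cross` from crossings inside the domain and boundary points

* `I_int`: for a universal ratio `L` the number of crossings of a fixed annulus inside the domain
  is tight;
* `I_bdp`: a fixed point of one of the two open boundary arcs is not approached;
* `i_cross_of : I_int → I_bdp → UNIQ.I_cross`.
-/

set_option autoImplicit false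
set_option linter.unusedVariables false

open Set Metric Filter Topology MeasureTheory ProbabilityTheory

namespace Vale.Agent.P153.R2.SLEX

open Vale.Agent.P153.R2.Final Vale.Agent.P153.R2.C1 Vale.Agent.P153.R2.R1
  Vale.Agent.P153.R2.UNIQ

/-- the number of crossings of a fixed annulus inside the domain is tight, for one universal
ratio -/
def I_int : Prop := ∃ L : ℝ, 3 ≤ L ∧ ∀ (Φ : (ℝ × ℝ) ≃ₜ (ℝ × ℝ))
  (δ : ℕ → ℝ) (N k : ℕ → ℕ) (p : ∀ n, ZMod (N n) → ℤ × ℤ) (S : ℕ → Finset Tri),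
    Approx Φ δ N k p S → ∀ x : ∀ n : ℕ, Hg → C(unitInterval, ℂ),
      (∀ n, ∀ h ∈ Heights (p n) (k n) (S n), IsInterface (p n) (k n) (S n) (δ n) h (x n h)) →
      ∀ (w : ℂ) (ρ : ℝ), 0 < ρ → closedBall w (L * ρ) ⊆ toC '' dom Φ → ∀ e : ℝ, 0 < e →
        ∃ m : ℕ, ∀ᶠ n in atTop,
          (law (p n) (k n) (S n)).real {h | Cross (x n h) w ρ (L * ρ) m} ≤ e

/-- a fixed point of one of the open boundary arcs is not approached -/
def I_bdp : Prop := ∀ (Φ : (ℝ × ℝ) ≃ₜ (ℝ × ℝ))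
  (δ : ℕ → ℝ) (N k : ℕ → ℕ) (p : ∀ n, ZMod (N n) → ℤ × ℤ) (S : ℕ → Finset Tri),
    Approx Φ δ N k p S → ∀ x : ∀ n : ℕ, Hg → C(unitInterval, ℂ),
      (∀ n, ∀ h ∈ Heights (p n) (k n) (S n), IsInterface (p n) (k n) (S n) (δ n) h (x n h)) →
      ∀ t₀ ∈ Ioo 0 Real.pi ∪ Ioo Real.pi (2 * Real.pi), ∀ e : ℝ, 0 < e →
        ∃ ε > 0, ∀ᶠ n in atTop,
          (law (p n) (k n) (S n)).real
            {h | ∃ s : unitInterval, dist (x n h s) (toC (Φ (circ t₀))) < ε} ≤ e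

/-- every strand crosses one of the small annuli -/
theorem strand_cross {Φ : (ℝ × ℝ) ≃ₜ (ℝ × ℝ)} {r : ℝ} {N : ℕ} {ε η : ℝ}
    (hst : ∀ C : Set ℂ, IsPreconnected C →
      C ⊆ homC Φ '' {w | |‖w‖ - 1| < η} →
      (∀ i : ℕ, i < 2 * N → ∀ z ∈ C, ε ≤ dist z (toC (Φ (circ (ang N i))))) →
      ∀ z ∈ C, ∀ z' ∈ C, dist z z' < 2 * r) {W : Finset ℂ} {ρ ρ' : ℝ} (hρ : ρ' ≤ r)
    (hW : ∀ z ∈ homC Φ '' closedBall 0 (1 - η), ∃ w ∈ W, dist z w ≤ ρ)
    {g : C(unitInterval, ℂ)} (hg : ∀ s, g s ∈ homC Φ '' ball 0 (1 + η))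
    (hav : ∀ i : ℕ, i < 2 * N → ∀ s, ε ≤ dist (g s) (toC (Φ (circ (ang N i)))))
    {u v : unitInterval} (huv : u ≤ v) {y : ℂ} (hu : dist (g u) y ≤ r)
    (hv : 3 * r ≤ dist (g v) y) :
    ∃ w ∈ W, ∃ a ∈ Icc u v, ∃ b ∈ Icc u v, dist (g a) w ≤ ρ ∧ ρ' ≤ dist (g b) w := by
  have hd : 2 * r ≤ dist (g u) (g v) := by
    have := dist_triangle_left (g v) y (g u)
    linarith
  by_cases h : ∃ s ∈ Icc u v, g s ∈ homC Φ '' closedBall 0 (1 - η)
  · obtain ⟨s, hs, hgs⟩ := h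
    obtain ⟨w, hw, hsw⟩ := hW _ hgs
    refine ⟨w, hw, s, hs, ?_⟩
    have h1 := dist_triangle_right (g u) (g v) w
    rcases le_total r (dist (g u) w) with h2 | h2
    · exact ⟨u, left_mem_Icc.2 huv, hsw, hρ.trans h2⟩
    · exact ⟨v, right_mem_Icc.2 huv, hsw, by linarith⟩
  · exfalso
    push Not at h
    have h1 := hst (g '' Icc u v) (isPreconnected_Icc.image _ g.continuous.continuousOn) ?_ ?_
      (g u) (mem_image_of_mem _ (left_mem_Icc.2 huv)) (g v)
      (mem_image_of_mem _ (right_mem_Icc.2 huv))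
    · linarith
    · rintro _ ⟨s, hs, rfl⟩
      obtain ⟨w, hw, hws⟩ := hg s
      refine ⟨w, ?_, hws⟩
      rw [mem_ball_zero_iff] at hw
      rw [mem_ofPred_eq, abs_lt]
      refine ⟨?_, by linarith⟩
      by_contra hcon
      refine h s hs ⟨w, ?_, hws⟩
      rw [mem_closedBall_zero_iff]
      linarith
    · rintro i hi _ ⟨s, -, rfl⟩
      exact hav i hi s

theorem law_compl {n : ℕ} {p : ZMod n → ℤ × ℤ} {k : ℕ} {S : Finset Tri} (hp : IsPolygon p)
    (hS : Encloses p S) : (law p k S) (Heights p k S)ᶜ = 0 := by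
  rw [law, unif, measure_uniformOn _ (i_fin n k p S hp hS).1]
  have : {x : ↥(Heights p k S) | (x : ℤ × ℤ → ℤ) ∈ (Heights p k S)ᶜ} = ∅ := by
    ext x
    simp
  rw [this, measure_empty]

/-- **X5**: tightness of the number of crossings of all annuli -/
theorem i_cross_of (hI : I_int) (hB : I_bdp) : I_cross := by
  classical
  obtain ⟨L, hL, hI⟩ := hI
  intro Φ δ N k p S hA x hx y r hr e he
  obtain ⟨N₀, hN3, hsm⟩ := small_strand Φ hr
  have hN0 : (0 : ℝ) < N₀ := by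
    have : 0 < N₀ := by omega
    exact_mod_cast this
  have hB' : ∀ i : ℕ, ∃ ε > 0, i < 2 * N₀ → ∀ᶠ n in atTop, (law (p n) (k n) (S n)).real
      {h | ∃ s : unitInterval, dist (x n h s) (toC (Φ (circ (ang N₀ i)))) < ε} ≤
        e / (4 * N₀) := by
    intro i
    by_cases hi : i < 2 * N₀
    · obtain ⟨ε, hε, h⟩ := hB Φ δ N k p S hA x hx (ang N₀ i) (ang_mem hi) (e / (4 * N₀))
        (by positivity)
      exact ⟨ε, hε, fun _ => h⟩
    · exact ⟨1, one_pos, fun h => absurd h hi⟩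
  choose ε hε hεp using hB'
  obtain ⟨ε₀, hε₀, hε₀'⟩ : ∃ ε₀ > 0, ∀ i < 2 * N₀, ε₀ ≤ ε i := by
    have hne : (Finset.range (2 * N₀)).Nonempty := ⟨0, by rw [Finset.mem_range]; omega⟩
    refine ⟨(Finset.range (2 * N₀)).inf' hne ε, ?_, ?_⟩
    · rw [gt_iff_lt, Finset.lt_inf'_iff]
      exact fun i _ => hε i
    · exact fun i hi => Finset.inf'_le _ (Finset.mem_range.2 hi)
  obtain ⟨η, hη, hη2, hst⟩ := hsm ε₀ hε₀
  have hK : IsCompact (homC Φ '' closedBall 0 (1 - η)) :=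
    (isCompact_closedBall 0 (1 - η)).image (homC Φ).continuous
  have hKD : homC Φ '' closedBall 0 (1 - η) ⊆ DC Φ := by
    rw [DC_eq]
    exact image_mono (closedBall_subset_ball (by linarith))
  obtain ⟨τ, hτ, hτK⟩ := hK.exists_cthickening_subset_open (isOpen_DC Φ) hKD
  have hL0 : 0 < L := by linarith
  obtain ⟨ρ, hρ, hρτ, hρr⟩ : ∃ ρ > 0, L * ρ ≤ τ ∧ L * ρ ≤ r := by
    refine ⟨min τ r / L, by positivity, ?_, ?_⟩
    · rw [mul_div_cancel₀ _ hL0.ne']; exact min_le_left _ _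
    · rw [mul_div_cancel₀ _ hL0.ne']; exact min_le_right _ _
  obtain ⟨W', hW'K, hW'f, hW'c⟩ := hK.finite_cover_balls hρ
  obtain ⟨W, hWK, hWc⟩ : ∃ W : Finset ℂ, (∀ w ∈ W, w ∈ homC Φ '' closedBall 0 (1 - η)) ∧
      ∀ z ∈ homC Φ '' closedBall 0 (1 - η), ∃ w ∈ W, dist z w ≤ ρ := by
    refine ⟨hW'f.toFinset, fun w hw => hW'K (hW'f.mem_toFinset.1 hw), fun z hz => ?_⟩
    obtain ⟨w, hw, hzw⟩ := mem_iUnion₂.1 (hW'c hz)
    exact ⟨w, hW'f.mem_toFinset.2 hw, (mem_ball.1 hzw).le⟩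
  have hm : ∀ w : ℂ, ∃ m : ℕ, w ∈ W → ∀ᶠ n in atTop,
      (law (p n) (k n) (S n)).real {h | Cross (x n h) w ρ (L * ρ) m} ≤ e / (2 * (W.card + 1)) := by
    intro w
    by_cases hw : w ∈ W
    · obtain ⟨m, h⟩ := hI Φ δ N k p S hA x hx w ρ hρ (by
        refine Subset.trans ?_ hτK
        exact (closedBall_subset_closedBall hρτ).trans (closedBall_subset_cthickening (hWK w hw) τ))
        (e / (2 * (W.card + 1))) (by positivity)
      exact ⟨m, fun _ => h⟩
    · exact ⟨0, fun h => absurd h hw⟩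
  choose m hmp using hm
  refine ⟨∑ w ∈ W, 2 * m w + 1, ?_⟩
  have ev1 : ∀ᶠ n in atTop, ∀ w ∈ W, (law (p n) (k n) (S n)).real
      {h | Cross (x n h) w ρ (L * ρ) (m w)} ≤ e / (2 * (W.card + 1)) :=
    (Filter.eventually_all_finset W).2 fun w hw => hmp w hw
  have ev2 : ∀ᶠ n in atTop, ∀ i ∈ Finset.range (2 * N₀), (law (p n) (k n) (S n)).real
      {h | ∃ s : unitInterval, dist (x n h s) (toC (Φ (circ (ang N₀ i)))) < ε i} ≤
        e / (4 * N₀) :=
    (Filter.eventually_all_finset _).2 fun i hi => hεp i (Finset.mem_range.1 hi)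
  filter_upwards [region_sub hA hη, ev1, ev2] with n hreg hn1 hn2
  obtain ⟨hδ0, -, -, hp, hS⟩ := hA.1 n
  obtain ⟨μ, hμ⟩ : ∃ μ, μ = law (p n) (k n) (S n) := ⟨_, rfl⟩
  have hprob : IsProbabilityMeasure μ := by rw [hμ]; exact FLDI.law_prob hA n
  rw [← hμ] at hn1 hn2 ⊢
  have hcompl : μ (Heights (p n) (k n) (S n))ᶜ = 0 := by rw [hμ]; exact law_compl hp hS
  have hsub : {h | Cross (x n h) y r (3 * r) (∑ w ∈ W, 2 * m w + 1)} ⊆
      ((⋃ w ∈ W, {h | Cross (x n h) w ρ (L * ρ) (m w)}) ∪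
        ⋃ i ∈ Finset.range (2 * N₀),
          {h | ∃ s : unitInterval, dist (x n h s) (toC (Φ (circ (ang N₀ i)))) < ε i}) ∪
        (Heights (p n) (k n) (S n))ᶜ := by
    intro h hh
    by_cases hH : h ∈ Heights (p n) (k n) (S n)
    · left
      by_cases hb : ∃ i < 2 * N₀, ∃ s : unitInterval,
          dist (x n h s) (toC (Φ (circ (ang N₀ i)))) < ε i
      · right
        obtain ⟨i, hi, hs⟩ := hb
        exact mem_iUnion₂.2 ⟨i, Finset.mem_range.2 hi, hs⟩
      · left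
        push Not at hb
        obtain ⟨t, ht, htc⟩ := hh
        have hint := hx n h hH
        obtain ⟨w, hw, hc⟩ := count_small (g := x n h) ht (W := W) (ρ := ρ) (ρ' := L * ρ) (m := m)
          (M := ∑ w ∈ W, 2 * m w + 1) (Nat.lt_succ_self _) (by
            intro i hi
            refine strand_cross hst hρr hWc ?_ ?_ (ht (by omega)) (htc i hi).1 (htc i hi).2
            · intro s
              refine hreg ?_
              exact ⟨_, (hint.2.2.2 s).1, by rw [toC]⟩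
            · intro i hi s
              exact (hε₀' i hi).trans (hb i hi s))
        exact mem_iUnion₂.2 ⟨w, hw, hc⟩
    · right
      exact hH
  have h1 : μ.real (⋃ w ∈ W, {h | Cross (x n h) w ρ (L * ρ) (m w)}) ≤ e / 2 := by
    refine (measureReal_biUnion_finset_le _ _).trans ((Finset.sum_le_sum hn1).trans ?_)
    rw [Finset.sum_const, nsmul_eq_mul, ← mul_div_assoc, div_le_div_iff₀ (by positivity) two_pos]
    nlinarith
  have h2 : μ.real (⋃ i ∈ Finset.range (2 * N₀),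
      {h | ∃ s : unitInterval, dist (x n h s) (toC (Φ (circ (ang N₀ i)))) < ε i}) ≤ e / 2 := by
    refine (measureReal_biUnion_finset_le _ _).trans ((Finset.sum_le_sum hn2).trans ?_)
    rw [Finset.sum_const, nsmul_eq_mul, Finset.card_range]
    push_cast
    rw [← mul_div_assoc, div_le_div_iff₀ (by positivity) two_pos]
    nlinarith
  have h3 : μ.real (Heights (p n) (k n) (S n))ᶜ = 0 := by
    rw [measureReal_def, hcompl, ENNReal.toReal_zero]
  refine (measureReal_mono hsub).trans ?_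
  refine (measureReal_union_le _ _).trans ?_
  rw [h3, add_zero]
  refine (measureReal_union_le _ _).trans ?_
  linarith

end Vale.Agent.P153.R2.SLEX
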