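import Vale.Agent.P153.R2.SLEX.BdpA
import Vale.Agent.P153.R2.POLY.Can
import Vale.Agent.P153.R2.DRV.Far
import Vale.Agent.P153.R2.SLEX.CoverP

/-!
P153, block SLEX, piece X4, part 2: the vertices next to a point of the interface; the interface
avoids the boundary points different from the marked points.
-/

set_option autoImplicit false
set_option linter.unusedVariables false

namespace Vale.Agent.P153.R2.SLEX

open Filter Topology Set
open Vale.Agent.P145.PT Vale.Agent.P153 Vale.Agent.P153.F.Top Vale.Agent.P153.R2.FLDI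
open Vale.Agent.P153.Topo (Conn)
open Vale.Agent.P153.R2.LOC (S_land)
open Vale.Agent.P153.R2.UNIQ (Hg)
open Vale.Agent.P153.R2.INTF (St run fa ah nx Good)
open Vale.Agent.P153.R2.DRV (ru nu st sg sh pl Cs Pos)

section Lattice

variable {n k : ℕ} {p : ZMod n → ℤ × ℤ} {S : Finset Final.Tri} {δ : ℝ} {g h : Hg}

theorem pn_verts (hp : Final.IsPolygon p) (hS : Final.Encloses p S) (i : ZMod n) :
    p i ∈ Final.verts S := F.Dom.dl_poly (polyF hp) (enclF hS) i

/-- The vertices next to the interface are vertices of the domain. -/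
theorem ru_verts (hp : Final.IsPolygon p) (hS : Final.Encloses p S) (hk : 0 < k) (hkn : k < n)
    (hg : g ∈ Cs p k S) (j : ℕ) :
    (ru p S g j).1 ∈ Final.verts S ∧ (ru p S g j).2 ∈ Final.verts S := by
  induction j with
  | zero =>
    show (st p S).1 ∈ _ ∧ (st p S).2 ∈ _
    unfold st
    split_ifs
    · exact ⟨pn_verts hp hS _, pn_verts hp hS _⟩
    · exact ⟨pn_verts hp hS _, pn_verts hp hS _⟩
  | succ j ih =>
    by_cases hf : fa (ru p S g j) ∈ S
    · have e : ru p S g (j + 1) = nx g (ru p S g j) := INTF.run_succ hf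
      have h1 := INTF.ah_mem (DRV.ru_good hp hS hk hkn hg j).1 hf
      rw [e]
      unfold nx
      split_ifs
      · exact ⟨h1, ih.2⟩
      · exact ⟨ih.1, h1⟩
    · have e : ru p S g (j + 1) = ru p S g j := INTF.run_stop hf (j + 1) (Nat.le_succ j)
      rw [e]
      exact ih

/-- The vertices on each side of the interface are joined to the start. -/
theorem ru_conn (hp : Final.IsPolygon p) (hS : Final.Encloses p S) (hk : 0 < k) (hkn : k < n)
    (hg : g ∈ Cs p k S) (j : ℕ) :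
    Conn {v | v ∈ Final.verts S ∧ g v = 1} (ru p S g j).1 (st p S).1 ∧
    Conn {v | v ∈ Final.verts S ∧ g v = -1} (ru p S g j).2 (st p S).2 := by
  have hval : ∀ j, g (ru p S g j).1 = 1 ∧ g (ru p S g j).2 = -1 := fun j =>
    INTF.CA.good_val hg (DRV.ru_good hp hS hk hkn hg j)
  have hm1 : ∀ j, (ru p S g j).1 ∈ {v | v ∈ Final.verts S ∧ g v = 1} := fun j =>
    ⟨(ru_verts hp hS hk hkn hg j).1, (hval j).1⟩
  have hm2 : ∀ j, (ru p S g j).2 ∈ {v | v ∈ Final.verts S ∧ g v = -1} := fun j =>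
    ⟨(ru_verts hp hS hk hkn hg j).2, (hval j).2⟩
  induction j with
  | zero => exact ⟨Conn.refl (hm1 0), Conn.refl (hm2 0)⟩
  | succ j ih =>
    by_cases hf : fa (ru p S g j) ∈ S
    · have e : ru p S g (j + 1) = nx g (ru p S g j) := INTF.run_succ hf
      have ha := (DRV.ru_good hp hS hk hkn hg j).1
      have k1 := hm1 (j + 1)
      have k2 := hm2 (j + 1)
      rw [e] at k1 k2 ⊢
      unfold nx at k1 k2 ⊢
      split_ifs at k1 k2 ⊢ with hc
      · refine ⟨?_, ih.2⟩
        exact (Conn.of_adj (hm1 j) k1 (INTF.ah_adj1 ha)).symm.trans ih.1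
      · refine ⟨ih.1, ?_⟩
        exact (Conn.of_adj k2 (hm2 j) (INTF.ah_adj2 ha)).trans ih.2
    · have e : ru p S g (j + 1) = ru p S g j := INTF.run_stop hf (j + 1) (Nat.le_succ j)
      rw [e]
      exact ih

/-- The marked vertex with the height `c`. -/
def ec (p : ZMod n → ℤ × ℤ) (c : ℤ) : ℤ × ℤ := if c = 1 then p 0 else p (-1)

/-- For both signs `c` a vertex next to step `j` of the interface has the height `c` and is joined
to the marked vertex of height `c`. -/
theorem ru_side (hp : Final.IsPolygon p) (hS : Final.Encloses p S) (hk : 0 < k) (hkn : k < n)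
    (hh : h ∈ Final.Heights p k S) (j : ℕ) {c : ℤ} (hc : c = 1 ∨ c = -1) :
    ∃ a : ℤ × ℤ, (a = (ru p S (sh p S h) j).1 ∨ a = (ru p S (sh p S h) j).2) ∧
      Conn {v | v ∈ Final.verts S ∧ h v = c} a (ec p c) := by
  have hg := DRV.sh_mem hp hS hh
  obtain ⟨h1, h2⟩ := ru_conn hp hS hk hkn hg j
  have hsg : ∀ (v : ℤ × ℤ) (e : ℤ), v ∈ Final.verts S → sh p S h v = e → h v = sg p S * e := by
    intro v e hv he
    rw [← he, DRV.sh_in hv, DRV.sg_mul_sg]
  have hn : (-1 : ℤ) ≠ 1 := by norm_num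
  by_cases hP : Pos p S
  · have hs1 : (st p S).1 = p 0 := by unfold st; rw [if_pos hP]
    have hs2 : (st p S).2 = p (-1) := by unfold st; rw [if_pos hP]
    rw [hs1] at h1
    rw [hs2] at h2
    rcases hc with rfl | rfl
    · refine ⟨_, Or.inl rfl, ?_⟩
      unfold ec
      rw [if_pos rfl]
      refine Conn.mono ?_ h1
      intro v hv
      refine ⟨hv.1, ?_⟩
      rw [hsg v 1 hv.1 hv.2, DRV.sg_pos hP]
      norm_num
    · refine ⟨_, Or.inr rfl, ?_⟩
      unfold ec
      rw [if_neg hn]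
      refine Conn.mono ?_ h2
      intro v hv
      refine ⟨hv.1, ?_⟩
      rw [hsg v (-1) hv.1 hv.2, DRV.sg_pos hP]
      norm_num
  · have hs1 : (st p S).1 = p (-1) := by unfold st; rw [if_neg hP]
    have hs2 : (st p S).2 = p 0 := by unfold st; rw [if_neg hP]
    rw [hs1] at h1
    rw [hs2] at h2
    rcases hc with rfl | rfl
    · refine ⟨_, Or.inr rfl, ?_⟩
      unfold ec
      rw [if_pos rfl]
      refine Conn.mono ?_ h2
      intro v hv
      refine ⟨hv.1, ?_⟩
      rw [hsg v (-1) hv.1 hv.2, DRV.sg_neg hP]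
      norm_num
    · refine ⟨_, Or.inl rfl, ?_⟩
      unfold ec
      rw [if_neg hn]
      refine Conn.mono ?_ h1
      intro v hv
      refine ⟨hv.1, ?_⟩
      rw [hsg v 1 hv.1 hv.2, DRV.sg_neg hP]
      norm_num

/-! ### Distances -/

theorem dist_le_toC (a b : ℝ × ℝ) : dist a b ≤ dist (Final.toC a) (Final.toC b) := by
  rw [Prod.dist_eq, max_le_iff, Complex.dist_eq]
  constructor
  · rw [Real.dist_eq]
    exact Complex.abs_re_le_norm (Final.toC a - Final.toC b)
  · rw [Real.dist_eq]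
    exact Complex.abs_im_le_norm (Final.toC a - Final.toC b)

theorem toC_dp (δ : ℝ) (v : ℤ × ℤ) :
    Final.toC (dp δ v) = (δ : ℂ) * Final.toC (Final.pt v) := by
  rw [← dp_pt]
  apply Complex.ext
  · simp [Final.toC]
  · simp [Final.toC]

theorem mid_near1 (hδ : 0 ≤ δ) {v w : ℤ × ℤ} (h : Adj v w) :
    dist (Final.toC (dp δ v)) (Final.mid δ v w) ≤ δ := by
  rw [dist_eq_norm, toC_dp, DRV.mid_eq]
  have e : (δ : ℂ) * Final.toC (Final.pt v) -
      ((δ / 2 : ℝ) : ℂ) * (Final.toC (Final.pt v) + Final.toC (Final.pt w)) =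
      ((δ / 2 : ℝ) : ℂ) * (Final.toC (Final.pt v) - Final.toC (Final.pt w)) := by
    push_cast
    ring
  rw [e, norm_mul, Complex.norm_real, Real.norm_eq_abs, abs_of_nonneg (by positivity)]
  have := DRV.pt_near h
  nlinarith

theorem mid_comm (δ : ℝ) (v w : ℤ × ℤ) : Final.mid δ v w = Final.mid δ w v := by
  rw [DRV.mid_eq, DRV.mid_eq, add_comm]

/-- The points of the polygonal curve are near the vertices next to it. -/
theorem pl_near (hδ : 0 ≤ δ) (hp : Final.IsPolygon p) (hS : Final.Encloses p S) (hk : 0 < k)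
    (hkn : k < n) (hg : g ∈ Cs p k S) {t : ℝ} (h0 : 0 ≤ t) {a : ℤ × ℤ}
    (ha : a = (ru p S g ⌊t⌋₊).1 ∨ a = (ru p S g ⌊t⌋₊).2) :
    dist (Final.toC (dp δ a)) (pl δ (ru p S g) t) ≤ 2 * δ := by
  have h1 : ((⌊t⌋₊ : ℕ) : ℝ) ≤ t := Nat.floor_le h0
  have h2 : t < (⌊t⌋₊ : ℕ) + 1 := Nat.lt_floor_add_one t
  set m := ⌊t⌋₊ with hm
  have h3 : dist (Final.toC (dp δ a)) (Final.mid δ (ru p S g m).1 (ru p S g m).2) ≤ δ := by
    have hadj := (DRV.ru_good hp hS hk hkn hg m).1
    rcases ha with rfl | rfl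
    · exact mid_near1 hδ hadj
    · rw [mid_comm]
      exact mid_near1 hδ (Topo.adj_symm hadj)
  have h4 : dist (Final.mid δ (ru p S g m).1 (ru p S g m).2) (pl δ (ru p S g) t) ≤ δ := by
    rw [dist_eq_norm, DRV.pl_eq m h1 h2.le]
    have e : Final.mid δ (ru p S g m).1 (ru p S g m).2 -
        (((1 - (t - m) : ℝ) : ℂ) * Final.mid δ (ru p S g m).1 (ru p S g m).2 +
          ((t - m : ℝ) : ℂ) * Final.mid δ (ru p S g (m + 1)).1 (ru p S g (m + 1)).2) =
        ((t - m : ℝ) : ℂ) * (Final.mid δ (ru p S g m).1 (ru p S g m).2 -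
          Final.mid δ (ru p S g (m + 1)).1 (ru p S g (m + 1)).2) := by
      push_cast
      ring
    rw [e, norm_mul, Complex.norm_real, Real.norm_eq_abs, abs_of_nonneg (by linarith)]
    have h5 := DRV.step_near hδ hp hS hk hkn hg m
    calc (t - m) * ‖Final.mid δ (ru p S g m).1 (ru p S g m).2 -
          Final.mid δ (ru p S g (m + 1)).1 (ru p S g (m + 1)).2‖ ≤ 1 * δ :=
          mul_le_mul (by linarith) h5 (norm_nonneg _) zero_le_one
      _ = δ := one_mul δ
  linarith [dist_triangle (Final.toC (dp δ a)) (Final.mid δ (ru p S g m).1 (ru p S g m).2)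
    (pl δ (ru p S g) t)]

/-- **The vertices next to a point of the interface.** -/
theorem intf_near (hδ : 0 < δ) (hp : Final.IsPolygon p) (hS : Final.Encloses p S) (hk : 0 < k)
    (hkn : k < n) (hh : h ∈ Final.Heights p k S) {x : C(unitInterval, ℂ)}
    (hx : Final.IsInterface p k S δ h x) (s : unitInterval) {c : ℤ} (hc : c = 1 ∨ c = -1) :
    ∃ a : ℤ × ℤ, dist (Final.toC (dp δ a)) (x s) ≤ 2 * δ ∧
      Conn {v | v ∈ Final.verts S ∧ h v = c} a (ec p c) := by
  obtain ⟨-, -, -, -, -, hcan⟩ := POLY.s_can n k p S δ hδ hk hkn hp hS h hh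
  obtain ⟨σ, -, hσ2, hσ0, hσ1, hσ⟩ := hcan x hx
  have h0 : 0 ≤ σ s := by
    rw [← hσ0]
    exact hσ2.monotone (unitInterval.nonneg s)
  obtain ⟨a, ha1, ha2⟩ := ru_side hp hS hk hkn hh ⌊σ s⌋₊ hc
  refine ⟨a, ?_, ha2⟩
  rw [hσ s]
  exact pl_near hδ.le hp hS hk hkn (DRV.sh_mem hp hS hh) h0 ha1

end Lattice

/-! ### The law -/

section Law

variable {n k : ℕ} {p : ZMod n → ℤ × ℤ} {S : Finset Final.Tri}

/-- The probability of a set of heights. -/
theorem law_real (hp : Final.IsPolygon p) (hS : Final.Encloses p S) (A : Set Hg) :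
    (Final.law p k S).real A = Pr (FLDI.CA p k S) {g | cut0 S g ∈ A} := by
  classical
  have hfin : (Final.Heights p k S).Finite := by
    rw [heightsF]
    exact hB_fin (polyF hp) (enclF hS)
  have hA : (Final.law p k S).real A = (Final.law p k S).real (Final.Heights p k S ∩ A) := by
    unfold Final.law Final.unif
    rw [MeasureTheory.measureReal_def, MeasureTheory.measureReal_def]
    congr 1
    unfold ProbabilityTheory.uniformOn
    rw [ProbabilityTheory.cond_apply hfin.measurableSet,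
      ProbabilityTheory.cond_apply hfin.measurableSet, ← inter_assoc, inter_self]
  have hm : MeasurableSet (Final.Heights p k S ∩ A) := (hfin.inter_of_left A).measurableSet
  rw [hA, ← MeasureTheory.integral_indicator_one hm]
  have h1 := (lawF_spec hp hS k).2.2 ((Final.Heights p k S ∩ A).indicator 1)
  unfold Final.mean at h1
  rw [h1, Ex_bijOn (ca_bij (polyF hp) (enclF hS) k)]
  rw [Pr_eq_Ex (ca_fin (polyF hp) (enclF hS) k)]
  refine Ex_congr fun g hg => ?_
  have hgH : cut0 S g ∈ Final.Heights p k S := by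
    rw [heightsF]
    exact (ca_bij (polyF hp) (enclF hS) k).mapsTo hg
  unfold ind
  by_cases hgA : cut0 S g ∈ A
  · have h2 : cut0 S g ∈ Final.Heights p k S ∩ A := ⟨hgH, hgA⟩
    have h3 : g ∈ {g | cut0 S g ∈ A} := hgA
    rw [indicator_of_mem h2, if_pos h3]
    rfl
  · have h3 : g ∉ {g | cut0 S g ∈ A} := hgA
    rw [indicator_of_notMem fun hc => hgA hc.2, if_neg h3]

end Law

/-! ### The interface avoids the boundary points -/

/-- **X4**, from the landing statement. -/
theorem i_bdp_of (hL : S_land (0 + 2)) : I_bdp := by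
  intro Φ δ N k p S h x hx t₀ ht₀ e he
  have hA := approxF h
  obtain ⟨c, hc, hz⟩ : ∃ c : ℤ, (c = 1 ∨ c = -1) ∧
      (c = 1 ∧ Φ (Final.circ t₀) ∈ Final.arcPlus Φ ∨
        c = -1 ∧ Φ (Final.circ t₀) ∈ Final.arcMinus Φ) := by
    rcases ht₀ with ht | ht
    · exact ⟨1, Or.inl rfl, Or.inl ⟨rfl, t₀, ht, rfl⟩⟩
    · exact ⟨-1, Or.inr rfl, Or.inr ⟨rfl, t₀, ht, rfl⟩⟩
  set z := Φ (Final.circ t₀) with hzd
  obtain ⟨ρ₂, hρ₂, hdat⟩ := data_near h hz
  obtain ⟨r, hr, hland⟩ := land_pt hL h hz (half_pos hρ₂) he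
  refine ⟨min (r / 2) (ρ₂ / 4), lt_min (by positivity) (by positivity), ?_⟩
  have h2 : ∀ᶠ n in atTop, δ n < min (r / 8) (ρ₂ / 16) :=
    hA.lim.eventually (gt_mem_nhds (lt_min (by positivity) (by positivity)))
  filter_upwards [hland, hdat, h2] with n g1 g2 g3
  obtain ⟨g3a, g3b⟩ := lt_min_iff.1 g3
  have hδ := hA.pos n
  have hp := (h.1 n).2.2.2.1
  have hS := (h.1 n).2.2.2.2
  have hk := (h.1 n).2.1
  have hkn := (h.1 n).2.2.1
  rw [law_real hp hS]
  refine (Pr_mono fun g hg hgA => ?_).trans g1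
  obtain ⟨s, hs⟩ := hgA
  obtain ⟨hs1, hs2⟩ := lt_min_iff.1 hs
  have hgH : cut0 (S n) g ∈ Final.Heights (p n) (k n) (S n) := by
    rw [heightsF]
    exact (ca_bij (polyF hp) (enclF hS) (k n)).mapsTo hg
  have hcn : -c = 1 ∨ -c = -1 := by
    rcases hc with rfl | rfl
    · exact Or.inr rfl
    · exact Or.inl rfl
  obtain ⟨a, ha1, ha2⟩ := intf_near hδ hp hS hk hkn hgH (hx n _ hgH) s hcn
  have haz : dist (dp (δ n) a) z ≤ 2 * δ n + dist (x n (cut0 (S n) g) s) (Final.toC z) := by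
    have h3 := dist_le_toC (dp (δ n) a) z
    have h4 := dist_triangle (Final.toC (dp (δ n) a)) (x n (cut0 (S n) g) s) (Final.toC z)
    linarith
  -- polygon vertices near `z` have the height `c`
  have hwall : ∀ v, v ∈ Final.verts (S n) → cut0 (S n) g v = -c → dist (dp (δ n) v) z < ρ₂ →
      v ∈ inn (p n) (S n) := by
    intro v hv hgv hvz
    by_contra hcon
    obtain ⟨i, rfl⟩ := DRV.exists_p hv hcon
    have h5 := g2 i hvz
    rw [cut0_in hv, ca_out hg hcon, h5] at hgv
    rcases hc with rfl | rfl <;> norm_num at hgv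
  have hec : ¬ dist (dp (δ n) (ec (p n) (-c))) z < ρ₂ := by
    intro hcon
    have h5 := ha2.right_mem
    have h6 := (mem_inn.1 (hwall _ h5.1 h5.2 hcon)).2
    unfold ec at h6
    split_ifs at h6
    · exact h6 0 rfl
    · exact h6 (-1) rfl
  obtain ⟨q, o, c1, c2, c3, c4⟩ := first_exit (V := {v | dist (dp (δ n) v) z < ρ₂ / 2}) ha2
    (by rw [mem_ofPred_eq]; linarith)
    (by rw [mem_ofPred_eq]; intro hcon; exact hec (by linarith))
  have c4' : ρ₂ / 2 ≤ dist (dp (δ n) o) z := not_lt.1 c4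
  have hqz : dist (dp (δ n) q) z < ρ₂ / 2 := c1.right_mem.2
  have hoz : dist (dp (δ n) o) z < ρ₂ := by
    have h3 : dist (dp (δ n) o) (dp (δ n) q) ≤ 2 * δ n := by
      refine (dist_le_toC _ _).trans ?_
      rw [dist_eq_norm, toC_dp, toC_dp, ← mul_sub, norm_mul, Complex.norm_real, Real.norm_eq_abs,
        abs_of_pos hδ]
      have := DRV.pt_near (Topo.adj_symm c2)
      nlinarith
    linarith [dist_triangle (dp (δ n) o) (dp (δ n) q) z]
  have hgc : ∀ v, v ∈ Final.verts (S n) → cut0 (S n) g v = -c → g v ≠ c := by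
    intro v hv hgv
    rw [cut0_in hv] at hgv
    rw [hgv]
    rcases hc with rfl | rfl <;> norm_num
  refine ⟨a, o, by linarith, c4', ?_⟩
  have h7 : Conn {v | v ∈ inn (p n) (S n) ∧ g v ≠ c} a q := by
    refine Conn.mono ?_ c1
    intro v hv
    have h8 : dist (dp (δ n) v) z < ρ₂ / 2 := hv.2
    exact ⟨hwall v hv.1.1 hv.1.2 (by linarith), hgc v hv.1.1 hv.1.2⟩
  exact h7.tail c2 ⟨hwall o c3.1 c3.2 hoz, hgc o c3.1 c3.2⟩

/-- **X4**, from the landing statement of block LAND. -/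
theorem i_bdp (hL : LAND.S_land 2) : I_bdp := i_bdp_of (LOC.s_land_of (by norm_num) hL)

end Vale.Agent.P153.R2.SLEX
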