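import Vale.Agent.P153.R2.SLEX.One
import Vale.Agent.P153.R2.SDAR.Tigh

/-!
# P153-R2, block SLEX: the number of crossing components of `{h ≤ -1}` in an annulus
-/

namespace Vale.Agent.P153.R2.SLEX

open Set Relation
open Vale.Agent.P153
open Vale.Agent.P153.Topo (Conn adj_symm)
open Vale.Agent.P153.R2
open Vale.Agent.P153.R2.LOC (An Blk NO SepA)
open Vale.Agent.P153.R2.PLAN (Ring nbr mem_nbr card_nbr_le)
open Vale.Agent.P153.R2.NH (Big)
open scoped Classical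

variable {A O T : Set Pt} {y z w w₀ x : Pt} {r i l : ℕ} {R K c₂ : ℤ} {g h : Hg} {F : Set Pt}
  {η : Hg} {j : ℕ} {α : ℝ}

/-- The block property. -/
def HB (j : ℕ) (α : ℝ) (N r₀ : ℤ) : Prop :=
  ∀ (V : Set Pt) (I : Pt → Set ℤ) (x₀ : Pt) (r : ℤ) (p q : Pt), CC V → x₀ ∉ V → r₀ ≤ r →
      NO V p → NO V q → p ∈ bx x₀ r → q ∉ bx x₀ (N * r) → Blk j V (An x₀ r (N * r)) I →
      α ≤ Pr (Cfg V I) (SepA V (V ∩ An x₀ r (N * r)) 1 p q)

/-- Without large pieces of `{|h| ≥ 2 j + 1}` the low clusters do not reach the middle annulus. -/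
theorem low_disj {T₁ : Set Pt} (hr : 1 ≤ r) (_hK : 2 * (r : ℤ) ≤ K) (hR : R = K + 2 * r)
    (hG : ¬ Big ((r : ℤ) - 2) {x | 2 * (j : ℤ) + 1 ≤ |h x|}) :
    Disjoint (Tx (An y r R \ T₁) (To y r R) (-(2 * (j : ℤ) + 1)) h) (An y (2 * r) K) := by
  rw [Set.disjoint_left]
  intro x hx hxA
  have hxb : x ∈ bx y K ∧ x ∉ bx y (2 * (r : ℤ)) := hxA
  have key : ∀ z, z ∈ Dx (An y r R \ T₁) (To y r R) (-(2 * (j : ℤ) + 1)) h →
      z ∈ bx y (K + 1) → z ∉ bx y (2 * (r : ℤ) - 1) → False := by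
    rintro z ⟨u, ⟨v, hv, hvu⟩, huz⟩ hz1 hz2
    apply hG
    have hc : Conn {x | 2 * (j : ℤ) + 1 ≤ |h x|} u z := by
      refine huz.mono ?_
      rintro b ⟨-, hb⟩
      have hb' : h b ≤ -(2 * (j : ℤ) + 1) := hb
      show 2 * (j : ℤ) + 1 ≤ |h b|
      have := neg_abs_le (h b)
      linarith
    refine ⟨u, z, hc, ?_⟩
    have hu := huz.left_mem.1.1
    have h3 := Topo.adj_iff.1 hvu
    obtain ⟨hu1, hu2⟩ := hu
    rcases hv with hv | hv
    · simp only [bx, mem_ofPred_eq, abs_le] at hv hz1 hz2 hu1 hu2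
      rw [lt_abs, lt_abs]
      omega
    · rw [mem_compl_iff] at hv
      simp only [bx, mem_ofPred_eq, abs_le] at hv hz1 hz2 hu1 hu2
      rw [lt_abs, lt_abs]
      omega
  rcases hx.2 with h1 | h1 | ⟨z, hz, hzx⟩
  · obtain ⟨v, hv, hvx⟩ := h1
    have h3 := Topo.adj_iff.1 hvx
    obtain ⟨h4, h5⟩ := hxb
    rcases hv with hv | hv
    · simp only [bx, mem_ofPred_eq, abs_le] at hv h4 h5
      omega
    · rw [mem_compl_iff] at hv
      simp only [bx, mem_ofPred_eq, abs_le] at hv h4 h5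
      omega
  · refine key x h1 (PLAN.bx_mono (by omega) hxb.1) fun h2 => hxb.2 (PLAN.bx_mono (by omega) h2)
  · have h3 := Topo.adj_iff.1 hzx
    obtain ⟨h4, h5⟩ := hxb
    refine key z hz ?_ ?_
    · simp only [bx, mem_ofPred_eq, abs_le] at h4 h5 ⊢
      omega
    · simp only [bx, mem_ofPred_eq, abs_le] at h4 h5 ⊢
      omega

/-- The event that the index `i` is the last discovery. -/
def Lst (A O : Set Pt) (y : Pt) (r i : ℕ) : Set Hg :=
  {h | Dsc A O y r h i ∧ ∀ l, i < l → l < 8 * r → ¬ Dsc A O y r h l}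

/-- A discovery is the last one with probability bounded below. -/
theorem step {N r₀ : ℤ} (hblk : HB j α N r₀) (hα0 : 0 ≤ α) (hα1 : α ≤ 1)
    (hr : 1 ≤ r) (hr₀ : r₀ ≤ 2 * (r : ℤ)) (hN : 1 ≤ N) (hRK : R = N * (2 * r) + 2 * r)
    (hF : F.Finite) (hFb : bx y (R + 1) ⊆ F) (hi : i < 8 * r) :
    α * Pr (Cfg F (exa F η)) ({h | Dsc (An y r R) (bx y R)ᶜ y r h i} ∩
      {h | ¬ Big ((r : ℤ) - 2) {x | 2 * (j : ℤ) + 1 ≤ |h x|}}) ≤
      Pr (Cfg F (exa F η)) (Lst (An y r R) (bx y R)ᶜ y r i) := by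
  have hS : (Cfg F (exa F η)).Finite := F2.Cx_finite hF η
  set A := An y r R with hA
  set X : Hg → Set Pt := X2 A (Ti y r i) (-1) (To y r R) (-(2 * (j : ℤ) + 1)) with hX
  have hXe : ∀ g h : Hg, (∀ x ∈ X h, g x = h x) → X g = X h := fun g h hgh => (X2_of_eq hgh).2
  have hAF : A ⊆ F := fun x hx => hFb (PLAN.bx_mono (by omega) hx.1)
  set B : Set Hg := {h | Dsc A (bx y R)ᶜ y r h i} ∩ {h | Disjoint (Tx (A \ Tx A (Ti y r i) (-1) h)
    (To y r R) (-(2 * (j : ℤ) + 1)) h) (An y (2 * r) (N * (2 * r)))} with hB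
  set E : Set Hg := {h | ∀ l, i < l → l < 8 * r → ¬ Dsc A (bx y R)ᶜ y r h l} with hE
  have hK2 : 2 * (r : ℤ) ≤ N * (2 * r) := by nlinarith
  have h1 : Pr (Cfg F (exa F η)) ({h | Dsc A (bx y R)ᶜ y r h i} ∩
      {h | ¬ Big ((r : ℤ) - 2) {x | 2 * (j : ℤ) + 1 ≤ |h x|}}) ≤ Pr (Cfg F (exa F η)) B :=
    Pr_mono fun h _ hh => ⟨hh.1, low_disj hr hK2 hRK hh.2⟩
  have h2 : α * Pr (Cfg F (exa F η)) B ≤ Pr (Cfg F (exa F η)) (B ∩ E) := by
    refine Pr_ge_of_fiber hS (rv A X) E B ?_ ?_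
    · intro a ha b hb hab
      have key : ∀ a b : Hg, a ∈ Cfg F (exa F η) → b ∈ Cfg F (exa F η) → rv A X a = rv A X b →
          b ∈ B → a ∈ B := by
        intro a b ha hb hab hbB
        have h3 := (rv_eq_iff hXe hb.1).1 hab
        have h4 : ∀ x ∈ X b, a x = b x := fun x hx => h3 x (Or.inl hx)
        have h5 := X2_of_eq h4
        have h6 : ∀ x ∈ Tx A (Ti y r i) (-1) b, a x = b x := fun x hx => h4 x (Or.inl hx)
        refine ⟨(Dsc_of_eq le_rfl h6).2 hbB.1, ?_⟩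
        show Disjoint _ _
        rw [h5.1, Tx_of_eq (fun x hx => h4 x (Or.inr hx))]
        exact hbB.2
      exact ⟨fun h => key b a hb ha hab.symm h, fun h => key a b ha hb hab h⟩
    · intro a ha haB
      rw [fib_rv hXe hAF ha]
      by_cases hi' : i + 1 < 8 * r
      · exact one hblk hr hr₀ hN hRK hF hFb ha hi' haB.1 haB.2
      · have hne : (Cfg (A \ X a) (exa (A \ X a) a)).Nonempty := by
          rw [← fib_rv hXe hAF ha]
          exact ⟨a, ha, rfl⟩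
        have hfin : (Cfg (A \ X a) (exa (A \ X a) a)).Finite :=
          F2.Cx_finite (hF.subset (sdiff_subset.trans hAF)) a
        have : Pr (Cfg (A \ X a) (exa (A \ X a) a)) E = 1 := by
          rw [← Pr_univ hfin hne]
          refine Pr_congr fun g _ => ⟨fun _ => mem_univ _, fun _ l hl hl' => ?_⟩
          omega
        rw [this]
        exact hα1
  refine (mul_le_mul_of_nonneg_left h1 hα0).trans (h2.trans (Pr_mono fun h _ hh => ?_))
  exact ⟨hh.1.1, hh.2⟩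

/-- The discovery indices. -/
noncomputable def dsc (A O : Set Pt) (y : Pt) (r : ℕ) (h : Hg) : Finset ℕ :=
  (Finset.range (8 * r)).filter fun l => Dsc A O y r h l

theorem sum_ind (s t : Finset ℕ) (E : ℕ → Set Hg) (h : Hg) (ht : ∀ i, i ∈ t ↔ i ∈ s ∧ h ∈ E i) :
    ∑ i ∈ s, ind (E i) h = (t.card : ℝ) := by
  classical
  have e : t = s.filter (fun i => h ∈ E i) := by
    ext i
    rw [ht, Finset.mem_filter]
  rw [e, Finset.card_filter]
  push_cast
  refine Finset.sum_congr rfl fun i _ => ?_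
  unfold ind
  split_ifs <;> simp

/-- **The number of discoveries.** -/
theorem count {N r₀ : ℤ} (hblk : HB j α N r₀) (hα0 : 0 ≤ α) (hα1 : α ≤ 1)
    (hr : 1 ≤ r) (hr₀ : r₀ ≤ 2 * (r : ℤ)) (hN : 1 ≤ N) (hRK : R = N * (2 * r) + 2 * r)
    (hF : F.Finite) (hFb : bx y (R + 1) ⊆ F) {m : ℝ} (_hm : 0 ≤ m) :
    α * m * Pr (Cfg F (exa F η)) ({h | m ≤ (dsc (An y r R) (bx y R)ᶜ y r h).card} ∩
      {h | ¬ Big ((r : ℤ) - 2) {x | 2 * (j : ℤ) + 1 ≤ |h x|}}) ≤ 1 := by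
  have hS : (Cfg F (exa F η)).Finite := F2.Cx_finite hF η
  set S := Cfg F (exa F η) with hSd
  set A := An y r R with hA
  set G : Set Hg := {h | ¬ Big ((r : ℤ) - 2) {x | 2 * (j : ℤ) + 1 ≤ |h x|}} with hG
  have h1 : ∑ i ∈ Finset.range (8 * r), α * Pr S ({h | Dsc A (bx y R)ᶜ y r h i} ∩ G) ≤
      ∑ i ∈ Finset.range (8 * r), Pr S (Lst A (bx y R)ᶜ y r i) :=
    Finset.sum_le_sum fun i hi => step hblk hα0 hα1 hr hr₀ hN hRK hF hFb (Finset.mem_range.1 hi)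
  have h2 : ∑ i ∈ Finset.range (8 * r), Pr S (Lst A (bx y R)ᶜ y r i) ≤ 1 := by
    simp only [Pr_eq_Ex hS]
    rw [← Ex_sum]
    refine Ex_le_const zero_le_one fun h _ => ?_
    rw [sum_ind _ ((Finset.range (8 * r)).filter fun i => h ∈ Lst A (bx y R)ᶜ y r i) _ h
      fun i => by rw [Finset.mem_filter]]
    have h4 : ((Finset.range (8 * r)).filter fun i => h ∈ Lst A (bx y R)ᶜ y r i).card ≤ 1 := by
      refine Finset.card_le_one.2 fun a ha b hb => ?_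
      simp only [Finset.mem_filter, Finset.mem_range] at ha hb
      rcases lt_trichotomy a b with h5 | h5 | h5
      · exact absurd hb.2.1 (ha.2.2 b h5 hb.1)
      · exact h5
      · exact absurd ha.2.1 (hb.2.2 a h5 ha.1)
    exact_mod_cast h4
  have h3 : m * Pr S ({h | m ≤ (dsc A (bx y R)ᶜ y r h).card} ∩ G) ≤
      ∑ i ∈ Finset.range (8 * r), Pr S ({h | Dsc A (bx y R)ᶜ y r h i} ∩ G) := by
    simp only [Pr_eq_Ex hS]
    rw [← Ex_sum, ← Ex_const_mul]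
    refine Ex_mono fun h _ => ?_
    by_cases hg : h ∈ G
    · rw [sum_ind _ (dsc A (bx y R)ᶜ y r h) _ h fun i => ?_]
      · unfold ind
        split_ifs with h5
        · rw [mul_one]
          exact h5.1
        · rw [mul_zero]
          exact Nat.cast_nonneg _
      · unfold dsc
        rw [Finset.mem_filter]
        exact and_congr_right fun _ => ⟨fun h5 => ⟨h5, hg⟩, fun h5 => h5.1⟩
    · have h4 : ind ({h | m ≤ ((dsc A (bx y R)ᶜ y r h).card : ℝ)} ∩ G) h = 0 :=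
        if_neg fun h5 => hg h5.2
      rw [h4, mul_zero]
      exact Finset.sum_nonneg fun i _ => by unfold ind; split_ifs <;> norm_num
  rw [← Finset.mul_sum] at h1
  calc α * m * Pr S ({h | m ≤ ((dsc A (bx y R)ᶜ y r h).card : ℝ)} ∩ G)
      = α * (m * Pr S ({h | m ≤ ((dsc A (bx y R)ᶜ y r h).card : ℝ)} ∩ G)) := by ring
    _ ≤ α * ∑ i ∈ Finset.range (8 * r), Pr S ({h | Dsc A (bx y R)ᶜ y r h i} ∩ G) :=
        mul_le_mul_of_nonneg_left h3 hα0
    _ ≤ 1 := h1.trans h2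

/-- There are `k` components of `A ∩ S` next to `I` and next to `O`. -/
def Crs (A I O S : Set Pt) (k : ℕ) : Prop := ∃ f : Fin k → Pt,
  (∀ a, (∃ u ∈ Nx I, Conn (A ∩ S) (f a) u) ∧ ∃ z ∈ Nx O, Conn (A ∩ S) (f a) z) ∧
    ∀ a b, a ≠ b → ¬ Conn (A ∩ S) (f a) (f b)

/-- The number of crossing components is at most six times the number of discoveries. -/
theorem crs_le {k : ℕ} (hr : 1 ≤ r)
    (hc : Crs (An y r R) (bx y r) (bx y R)ᶜ (dn h (-1)) k) :
    k ≤ 6 * (dsc (An y r R) (bx y R)ᶜ y r h).card := by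
  obtain ⟨f, hf, hne⟩ := hc
  set A := An y r R with hA
  have hex : ∀ a, ∃ l, l < 8 * r ∧ ∃ u, Adj (vr y r l) u ∧ Conn (A ∩ dn h (-1)) (f a) u := by
    intro a
    obtain ⟨⟨u, ⟨v, hv, hvu⟩, hu⟩, _⟩ := hf a
    have h1 : v ∈ Ring y r := PLAN.mem_ring_of_adj hv hu.right_mem.1.2 hvu
    obtain ⟨l, hl, rfl⟩ := exists_vr (by omega) h1
    exact ⟨l, hl, u, hvu, hu⟩
  have hmin : ∀ a, ∃ l u, l < 8 * r ∧ Adj (vr y r l) u ∧ Conn (A ∩ dn h (-1)) (f a) u ∧
      Dsc A (bx y R)ᶜ y r h l := by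
    intro a
    classical
    have h1 := hex a
    set l := Nat.find h1 with hl
    obtain ⟨h2, u, h3, h4⟩ := Nat.find_spec h1
    refine ⟨l, u, h2, h3, h4, u, h3, ?_, ?_⟩
    · obtain ⟨_, z, hz, h5⟩ := hf a
      exact ⟨z, hz, h4.symm.trans h5⟩
    · intro l' hl' u' hu' h5
      exact Nat.find_min h1 hl' ⟨by omega, u', hu', h4.trans h5⟩
  choose l u h1 h2 h3 h4 using hmin
  have hcard : (Finset.univ : Finset (Fin k)).card ≤
      ((dsc A (bx y R)ᶜ y r h).sigma fun i => nbr (vr y r i)).card := by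
    refine Finset.card_le_card_of_injOn (fun a => ⟨l a, u a⟩) ?_ ?_
    · intro a _
      simp only [Finset.coe_sigma, Set.mem_sigma_iff, Finset.mem_coe]
      refine ⟨?_, mem_nbr.2 (h2 a)⟩
      unfold dsc
      rw [Finset.mem_filter, Finset.mem_range]
      exact ⟨h1 a, h4 a⟩
    · intro a _ b _ hab
      by_contra hab'
      have h5 : u a = u b := by
        have := congrArg (fun s : (_ : ℕ) × Pt => s.2) hab
        exact this
      apply hne a b hab'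
      have h6 := h3 a
      rw [h5] at h6
      exact h6.trans (h3 b).symm
  rw [Finset.card_univ, Fintype.card_fin, Finset.card_sigma] at hcard
  refine hcard.trans ?_
  calc ∑ i ∈ dsc A (bx y R)ᶜ y r h, (nbr (vr y r i)).card
      ≤ ∑ _i ∈ dsc A (bx y R)ᶜ y r h, 6 := Finset.sum_le_sum fun i _ => card_nbr_le _
    _ = 6 * (dsc A (bx y R)ᶜ y r h).card := by
        rw [Finset.sum_const, smul_eq_mul, mul_comm]

/-- **X1**: many crossing components of `{h ≤ -1}` are unlikely. -/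
theorem x1 {N r₀ : ℤ} (hblk : HB j α N r₀) (hα0 : 0 < α) (hα1 : α ≤ 1)
    (hr : 1 ≤ r) (hr₀ : r₀ ≤ 2 * (r : ℤ)) (hN : 1 ≤ N) (hRK : R = N * (2 * r) + 2 * r)
    (hF : F.Finite) (hFb : bx y (R + 1) ⊆ F) {k : ℕ} (hk : 1 ≤ k) :
    Pr (Cfg F (exa F η)) {h | Crs (An y r R) (bx y r) (bx y R)ᶜ (dn h (-1)) k} ≤
      6 / (α * k) + Pr (Cfg F (exa F η)) {h | Big ((r : ℤ) - 2) {x | 2 * (j : ℤ) + 1 ≤ |h x|}} := by
  have hk0 : (0 : ℝ) < k := by exact_mod_cast hk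
  have h1 := count (η := η) hblk hα0.le hα1 hr hr₀ hN hRK hF hFb (m := (k : ℝ) / 6) (by positivity)
  have h2 : Pr (Cfg F (exa F η)) {h | Crs (An y r R) (bx y r) (bx y R)ᶜ (dn h (-1)) k} ≤
      Pr (Cfg F (exa F η)) (({h | (k : ℝ) / 6 ≤ ((dsc (An y r R) (bx y R)ᶜ y r h).card : ℝ)} ∩
        {h | ¬ Big ((r : ℤ) - 2) {x | 2 * (j : ℤ) + 1 ≤ |h x|}}) ∪
        {h | Big ((r : ℤ) - 2) {x | 2 * (j : ℤ) + 1 ≤ |h x|}}) := by
    refine Pr_mono fun h _ hh => ?_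
    by_cases hb : Big ((r : ℤ) - 2) {x | 2 * (j : ℤ) + 1 ≤ |h x|}
    · exact Or.inr hb
    · left
      refine ⟨?_, hb⟩
      have h3 := crs_le hr hh
      have h4 : (k : ℝ) ≤ 6 * ((dsc (An y r R) (bx y R)ᶜ y r h).card : ℝ) := by exact_mod_cast h3
      show (k : ℝ) / 6 ≤ _
      linarith
  refine h2.trans ((Pr_union_le _ _ _).trans (add_le_add_left ?_ _))
  rw [le_div_iff₀ (by positivity)]
  nlinarith

end Vale.Agent.P153.R2.SLEX
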