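import Vale.Agent.P153.R2.UNIQ.Facts

/-!
# P153, block SLEX, X5: covering argument (deterministic part)

* `sector`: a connected set in a thin annulus which avoids a few points of the circle is small;
* `region_sub`: the lattice domain is contained in a small neighbourhood of the Jordan domain;
* `count_small`: crossings of an annulus are counted by crossings of finitely many small annuli.
-/

set_option autoImplicit false

open Set Metric Filter Topology
open scoped Real

namespace Vale.Agent.P153.R2.SLEX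

open Vale.Agent.P153.R2.Final Vale.Agent.P153.R2.C1 Vale.Agent.P153.R2.R1

/-! ### Sectors -/

theorem exp_rot (a b : ℝ) : Complex.exp (-(b : ℂ) * Complex.I) =
    Complex.exp (-(a : ℂ) * Complex.I) * Complex.exp (-((b - a : ℝ) : ℂ) * Complex.I) := by
  rw [← Complex.exp_add]
  congr 1
  push_cast
  ring

theorem rot_im (v : ℂ) (β : ℝ) : (v * Complex.exp (-(β : ℂ) * Complex.I)).im =
    v.im * Real.cos β - v.re * Real.sin β := by
  have h1 : Complex.exp (-(β : ℂ) * Complex.I) = ⟨Real.cos β, -Real.sin β⟩ := by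
    rw [show -(β : ℂ) * Complex.I = ((-β : ℝ) : ℂ) * Complex.I by push_cast; ring]
    apply Complex.ext
    · rw [Complex.exp_ofReal_mul_I_re, Real.cos_neg]
    · rw [Complex.exp_ofReal_mul_I_im, Real.sin_neg]
  rw [h1, Complex.mul_im]
  ring

theorem norm_rot (a : ℝ) : ‖Complex.exp (-(a : ℂ) * Complex.I)‖ = 1 := by
  rw [show -(a : ℂ) * Complex.I = ((-a : ℝ) : ℂ) * Complex.I by push_cast; ring]
  exact Complex.norm_exp_ofReal_mul_I _

theorem exp_mul_rot (a : ℝ) : Complex.exp (a * Complex.I) * Complex.exp (-(a : ℂ) * Complex.I) =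
    1 := by
  rw [← Complex.exp_add, show (a : ℂ) * Complex.I + -(a : ℂ) * Complex.I = 0 by ring,
    Complex.exp_zero]

/-- the distance to the unit vector of angle `a` in rotated coordinates -/
theorem dist_rot (w : ℂ) (a : ℝ) : dist w (Complex.exp (a * Complex.I)) =
    ‖w * Complex.exp (-(a : ℂ) * Complex.I) - 1‖ := by
  have h : w * Complex.exp (-(a : ℂ) * Complex.I) - 1 =
      (w - Complex.exp (a * Complex.I)) * Complex.exp (-(a : ℂ) * Complex.I) := by
    rw [sub_mul, exp_mul_rot]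
  rw [h, norm_mul, norm_rot, mul_one, dist_eq_norm]

/-- a point of the ray of angle `a` -/
theorem on_ray {w : ℂ} {a : ℝ} (h1 : (w * Complex.exp (-(a : ℂ) * Complex.I)).im = 0)
    (h2 : 0 ≤ (w * Complex.exp (-(a : ℂ) * Complex.I)).re) :
    dist w (Complex.exp (a * Complex.I)) = |‖w‖ - 1| := by
  obtain ⟨v, hv⟩ : ∃ v, v = w * Complex.exp (-(a : ℂ) * Complex.I) := ⟨_, rfl⟩
  have hn : ‖v‖ = ‖w‖ := by rw [hv, norm_mul, norm_rot, mul_one]
  rw [dist_rot, ← hv]
  rw [← hv] at h1 h2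
  have h3 : v = (v.re : ℂ) := Complex.ext (by simp) (by simp [h1])
  have h4 : ‖v‖ = v.re := by
    rw [h3, Complex.norm_real, Complex.ofReal_re, Real.norm_of_nonneg h2]
  rw [← hn, h4, h3]
  rw [← Complex.ofReal_one, ← Complex.ofReal_sub, Complex.norm_real, Real.norm_eq_abs]
  simp

/-- the open sector between the angles `a` and `a + β` -/
def Sec (a β : ℝ) : Set ℂ := {w | 0 < (w * Complex.exp (-(a : ℂ) * Complex.I)).im ∧
  (w * Complex.exp (-((a + β : ℝ) : ℂ) * Complex.I)).im < 0}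

/-- the complement of the closed sector -/
def Sec' (a β : ℝ) : Set ℂ := {w | (w * Complex.exp (-(a : ℂ) * Complex.I)).im < 0 ∨
  0 < (w * Complex.exp (-((a + β : ℝ) : ℂ) * Complex.I)).im}

theorem isOpen_sec (a β : ℝ) : IsOpen (Sec a β) := by
  have h1 : IsOpen {w : ℂ | 0 < (w * Complex.exp (-(a : ℂ) * Complex.I)).im} :=
    isOpen_lt continuous_const (Complex.continuous_im.comp (continuous_id.mul continuous_const))
  have h2 : IsOpen {w : ℂ | (w * Complex.exp (-((a + β : ℝ) : ℂ) * Complex.I)).im < 0} :=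
    isOpen_lt (Complex.continuous_im.comp (continuous_id.mul continuous_const)) continuous_const
  exact h1.inter h2

theorem isOpen_sec' (a β : ℝ) : IsOpen (Sec' a β) := by
  have h1 : IsOpen {w : ℂ | (w * Complex.exp (-(a : ℂ) * Complex.I)).im < 0} :=
    isOpen_lt (Complex.continuous_im.comp (continuous_id.mul continuous_const)) continuous_const
  have h2 : IsOpen {w : ℂ | 0 < (w * Complex.exp (-((a + β : ℝ) : ℂ) * Complex.I)).im} :=
    isOpen_lt continuous_const (Complex.continuous_im.comp (continuous_id.mul continuous_const))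
  exact h1.union h2

theorem disj_sec (a β : ℝ) : Disjoint (Sec a β) (Sec' a β) := by
  rw [Set.disjoint_left]
  rintro w ⟨h1, h2⟩ (h3 | h3) <;> linarith

/-- points neither in the open sector nor off the closed one are on one of the rays -/
theorem ray_cases {w : ℂ} {a β : ℝ} (hβ : 0 < β) (hβπ : β < π) (h1 : w ∉ Sec a β)
    (h2 : w ∉ Sec' a β) : dist w (Complex.exp (a * Complex.I)) = |‖w‖ - 1| ∨
      dist w (Complex.exp ((a + β : ℝ) * Complex.I)) = |‖w‖ - 1| := by
  have hs : 0 < Real.sin β := Real.sin_pos_of_pos_of_lt_pi hβ hβπ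
  have h3 : ¬ ((w * Complex.exp (-(a : ℂ) * Complex.I)).im < 0 ∨
    0 < (w * Complex.exp (-((a + β : ℝ) : ℂ) * Complex.I)).im) := h2
  rw [not_or, not_lt, not_lt] at h3
  obtain ⟨h4, h5⟩ := h3
  have e1 : (w * Complex.exp (-((a + β : ℝ) : ℂ) * Complex.I)).im =
      (w * Complex.exp (-(a : ℂ) * Complex.I)).im * Real.cos β -
        (w * Complex.exp (-(a : ℂ) * Complex.I)).re * Real.sin β := by
    rw [exp_rot a (a + β), ← mul_assoc, rot_im, add_sub_cancel_left]
  have e2 : (w * Complex.exp (-(a : ℂ) * Complex.I)).im =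
      (w * Complex.exp (-((a + β : ℝ) : ℂ) * Complex.I)).im * Real.cos β +
        (w * Complex.exp (-((a + β : ℝ) : ℂ) * Complex.I)).re * Real.sin β := by
    rw [exp_rot (a + β) a, ← mul_assoc, rot_im, show a - (a + β) = -β by ring, Real.cos_neg,
      Real.sin_neg]
    ring
  by_cases h6 : (w * Complex.exp (-(a : ℂ) * Complex.I)).im = 0
  · left
    refine on_ray h6 ?_
    rw [h6, zero_mul, zero_sub] at e1
    rw [e1] at h5
    by_contra hcon
    nlinarith
  · have h7 : (w * Complex.exp (-((a + β : ℝ) : ℂ) * Complex.I)).im = 0 := by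
      by_contra hcon
      exact h1 ⟨lt_of_le_of_ne h4 (Ne.symm h6), lt_of_le_of_ne h5 hcon⟩
    right
    refine on_ray h7 ?_
    rw [h7, zero_mul, zero_add] at e2
    rw [e2] at h4
    by_contra hcon
    nlinarith

/-- the sector is narrow -/
theorem sec_dist {w : ℂ} {a β : ℝ} (hβ : 0 < β) (hβ3 : β ≤ π / 3) (h : w ∈ Sec a β) :
    dist w (Complex.exp (a * Complex.I)) ≤ 3 * ‖w‖ * β + |‖w‖ - 1| := by
  obtain ⟨v, hv⟩ : ∃ v, v = w * Complex.exp (-(a : ℂ) * Complex.I) := ⟨_, rfl⟩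
  have hn : ‖v‖ = ‖w‖ := by rw [hv, norm_mul, norm_rot, mul_one]
  have h1 : 0 < v.im := by rw [hv]; exact h.1
  have h2 : v.im * Real.cos β - v.re * Real.sin β < 0 := by
    have := h.2
    rwa [exp_rot a (a + β), ← mul_assoc, rot_im, add_sub_cancel_left, ← hv] at this
  have hc : 1 / 2 ≤ Real.cos β := by
    rw [← Real.cos_pi_div_three]
    exact Real.cos_le_cos_of_nonneg_of_le_pi hβ.le (by linarith [Real.pi_pos]) hβ3
  have hs : Real.sin β ≤ β := Real.sin_le hβ.le
  have hs0 : 0 < Real.sin β := Real.sin_pos_of_pos_of_lt_pi hβ (by linarith [Real.pi_pos])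
  have hre : 0 < v.re := by
    by_contra hcon
    nlinarith
  have hre2 : v.re ≤ ‖v‖ := Complex.re_le_norm v
  have h3 : v.im ≤ 2 * ‖v‖ * β := by
    have h4 : v.im * Real.cos β ≤ ‖v‖ * β := by
      have h5 : v.re * Real.sin β ≤ ‖v‖ * β := mul_le_mul hre2 hs hs0.le (norm_nonneg v)
      linarith
    nlinarith
  have h6 : ‖v - (‖v‖ : ℂ)‖ ≤ 3 * ‖v‖ * β := by
    have h7 : ‖v - (‖v‖ : ℂ)‖ ^ 2 = (v.re - ‖v‖) ^ 2 + v.im ^ 2 := by
      rw [Complex.sq_norm, Complex.normSq_apply, Complex.sub_re, Complex.sub_im,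
        Complex.ofReal_re, Complex.ofReal_im]
      ring
    have h8 : ‖v‖ ^ 2 = v.re ^ 2 + v.im ^ 2 := by
      rw [Complex.sq_norm, Complex.normSq_apply]; ring
    have h9 : (v.re - ‖v‖) ^ 2 ≤ v.im ^ 2 := by nlinarith
    have h10 : 0 ≤ 3 * ‖v‖ * β := by positivity
    have h11 : v.im ^ 2 ≤ (2 * ‖v‖ * β) ^ 2 := pow_le_pow_left₀ h1.le h3 2
    refine (sq_le_sq₀ (norm_nonneg _) h10).1 ?_
    rw [h7]
    nlinarith [sq_nonneg (‖v‖ * β)]
  rw [dist_rot, ← hv, ← hn]
  have h12 : v - 1 = (v - (‖v‖ : ℂ)) + ((‖v‖ - 1 : ℝ) : ℂ) := by push_cast; ring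
  rw [h12]
  refine (norm_add_le _ _).trans ?_
  rw [Complex.norm_real, Real.norm_eq_abs]
  linarith

/-- the angles of the forbidden points -/
noncomputable def ang (N : ℕ) (j : ℤ) : ℝ := (2 * j + 1) * (π / (2 * N))

theorem ang_succ (N : ℕ) (j : ℤ) : ang N (j + 1) = ang N j + π / N := by
  unfold ang
  push_cast
  rcases Nat.eq_zero_or_pos N with h | h
  · rw [h]; simp
  · have : (N : ℝ) ≠ 0 := by positivity
    field_simp
    ring

theorem exists_ang {N : ℕ} (hN : 0 < N) (θ : ℝ) : ∃ j : ℤ, ang N j ≤ θ ∧ θ < ang N (j + 1) := by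
  have hN' : (0 : ℝ) < N := by exact_mod_cast hN
  have hπ := Real.pi_pos
  refine ⟨⌊θ * N / π - 1 / 2⌋, ?_, ?_⟩
  · have h1 := Int.floor_le (θ * N / π - 1 / 2)
    unfold ang
    have h2 : ((⌊θ * N / π - 1 / 2⌋ : ℤ) : ℝ) + 1 / 2 ≤ θ * N / π := by linarith
    rw [le_div_iff₀ hπ] at h2
    have h3 : (2 * ((⌊θ * N / π - 1 / 2⌋ : ℤ) : ℝ) + 1) * (π / (2 * N)) =
        ((⌊θ * N / π - 1 / 2⌋ : ℤ) + 1 / 2) * π / N := by
      field_simp
    rw [h3, div_le_iff₀ hN']
    exact h2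
  · have h1 := Int.lt_floor_add_one (θ * N / π - 1 / 2)
    unfold ang
    push_cast
    have h2 : θ * N / π < ((⌊θ * N / π - 1 / 2⌋ : ℤ) : ℝ) + 3 / 2 := by linarith
    rw [div_lt_iff₀ hπ] at h2
    have h3 : (2 * (((⌊θ * N / π - 1 / 2⌋ : ℤ) : ℝ) + 1) + 1) * (π / (2 * N)) =
        ((⌊θ * N / π - 1 / 2⌋ : ℤ) + 3 / 2) * π / N := by
      field_simp
      ring
    rw [h3, lt_div_iff₀ hN']
    exact h2

/-- every forbidden point is one of the points `0 ≤ j < 2 N` -/
theorem exp_ang {N : ℕ} (hN : 0 < N) (j : ℤ) : ∃ i : ℕ, i < 2 * N ∧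
    Complex.exp (ang N j * Complex.I) = Complex.exp (ang N i * Complex.I) := by
  have hN' : (0 : ℤ) < 2 * N := by positivity
  refine ⟨(j % (2 * N)).toNat, ?_, ?_⟩
  · have h1 := Int.emod_nonneg j hN'.ne'
    have h2 := Int.emod_lt_of_pos j hN'
    omega
  · have h1 := Int.emod_nonneg j hN'.ne'
    rw [Int.toNat_of_nonneg h1]
    rw [Complex.exp_eq_exp_iff_exists_int]
    refine ⟨j / (2 * N), ?_⟩
    have h2 : (j : ℝ) = ((j % (2 * N) : ℤ) : ℝ) + 2 * N * ((j / (2 * N) : ℤ) : ℝ) := by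
      have := Int.emod_add_mul_ediv j (2 * N)
      exact_mod_cast this.symm
    have hNr : (N : ℝ) ≠ 0 := by positivity
    have h3 : ang N j = ang N (j % (2 * N)) + ((j / (2 * N) : ℤ) : ℝ) * (2 * π) := by
      unfold ang
      rw [h2]
      field_simp
      ring
    rw [h3]
    push_cast
    ring

theorem ang_mem {N : ℕ} {i : ℕ} (hi : i < 2 * N) : ang N i ∈ Ioo 0 π ∪ Ioo π (2 * π) := by
  have hN : 0 < N := by omega
  have hN' : (0 : ℝ) < N := by exact_mod_cast hN
  have hπ := Real.pi_pos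
  have e : ang N i = (2 * i + 1) * π / (2 * N) := by unfold ang; push_cast; ring
  have h0 : 0 < ang N i := by rw [e]; positivity
  rcases lt_or_ge i N with h | h
  · left
    refine ⟨h0, ?_⟩
    rw [e, div_lt_iff₀ (by positivity)]
    have h1 : (2 * (i : ℝ) + 1) < 2 * N := by
      have : 2 * i + 1 < 2 * N := by omega
      exact_mod_cast this
    nlinarith
  · right
    constructor
    · rw [e, lt_div_iff₀ (by positivity)]
      have h1 : 2 * (N : ℝ) < 2 * i + 1 := by
        have : 2 * N < 2 * i + 1 := by omega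
        exact_mod_cast this
      nlinarith
    · rw [e, div_lt_iff₀ (by positivity)]
      have h1 : 2 * (i : ℝ) + 1 < 2 * (2 * N) := by
        have : 2 * i + 1 < 2 * (2 * N) := by omega
        exact_mod_cast this
      nlinarith

/-- a connected set in a thin annulus, off the forbidden points, is in one sector -/
theorem one_sector {N : ℕ} (hN : 3 ≤ N) {η : ℝ} {C : Set ℂ}
    (hC : IsPreconnected C) (hann : ∀ w ∈ C, |‖w‖ - 1| < η)
    (hav : ∀ j : ℤ, ∀ w ∈ C, η ≤ dist w (Complex.exp (ang N j * Complex.I))) {w₀ : ℂ}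
    (hw₀ : w₀ ∈ C) : ∃ j : ℤ, C ⊆ Sec (ang N j) (π / N) := by
  have hN0 : 0 < N := by omega
  have hN' : (3 : ℝ) ≤ N := by exact_mod_cast hN
  have hβ : 0 < π / N := by positivity
  have hβ3 : π / N ≤ π / 3 := div_le_div_of_nonneg_left Real.pi_pos.le (by norm_num) hN'
  have hβπ : π / N < π := by linarith [Real.pi_pos]
  obtain ⟨j, hj1, hj2⟩ := exists_ang hN0 w₀.arg
  refine ⟨j, ?_⟩
  have hnr : ∀ w ∈ C, w ∈ Sec (ang N j) (π / N) ∪ Sec' (ang N j) (π / N) := by
    intro w hw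
    by_contra hcon
    rw [mem_union, not_or] at hcon
    rcases ray_cases hβ hβπ hcon.1 hcon.2 with h | h
    · have h1 := hav j w hw
      rw [h] at h1
      exact absurd (hann w hw) (not_lt.2 h1)
    · rw [← ang_succ] at h
      have h1 := hav (j + 1) w hw
      rw [h] at h1
      exact absurd (hann w hw) (not_lt.2 h1)
  refine hC.subset_left_of_subset_union (isOpen_sec _ _) (isOpen_sec' _ _) (disj_sec _ _) hnr ?_
  refine ⟨w₀, hw₀, ?_⟩
  rcases hnr w₀ hw₀ with h | h
  · exact h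
  · exfalso
    have hpol : ∀ a : ℝ, (w₀ * Complex.exp (-(a : ℂ) * Complex.I)).im =
        ‖w₀‖ * Real.sin (w₀.arg - a) := by
      intro a
      have h1 : w₀ * Complex.exp (-(a : ℂ) * Complex.I) =
          (‖w₀‖ : ℂ) * Complex.exp ((w₀.arg - a : ℝ) * Complex.I) := by
        conv_lhs => rw [← Complex.norm_mul_exp_arg_mul_I w₀]
        rw [mul_assoc, ← Complex.exp_add]
        congr 2
        push_cast
        ring
      rw [h1, Complex.im_ofReal_mul, Complex.exp_ofReal_mul_I_im]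
    rcases h with h | h
    · rw [hpol] at h
      have h1 : 0 ≤ Real.sin (w₀.arg - ang N j) :=
        Real.sin_nonneg_of_nonneg_of_le_pi (by linarith) (by rw [ang_succ] at hj2; linarith)
      have h2 := mul_nonneg (norm_nonneg w₀) h1
      linarith
    · rw [hpol, ← ang_succ] at h
      have h1 : Real.sin (w₀.arg - ang N (j + 1)) ≤ 0 :=
        Real.sin_nonpos_of_nonpos_of_neg_pi_le (by linarith) (by
          have := ang_succ N j
          linarith)
      have h2 := mul_nonneg (norm_nonneg w₀) (neg_nonneg.2 h1)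
      linarith

/-! ### The strand near the boundary is small -/

theorem small_strand (Φ : (ℝ × ℝ) ≃ₜ (ℝ × ℝ)) {r : ℝ} (hr : 0 < r) : ∃ N : ℕ, 3 ≤ N ∧
    ∀ ε > 0, ∃ η > 0, η ≤ 1 / 2 ∧ ∀ C : Set ℂ, IsPreconnected C →
      C ⊆ homC Φ '' {w | |‖w‖ - 1| < η} →
      (∀ i : ℕ, i < 2 * N → ∀ z ∈ C, ε ≤ dist z (toC (Φ (circ (ang N i))))) →
      ∀ z ∈ C, ∀ z' ∈ C, dist z z' < 2 * r := by
  have hucont : UniformContinuousOn (homC Φ) (closedBall (0 : ℂ) 2) :=
    (isCompact_closedBall _ _).uniformContinuousOn_of_continuous (homC Φ).continuous.continuousOn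
  rw [Metric.uniformContinuousOn_iff] at hucont
  obtain ⟨κ, hκ, hκr⟩ := hucont r hr
  obtain ⟨N, hN3, hNκ⟩ : ∃ N : ℕ, 3 ≤ N ∧ 9 / 2 * (π / N) < κ / 2 := by
    obtain ⟨M, hM⟩ := exists_nat_gt (9 * π / κ)
    refine ⟨max M 3, le_max_right _ _, ?_⟩
    have h1 : (9 * π / κ) < ((max M 3 : ℕ) : ℝ) := hM.trans_le (by exact_mod_cast le_max_left _ _)
    have h2 : (0 : ℝ) < ((max M 3 : ℕ) : ℝ) := by
      have : 0 < max M 3 := by omega
      exact_mod_cast this
    rw [div_lt_iff₀ hκ] at h1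
    rw [← mul_div_assoc, div_lt_iff₀ h2]
    nlinarith
  refine ⟨N, hN3, ?_⟩
  intro ε hε
  obtain ⟨κ', hκ', hκε⟩ := hucont ε hε
  obtain ⟨η, hη, k1, k2, k3⟩ : ∃ η > 0, η ≤ 1 / 2 ∧ η ≤ κ' ∧ η ≤ κ / 2 :=
    ⟨min (1 / 2) (min κ' (κ / 2)), by positivity, min_le_left _ _,
      (min_le_right _ _).trans (min_le_left _ _), (min_le_right _ _).trans (min_le_right _ _)⟩
  refine ⟨η, hη, k1, ?_⟩
  intro C hC hCη hCε z hz z' hz'
  -- pull back
  have hC' : IsPreconnected ((homC Φ).symm '' C) :=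
    hC.image _ (homC Φ).symm.continuous.continuousOn
  have hann : ∀ w ∈ (homC Φ).symm '' C, |‖w‖ - 1| < η := by
    rintro _ ⟨u, hu, rfl⟩
    obtain ⟨w, hw, rfl⟩ := hCη hu
    rw [(homC Φ).symm_apply_apply]
    exact hw
  have hmem2 : ∀ w : ℂ, |‖w‖ - 1| < η → w ∈ closedBall (0 : ℂ) 2 := by
    intro w hw
    rw [mem_closedBall_zero_iff]
    have := (abs_lt.1 hw).2
    linarith
  have hunit : ∀ a : ℝ, Complex.exp (a * Complex.I) ∈ closedBall (0 : ℂ) 2 := by
    intro a
    rw [mem_closedBall_zero_iff, Complex.norm_exp_ofReal_mul_I]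
    norm_num
  have hav : ∀ j : ℤ, ∀ w ∈ (homC Φ).symm '' C, η ≤ dist w (Complex.exp (ang N j * Complex.I)) := by
    intro j w hw
    by_contra hcon
    obtain ⟨i, hi, he⟩ := exp_ang (N := N) (by omega) j
    have h1 := hκε w (hmem2 w (hann w hw)) _ (hunit (ang N i)) (by
      rw [← he]; linarith)
    obtain ⟨u, hu, rfl⟩ := hw
    rw [(homC Φ).apply_symm_apply, ← FC_eq] at h1
    exact absurd h1 (not_lt.2 (hCε i hi u hu))
  obtain ⟨j, hj⟩ := one_sector hN3 hC' hann hav (mem_image_of_mem _ hz)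
  have hN' : (3 : ℝ) ≤ N := by exact_mod_cast hN3
  have hβ : 0 < π / N := by positivity
  have hβ3 : π / N ≤ π / 3 := div_le_div_of_nonneg_left Real.pi_pos.le (by norm_num) hN'
  have key : ∀ u ∈ C, dist u (homC Φ (Complex.exp (ang N j * Complex.I))) < r := by
    intro u hu
    have h1 := hann _ (mem_image_of_mem (homC Φ).symm hu)
    have h2 := sec_dist hβ hβ3 (hj (mem_image_of_mem (homC Φ).symm hu))
    have h3 : ‖(homC Φ).symm u‖ ≤ 3 / 2 := by
      have := (abs_lt.1 h1).2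
      linarith
    have h4 := hκr ((homC Φ).symm u) (hmem2 _ h1) _ (hunit (ang N j)) (by
      have h5 : 3 * ‖(homC Φ).symm u‖ * (π / N) ≤ 9 / 2 * (π / N) := by nlinarith
      linarith)
    rwa [(homC Φ).apply_symm_apply] at h4
  have h1 := key z hz
  have h2 := key z' hz'
  have h3 := dist_triangle_right z z' (homC Φ (Complex.exp (ang N j * Complex.I)))
  linarith

/-! ### The lattice domain is in a neighbourhood of the Jordan domain -/

theorem preconnected_out (R : ℝ) (hR : 0 < R) : IsPreconnected ((ball (0 : ℂ) R)ᶜ) := by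
  have h := (preconnected_compl_closedBall 0 R).closure
  rwa [closure_compl, interior_closedBall _ hR.ne'] at h

theorem region_sub {Φ : (ℝ × ℝ) ≃ₜ (ℝ × ℝ)} {δ : ℕ → ℝ} {N k : ℕ → ℕ}
    {p : ∀ n, ZMod (N n) → ℤ × ℤ} {S : ℕ → Finset Tri} (h : Approx Φ δ N k p S) {η : ℝ}
    (hη : 0 < η) : ∀ᶠ n in atTop, toC '' region (δ n) (S n) ⊆ homC Φ '' ball 0 (1 + η) := by
  obtain ⟨A, hA⟩ : ∃ A : Set ℂ, A = homC Φ '' (ball (0 : ℂ) (1 + η))ᶜ := ⟨_, rfl⟩
  have hAc : Aᶜ = homC Φ '' ball 0 (1 + η) := by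
    rw [hA, ← Set.image_compl_eq (homC Φ).bijective, compl_compl]
  have hAo : IsOpen (Aᶜ) := by rw [hAc]; exact (homC Φ).isOpenMap _ isOpen_ball
  have hAp : IsPreconnected A := by
    rw [hA]
    exact (preconnected_out (1 + η) (by linarith)).image _ (homC Φ).continuous.continuousOn
  have hAu : ¬ Bornology.IsBounded A := by
    intro hb
    have h1 : Bornology.IsBounded (Aᶜ) := by
      rw [hAc]
      have h2 : IsCompact (homC Φ '' closedBall 0 (1 + η)) :=
        (isCompact_closedBall 0 (1 + η)).image (homC Φ).continuous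
      exact h2.isBounded.subset (image_mono ball_subset_closedBall)
    have h3 : Bornology.IsBounded (univ : Set ℂ) := by
      rw [← union_compl_self A]
      exact hb.union h1
    exact NormedSpace.unbounded_univ ℂ ℂ h3
  have hF : IsCompact (range (FC Φ)) := by
    rw [← frontier_DC]
    exact Metric.isCompact_of_isClosed_isBounded isClosed_frontier
      ((isBounded_DC Φ).closure.subset frontier_subset_closure)
  have hFA : range (FC Φ) ⊆ Aᶜ := by
    rw [hAc]
    rintro _ ⟨t, rfl⟩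
    rw [FC_eq]
    refine mem_image_of_mem _ ?_
    rw [mem_ball_zero_iff, Complex.norm_exp_ofReal_mul_I]
    linarith
  obtain ⟨ε, hε, hεA⟩ := hF.exists_thickening_subset_open hAo hFA
  filter_upwards [approx_close h (half_pos hε)] with n hn
  obtain ⟨σ, -, -, -, -, -, hd⟩ := hn
  obtain ⟨hδ0, -, -, hp, hS⟩ := h.1 n
  have hPF := UNIQ.polyFacts _ _ _ _ hδ0 hp hS
  have hfr : Disjoint A (frontier (DP (S n) (δ n))) := by
    rw [hPF.front, Set.disjoint_right]
    rintro _ ⟨x, rfl⟩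
    refine hεA ?_
    rw [mem_thickening_iff]
    exact ⟨FC Φ (σ x), mem_range_self _, by linarith [hd x]⟩
  have hdis : Disjoint A (DP (S n) (δ n)) := by
    rw [Set.disjoint_iff_inter_eq_empty]
    by_contra hcon
    have h1 := subset_of_frontier (isOpen_DP _ _) hAp (nonempty_iff_ne_empty.2 hcon) hfr
    exact hAu (hPF.bdd.subset h1)
  rw [← POLY.closure_DC hδ0, ← hAc]
  intro z hz hzA
  have hz' : z ∈ closure (DP (S n) (δ n)) := hz
  rw [closure_eq_self_union_frontier] at hz'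
  rcases hz' with hz' | hz'
  · exact hdis.le_bot ⟨hzA, hz'⟩
  · exact hfr.le_bot ⟨hzA, hz'⟩

/-! ### Counting -/

theorem cross_of_strands {g : C(unitInterval, ℂ)} {t : ℕ → unitInterval} (ht : Monotone t) {w : ℂ}
    {ρ ρ' : ℝ} {m : ℕ} {A : Finset ℕ} (hA : 2 * m ≤ A.card)
    (hs : ∀ i ∈ A, ∃ a ∈ Icc (t (2 * i)) (t (2 * i + 1)), ∃ b ∈ Icc (t (2 * i)) (t (2 * i + 1)),
      dist (g a) w ≤ ρ ∧ ρ' ≤ dist (g b) w) : Cross g w ρ ρ' m := by
  choose! a ha b hb hab using hs
  obtain ⟨e, he⟩ : ∃ e : Fin (2 * m) ↪o ℕ, ∀ i, e i ∈ A :=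
    ⟨A.orderEmbOfCardLe hA, fun i => A.orderEmbOfCardLe_mem hA i⟩
  refine ⟨fun j => if h : j < 2 * m then (if Even j then a (e ⟨j, h⟩) else b (e ⟨j, h⟩)) else ⊤,
    ?_, ?_⟩
  · refine monotone_nat_of_le_succ fun j => ?_
    by_cases h1 : j + 1 < 2 * m
    · have h0 : j < 2 * m := by omega
      have h2 : e ⟨j, h0⟩ < e ⟨j + 1, h1⟩ := e.strictMono (by
        rw [Fin.mk_lt_mk]; omega)
      have h3 : (if Even j then a (e ⟨j, h0⟩) else b (e ⟨j, h0⟩)) ≤ t (2 * e ⟨j, h0⟩ + 1) := by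
        split_ifs
        · exact (ha _ (he _)).2
        · exact (hb _ (he _)).2
      have h4 : t (2 * e ⟨j + 1, h1⟩) ≤
          (if Even (j + 1) then a (e ⟨j + 1, h1⟩) else b (e ⟨j + 1, h1⟩)) := by
        split_ifs
        · exact (ha _ (he _)).1
        · exact (hb _ (he _)).1
      simp only [dif_pos h0, dif_pos h1]
      exact h3.trans ((ht (by omega)).trans h4)
    · simp only [dif_neg h1]
      exact le_top
  · intro i hi
    have h0 : 2 * i < 2 * m := by omega
    have h1 : 2 * i + 1 < 2 * m := by omega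
    have e0 : Even (2 * i) := even_two_mul i
    have e1 : ¬ Even (2 * i + 1) := by simp
    simp only [dif_pos h0, dif_pos h1, if_pos e0, if_neg e1]
    exact ⟨(hab _ (he _)).1, (hab _ (he _)).2⟩

theorem count_small {g : C(unitInterval, ℂ)} {t : ℕ → unitInterval} (ht : Monotone t) {W : Finset ℂ}
    {ρ ρ' : ℝ} {m : ℂ → ℕ} {M : ℕ} (hM : ∑ w ∈ W, 2 * m w < M)
    (hs : ∀ i < M, ∃ w ∈ W, ∃ a ∈ Icc (t (2 * i)) (t (2 * i + 1)),
      ∃ b ∈ Icc (t (2 * i)) (t (2 * i + 1)), dist (g a) w ≤ ρ ∧ ρ' ≤ dist (g b) w) :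
    ∃ w ∈ W, Cross g w ρ ρ' (m w) := by
  classical
  choose! f hf hs using hs
  by_contra hcon
  push Not at hcon
  have h1 : (Finset.range M).card = ∑ w ∈ W, ((Finset.range M).filter fun i => f i = w).card :=
    Finset.card_eq_sum_card_fiberwise fun i hi => hf i (Finset.mem_range.1 hi)
  rw [Finset.card_range] at h1
  have h2 : ∑ w ∈ W, ((Finset.range M).filter fun i => f i = w).card ≤ ∑ w ∈ W, 2 * m w := by
    refine Finset.sum_le_sum fun w hw => ?_
    by_contra hlt
    rw [not_le] at hlt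
    refine hcon w hw (cross_of_strands ht hlt.le fun i hi => ?_)
    rw [Finset.mem_filter, Finset.mem_range] at hi
    obtain ⟨a, ha, b, hb, h3, h4⟩ := hs i hi.1
    rw [hi.2] at h3 h4
    exact ⟨a, ha, b, hb, h3, h4⟩
  omega

end Vale.Agent.P153.R2.SLEX
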