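import Vale.Agent.P153.R2.SLEX.EndP
import Vale.Agent.P153.R2.SLEX.BdpA

/-!
P153, block SLEX (I_end): the four crosscuts at `b`.
-/

set_option autoImplicit false
set_option linter.all false

namespace Vale.Agent.P153.R2.SLEX

open Filter Topology Set
open Vale.Agent.P145.PT Vale.Agent.P153 Vale.Agent.P153.F.Top Vale.Agent.P153.R2.FLDI
open Vale.Agent.P153.Topo (Conn)
open Vale.Agent.P153.R2.LOC (NO ds mem_bx_iff ds_adj)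

/-- `Q` is a crosscut of `F` between the distances `a` and `b` from `z`. -/
structure Crc (F : Set Pt) (δ : ℝ) (z : ℝ × ℝ) (Q : Set Pt) (a b : ℝ) : Prop where
  sub : Q ⊆ F
  cn : Cn Q
  far : ∀ v ∈ Q, a ≤ dist (dp δ v) z
  near : ∀ v ∈ Q, dist (dp δ v) z < b
  wall : ∃ q ∈ Q, NO F q
  cut : ∀ u v : Pt, u ∈ F → dist (dp δ u) z < a → b ≤ dist (dp δ v) z → ¬ Conn (F \ Q) u v

/-- Lattice radii. -/
theorem rad {δ : ℝ} (hδ : 0 < δ) {z : ℝ × ℝ} {x₀ : Pt} {s a : ℝ} (hx : dist (dp δ x₀) z < s)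
    {t ρ₀ : ℤ} (ht : 1 ≤ t) (hsa : 32 * t * s ≤ a) (hδa : 24 * (t + 1) * δ ≤ a)
    (hδs : ρ₀ * δ ≤ 4 * s) : ∃ K k : ℤ, ρ₀ ≤ K ∧ t * (K + 2) ≤ k - 2 ∧
      (∀ v, dist (dp δ v) z < s → v ∈ bx x₀ K) ∧ ∀ v, v ∈ bx x₀ k → dist (dp δ v) z < a := by
  have hs : 0 < s := dist_nonneg.trans_lt hx
  have ht' : (1 : ℝ) ≤ t := by exact_mod_cast ht
  have hK1 : 4 * s / δ ≤ ⌈4 * s / δ⌉ := Int.le_ceil _
  have hK2 : (⌈4 * s / δ⌉ : ℝ) < 4 * s / δ + 1 := Int.ceil_lt_add_one _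
  have hk1 : (⌊a / (2 * δ)⌋ : ℝ) ≤ a / (2 * δ) := Int.floor_le _
  have hk2 : a / (2 * δ) < ⌊a / (2 * δ)⌋ + 1 := Int.lt_floor_add_one _
  refine ⟨⌈4 * s / δ⌉, ⌊a / (2 * δ)⌋, ?_, ?_, fun v hv => ?_, fun v hv => ?_⟩
  · have h1 : (ρ₀ : ℝ) ≤ ⌈4 * s / δ⌉ := by
      refine le_trans ?_ hK1
      rw [le_div_iff₀ hδ]
      exact hδs
    exact_mod_cast h1
  · have h1 : ((t * (⌈4 * s / δ⌉ + 2) + 2 : ℤ) : ℝ) < ((⌊a / (2 * δ)⌋ + 1 : ℤ) : ℝ) := by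
      push_cast
      refine lt_of_le_of_lt ?_ hk2
      rw [le_div_iff₀ (by positivity)]
      have h2 : ((⌈4 * s / δ⌉ : ℝ)) * δ ≤ 4 * s + δ := by
        have h3 := mul_le_mul_of_nonneg_right hK2.le hδ.le
        rw [add_mul, div_mul_cancel₀ _ hδ.ne', one_mul] at h3
        exact h3
      have h4 : (t : ℝ) * ((⌈4 * s / δ⌉ : ℝ) * δ) ≤ t * (4 * s + δ) :=
        mul_le_mul_of_nonneg_left h2 (by linarith)
      have e1 : ((t : ℝ) * ((⌈4 * s / δ⌉ : ℝ) + 2) + 2) * (2 * δ) =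
          2 * (t * ((⌈4 * s / δ⌉ : ℝ) * δ)) + 4 * t * δ + 4 * δ := by ring
      rw [e1]
      nlinarith
    have h2 : t * (⌈4 * s / δ⌉ + 2) + 2 < ⌊a / (2 * δ)⌋ + 1 := by exact_mod_cast h1
    omega
  · rw [mem_bx_iff]
    refine ds_le_of_dist hδ (le_trans ?_ hK1)
    refine div_le_div_of_nonneg_right ?_ hδ.le
    have h4 := dist_triangle_right (dp δ v) (dp δ x₀) z
    linarith
  · rw [mem_bx_iff] at hv
    have h1 := dist_le_ds hδ hv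
    have h2 := dist_triangle (dp δ v) (dp δ x₀) z
    have h3 : (⌊a / (2 * δ)⌋ : ℝ) * δ ≤ a / 2 := by
      have h4 := mul_le_mul_of_nonneg_right hk1 hδ.le
      have e : a / (2 * δ) * δ = a / 2 := by field_simp
      rwa [e] at h4
    have ha : 32 * s ≤ a := by nlinarith
    nlinarith

variable {Φ : (ℝ × ℝ) ≃ₜ (ℝ × ℝ)} {δ : ℕ → ℝ} {N k : ℕ → ℕ}
  {p : ∀ n, ZMod (N n) → ℤ × ℤ} {S : ℕ → Finset ((ℤ × ℤ) × Bool)}

/-- Crosscuts. -/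
theorem crc_ev (h : Final.Approx Φ δ N k p S) {t₀ : ℝ} (ht₀ : t₀ ∈ Ioo 0 (2 * Real.pi))
    {b : ℝ} (hb : 0 < b) : ∃ a : ℝ, 0 < a ∧ a < b ∧ ∀ᶠ n in atTop, ∃ Q : Set Pt,
      Crc (inn (p n) (S n)) (δ n) (Φ (Final.circ t₀)) Q a b := by
  obtain ⟨a, ha, hev⟩ := crosscut_in h ht₀ hb
  have hab : a < b := by
    obtain ⟨n, hn⟩ := hev.exists
    obtain ⟨Q, q, h1, h2, h3, h4, h5, h6, h7⟩ := hn
    exact (h5 q h1).trans_lt (h6 q h1)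
  refine ⟨a, ha, hab, hev.mono ?_⟩
  rintro n ⟨Q, q, h1, h2, ⟨o, ho1, ho2⟩, h4, h5, h6, h7⟩
  exact ⟨Q, h2, fun x hx y hy => (h4 x hx).symm.trans (h4 y hy), h5, h6, ⟨q, h1, h2 h1, o, ho1, ho2⟩,
    fun u v hu hau hbv => h7 u v hu hau hbv⟩

/-- **The four crosscuts.** -/
theorem four_ev (h : Final.Approx Φ δ N k p S) {t₀ : ℝ} (ht₀ : t₀ ∈ Ioo 0 (2 * Real.pi))
    {t ρ₀ : ℤ} (ht : 1 ≤ t) (hρ₀ : 1 ≤ ρ₀) {r : ℝ} (hr : 0 < r) :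
    ∃ a₁ b₁ a₂ : ℝ, 0 < a₁ ∧ a₁ < b₁ ∧ b₁ < a₂ ∧ a₂ < r ∧ ∀ᶠ n in atTop,
      ∃ (x₀ : Pt) (Q₁ Q₁' Q₂' Q₂ : Set Pt) (ρ₁ R₁ ρ R ρ₂ R₂ : ℤ),
        Four (inn (p n) (S n)) x₀ Q₁ Q₁' Q₂' Q₂ ρ₁ R₁ ρ R ρ₂ R₂ ∧ ρ₀ ≤ ρ₁ ∧ t * ρ₁ ≤ R₁ ∧
        ρ₀ ≤ ρ ∧ t * ρ ≤ R ∧ ρ₀ ≤ ρ₂ ∧ t * ρ₂ ≤ R₂ ∧
        Crc (inn (p n) (S n)) (δ n) (Φ (Final.circ t₀)) Q₁ a₁ b₁ ∧
        Crc (inn (p n) (S n)) (δ n) (Φ (Final.circ t₀)) Q₂ a₂ r := by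
  have hA := approxF h
  have ht' : (1 : ℝ) ≤ t := by exact_mod_cast ht
  have hρ₀' : (1 : ℝ) ≤ ρ₀ := by exact_mod_cast hρ₀
  obtain ⟨a₂, ha₂, hab₂, e₂⟩ := crc_ev h ht₀ hr
  have hb₂' : 0 < a₂ / (32 * t) := by positivity
  obtain ⟨a₂', ha₂', hab₂', e₂'⟩ := crc_ev h ht₀ hb₂'
  have hb₁' : 0 < a₂' / (32 * t) := by positivity
  obtain ⟨a₁', ha₁', hab₁', e₁'⟩ := crc_ev h ht₀ hb₁'
  have hb₁ : 0 < a₁' / (32 * t) := by positivity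
  obtain ⟨a₁, ha₁, hab₁, e₁⟩ := crc_ev h ht₀ hb₁
  set z := Φ (Final.circ t₀) with hz
  set b₁ := a₁' / (32 * t) with hb₁d
  set b₁' := a₂' / (32 * t) with hb₁'d
  set b₂' := a₂ / (32 * t) with hb₂'d
  have c₁ : 32 * t * b₁ = a₁' := by rw [hb₁d]; field_simp
  have c₁' : 32 * t * b₁' = a₂' := by rw [hb₁'d]; field_simp
  have c₂' : 32 * t * b₂' = a₂ := by rw [hb₂'d]; field_simp
  have l₁ : 32 * b₁ ≤ a₁' := by rw [← c₁]; nlinarith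
  have l₁' : 32 * b₁' ≤ a₂' := by rw [← c₁']; nlinarith
  have l₂' : 32 * b₂' ≤ a₂ := by rw [← c₂']; nlinarith
  refine ⟨a₁, b₁, a₂, ha₁, hab₁, by linarith, hab₂, ?_⟩
  set m := min (a₁' / (24 * (t + 1))) (4 * b₁ / ρ₀) with hm
  have hm0 : 0 < m := lt_min (by positivity) (by positivity)
  have hδm : ∀ᶠ n in atTop, δ n < m := hA.lim.eventually (gt_mem_nhds hm0)
  filter_upwards [e₁, e₁', e₂', e₂, hδm, ev_par h hb₁] with n g₁ g₁' g₂' g₂ g3 g4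
  have hδ := hA.pos n
  have hp := (h.1 n).2.2.2.1
  have hS := (h.1 n).2.2.2.2
  have : NeZero (N n) := ⟨by have := hp.1; omega⟩
  obtain ⟨g3a, g3b⟩ := lt_min_iff.1 g3
  rw [lt_div_iff₀ (by positivity)] at g3a g3b
  obtain ⟨Q₁, k₁⟩ := g₁
  obtain ⟨Q₁', k₁'⟩ := g₁'
  obtain ⟨Q₂', k₂'⟩ := g₂'
  obtain ⟨Q₂, k₂⟩ := g₂
  obtain ⟨s, hs, hs0, hsN, -, hdist⟩ := g4
  obtain ⟨i, hi, hit⟩ := exists_seg hs hs0 hsN ht₀
  have hx₀z : dist (dp (δ n) (p n i)) z < b₁ := hdist i hi t₀ hit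
  set V := inn (p n) (S n) with hV
  set x₀ : Pt := p n i with hx₀
  have hx₀V : x₀ ∉ V := fun hin => (F.Dom.dl_inner.1 (Finset.mem_coe.1 hin)).2 _ rfl
  have hbb : b₁ ≤ b₁' := by linarith
  have hbb' : b₁ ≤ b₂' := by linarith
  obtain ⟨K₁, κ₁, m1, m2, m3, m4⟩ := rad (ρ₀ := ρ₀) hδ hx₀z ht c₁.le (by linarith) (by linarith)
  obtain ⟨K₁', κ₁', m1', m2', m3', m4'⟩ := rad (ρ₀ := ρ₀) hδ (hx₀z.trans_le hbb) ht c₁'.le
    (by linarith) (by linarith)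
  obtain ⟨K₂', κ₂', n1', n2', n3', n4'⟩ := rad (ρ₀ := ρ₀) hδ (hx₀z.trans_le hbb') ht c₂'.le
    (by linarith) (by linarith)
  refine ⟨x₀, Q₁, Q₁', Q₂', Q₂, K₁, κ₁, K₁' + 2, κ₁' - 2, K₂', κ₂', ?_, m1, by nlinarith, by omega,
    m2', n1', by nlinarith, k₁, k₂⟩
  exact
    { x0 := hx₀V
      s1 := k₁.sub
      s1' := k₁'.sub
      s2' := k₂'.sub
      s2 := k₂.sub
      c1 := k₁.cn
      c1' := k₁'.cn
      c2' := k₂'.cn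
      c2 := k₂.cn
      w1 := k₁.wall
      w2' := k₂'.wall
      b1 := fun v hv => m3 v (k₁.near v hv)
      d1 := Set.disjoint_left.2 fun v hv hv' => by
        have h1 := k₁'.far v hv
        have h2 := m4 v hv'
        linarith
      g1 := fun q hq v hqv => by
        have h1 := k₁.near q hq
        have e : K₁' + 2 - 2 = K₁' := by ring
        rw [e]
        refine m3' v ?_
        by_contra hc
        push Not at hc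
        exact k₁'.cut q v (k₁.sub hq) (by linarith) hc hqv
      g2 := fun q hq v hqv hv => by
        have h1 := k₂.far q hq
        have e : κ₁' - 2 + 2 = κ₁' := by ring
        rw [e] at hv
        exact k₂'.cut v q hqv.right_mem.1 (m4' v hv) (by linarith) hqv.symm
      b2' := fun v hv => n3' v (k₂'.near v hv)
      d2 := Set.disjoint_left.2 fun v hv hv' => by
        have h1 := k₂.far v hv
        have h2 := n4' v hv'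
        linarith }

end Vale.Agent.P153.R2.SLEX
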