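import Vale.Agent.P153.R2.OBSV.MeanH
import Vale.Agent.P153.R2.LOC.Mir

/-!
P153, block SLEX (I_end): a crossing of a quad of the domain by `{h ≥ 1}` which is not attached to
the positive wall is unlikely, by MULT at the level `j = 0` alone.
-/

set_option autoImplicit false
set_option linter.all false

namespace Vale.Agent.P153.R2.SLEX

open Set
open Vale.Agent.P153 Vale.Agent.P153.R2
open Vale.Agent.P153.Topo (Conn adj_symm)
open Vale.Agent.P153.R2.INTF (CA mem_CA CA_finite eta eta_mem eta_not eta_or Arcs)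
open Vale.Agent.P153.R2.LOC (An Co Co_subset Co_cn Wdn Wdn_subset NO TW multW_hi ds mem_An_iff
  mem_bx_iff ds_adj fib_exa)
open Vale.Agent.P153.R2.PLAN (Cl_subset)
open Vale.Agent.P153.R2.OBSV (CA_nonempty)

variable {F P M Q : Set Pt} {h g : Hg} {x y z x₀ : Pt}

/-- The `{h ≥ 1}`-sites of `F \ Q` joined to the wall `P` in `F \ Q`. -/
def Eh (F P Q : Set Pt) (h : Hg) : Set Pt := Cl ((F \ Q) ∩ up h 1) {v | ∃ z ∈ P, Adj z v}

/-- The high clusters of `Q`. -/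
def Ch (F Q : Set Pt) (h : Hg) : Set Pt := Cl (F ∩ up h 3) Q

/-- The first revealed set. -/
def D1 (F Q : Set Pt) (h : Hg) : Set Pt := Q ∪ {x | x ∈ F ∧ (x ∈ Ch F Q h ∨ ∃ y ∈ Ch F Q h, Adj y x)}

/-- The second revealed set. -/
def D2 (F P Q : Set Pt) (h : Hg) : Set Pt :=
  {x | x ∈ F \ D1 F Q h ∧ (x ∈ Eh F P (D1 F Q h) h ∨ (∃ y ∈ Eh F P (D1 F Q h) h, Adj y x) ∨
    ∃ z ∈ P, Adj z x)}

/-- The revealed set. -/
def DD (F P Q : Set Pt) (h : Hg) : Set Pt := D1 F Q h ∪ D2 F P Q h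

theorem Cl_step {S A : Set Pt} (hx : x ∈ Cl S A) (hxy : Adj x y) (hy : y ∈ S) : y ∈ Cl S A := by
  obtain ⟨a, ha, hax⟩ := hx
  exact ⟨a, ha, hax.tail hxy hy⟩

/-- Clusters do not change if the heights on them and on their boundary do not change. -/
theorem Cl_congr {S T A : Set Pt} (hS : Cl S A ⊆ T) (hA : ∀ x ∈ A, x ∈ T → x ∈ S)
    (hb : ∀ x ∈ Cl S A, ∀ y ∈ T, Adj x y → y ∈ S) : Cl T A = Cl S A := by
  apply Subset.antisymm
  · rintro x ⟨a, ha, hax⟩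
    refine Conn.ind (S := T) (fun x => x ∈ Cl S A) ⟨a, ha, Conn.refl (hA a ha hax.left_mem)⟩
      (fun u v hu huv hv ih => Cl_step ih huv (hb u ih v hv huv)) hax
  · rintro x ⟨a, ha, hax⟩
    refine Conn.ind (S := S) (fun x => x ∈ Cl T A) ?_ ?_ hax
    · exact ⟨a, ha, Conn.refl (hS ⟨a, ha, Conn.refl hax.left_mem⟩)⟩
    · intro u v hu huv hv ih
      exact Cl_step ih huv (hS ⟨a, ha, hu.tail huv hv⟩)

theorem D1_congr (hQ : Q ⊆ F) (hg : ∀ x ∈ D1 F Q h, g x = h x) : D1 F Q g = D1 F Q h := by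
  have e : Ch F Q g = Ch F Q h := by
    refine Cl_congr (fun x hx => ?_) (fun x hx hxT => ?_) (fun x hx y hy hxy => ?_)
    · have h1 := Cl_subset hx
      have h2 : 3 ≤ h x := h1.2
      refine ⟨h1.1, ?_⟩
      show 3 ≤ g x
      rw [hg x (Or.inr ⟨h1.1, Or.inl hx⟩)]
      exact h2
    · have h1 : 3 ≤ g x := hxT.2
      rw [hg x (Or.inl hx)] at h1
      exact ⟨hxT.1, h1⟩
    · have h1 : 3 ≤ g y := hy.2
      rw [hg y (Or.inr ⟨hy.1, Or.inr ⟨x, hx, hxy⟩⟩)] at h1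
      exact ⟨hy.1, h1⟩
  unfold D1
  rw [e]

theorem D2_congr (hg : D1 F Q g = D1 F Q h) (hg2 : ∀ x ∈ D2 F P Q h, g x = h x) :
    D2 F P Q g = D2 F P Q h := by
  have e : Eh F P (D1 F Q h) g = Eh F P (D1 F Q h) h := by
    refine Cl_congr (fun x hx => ?_) (fun x hx hxT => ?_) (fun x hx y hy hxy => ?_)
    · have h1 := Cl_subset hx
      have h2 : 1 ≤ h x := h1.2
      refine ⟨h1.1, ?_⟩
      show 1 ≤ g x
      rw [hg2 x ⟨h1.1, Or.inl hx⟩]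
      exact h2
    · have h1 : 1 ≤ g x := hxT.2
      obtain ⟨z, hz, hzx⟩ := hx
      rw [hg2 x ⟨hxT.1, Or.inr (Or.inr ⟨z, hz, hzx⟩)⟩] at h1
      exact ⟨hxT.1, h1⟩
    · have h1 : 1 ≤ g y := hy.2
      rw [hg2 y ⟨hy.1, Or.inr (Or.inl ⟨x, hx, hxy⟩)⟩] at h1
      exact ⟨hy.1, h1⟩
  unfold D2
  rw [hg, e]

theorem DD_congr (hQ : Q ⊆ F) (hg : ∀ x ∈ DD F P Q h, g x = h x) : DD F P Q g = DD F P Q h := by
  have h1 := D1_congr hQ fun x hx => hg x (Or.inl hx)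
  have h2 := D2_congr (P := P) h1 fun x hx => hg x (Or.inr hx)
  unfold DD
  rw [h1, h2]

theorem D1_sub (hQ : Q ⊆ F) : D1 F Q h ⊆ F := by
  rintro x (hx | hx)
  · exact hQ hx
  · exact hx.1

/-- The complement of the domain after the second exploration is connected. -/
theorem cc_V (hcc : CC F) (hFP : Disjoint F P) : CC (F \ D2 F P Q h) := by
  have hsub : Fᶜ ⊆ (F \ D2 F P Q h)ᶜ := fun x hx hx' => hx hx'.1
  have hD : D2 F P Q h ⊆ (F \ D2 F P Q h)ᶜ := fun x hx hx' => hx'.2 hx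
  have hE : ∀ x ∈ Eh F P (D1 F Q h) h, ∃ z, z ∉ F ∧ Conn (F \ D2 F P Q h)ᶜ z x := by
    rintro x ⟨a, ⟨z, hz, hza⟩, hax⟩
    refine ⟨z, fun hc => Set.disjoint_left.1 hFP hc hz, ?_⟩
    have hzF : z ∈ (F \ D2 F P Q h)ᶜ := hsub fun hc => Set.disjoint_left.1 hFP hc hz
    have haE : ∀ u, Conn ((F \ D1 F Q h) ∩ up h 1) a u → u ∈ (F \ D2 F P Q h)ᶜ := by
      intro u hu
      exact hD ⟨hu.right_mem.1, Or.inl ⟨a, ⟨z, hz, hza⟩, hu⟩⟩
    refine Conn.ind (S := (F \ D1 F Q h) ∩ up h 1) (fun x => Conn (F \ D2 F P Q h)ᶜ z x) ?_ ?_ hax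
    · exact Conn.of_adj hzF (haE a (Conn.refl hax.left_mem)) hza
    · intro u v hu huv hv ih
      exact ih.tail huv (haE v (hu.tail huv hv))
  have key : ∀ x, x ∉ F \ D2 F P Q h → ∃ z, z ∉ F ∧ Conn (F \ D2 F P Q h)ᶜ z x := by
    intro x hx
    by_cases hxF : x ∈ F
    · have hxD : x ∈ D2 F P Q h := by
        by_contra hc
        exact hx ⟨hxF, hc⟩
      rcases hxD.2 with h1 | ⟨y, hy, hyx⟩ | ⟨z, hz, hzx⟩
      · exact hE x h1
      · obtain ⟨z, hz, hzy⟩ := hE y hy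
        exact ⟨z, hz, hzy.tail hyx hx⟩
      · have hzF : z ∉ F := fun hc => Set.disjoint_left.1 hFP hc hz
        exact ⟨z, hzF, Conn.of_adj (hsub hzF) hx hzx⟩
    · exact ⟨x, hxF, Conn.refl hx⟩
  intro x y hx hy
  obtain ⟨a, ha, hax⟩ := key x hx
  obtain ⟨b, hb, hby⟩ := key y hy
  exact hax.symm.trans (((hcc a b ha hb).mono hsub).trans hby)

/-- The heights next to the rest are at most one. -/
theorem low_ebd (hA : Arcs F P M) (hQ : Q ⊆ F) (hh : h ∈ CA F M)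
    (hz : z ∈ ebd (F \ DD F P Q h)) : h z ≤ 1 := by
  obtain ⟨hodd, hout, hlip⟩ := mem_CA.1 hh
  obtain ⟨hz1, x, ⟨hxF, hxD⟩, hxz⟩ := hz
  by_cases hzF : z ∈ F
  · have hzD : z ∈ DD F P Q h := by
      by_contra hc
      exact hz1 ⟨hzF, hc⟩
    by_contra hc
    push Not at hc
    have h3 : 3 ≤ h z := by
      obtain ⟨k, hk⟩ := hodd z
      omega
    rcases hzD with hzD | hzD
    · have hzC : z ∈ Ch F Q h := by
        rcases hzD with hzQ | ⟨_, hzC | ⟨y, hy, hyz⟩⟩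
        · exact ⟨z, hzQ, Conn.refl ⟨hzF, h3⟩⟩
        · exact hzC
        · exact Cl_step hy hyz ⟨hzF, h3⟩
      exact hxD (Or.inl (Or.inr ⟨hxF, Or.inr ⟨z, hzC, adj_symm hxz⟩⟩))
    · have hzE : z ∈ Eh F P (D1 F Q h) h := by
        have hzS : z ∈ (F \ D1 F Q h) ∩ up h 1 := ⟨hzD.1, by show 1 ≤ h z; omega⟩
        rcases hzD.2 with h4 | ⟨y, hy, hyz⟩ | ⟨w, hw, hwz⟩
        · exact h4
        · exact Cl_step hy hyz hzS
        · exact ⟨z, ⟨w, hw, hwz⟩, Conn.refl hzS⟩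
      exact hxD (Or.inr ⟨⟨hxF, fun hc => hxD (Or.inl hc)⟩, Or.inr (Or.inl ⟨z, hzE, adj_symm hxz⟩)⟩)
  · rw [hout z hzF]
    rcases eta_or M z with h4 | h4 <;> rw [h4] <;> norm_num

/-- The walls next to the rest have the height `-1`, away from the first set. -/
theorem wall_neg (hA : Arcs F P M) (hh : h ∈ CA F M) (hzV : z ∉ F \ D2 F P Q h)
    (hx : x ∈ F \ D2 F P Q h) (hxD : x ∉ D1 F Q h) (hxz : Adj x z) : h z ≤ -1 := by
  obtain ⟨hodd, hout, hlip⟩ := mem_CA.1 hh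
  by_cases hzF : z ∈ F
  · have hzD : z ∈ D2 F P Q h := by
      by_contra hc
      exact hzV ⟨hzF, hc⟩
    by_contra hc
    push Not at hc
    have h1 : 1 ≤ h z := by
      obtain ⟨k, hk⟩ := hodd z
      omega
    have hzE : z ∈ Eh F P (D1 F Q h) h := by
      have hzS : z ∈ (F \ D1 F Q h) ∩ up h 1 := ⟨hzD.1, h1⟩
      rcases hzD.2 with h4 | ⟨y, hy, hyz⟩ | ⟨w, hw, hwz⟩
      · exact h4
      · exact Cl_step hy hyz hzS
      · exact ⟨z, ⟨w, hw, hwz⟩, Conn.refl hzS⟩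
    exact hx.2 ⟨⟨hx.1, hxD⟩, Or.inr (Or.inl ⟨z, hzE, adj_symm hxz⟩)⟩
  · rcases hA.bd x hx.1 z hxz with h4 | h4 | h4
    · exact absurd h4 hzF
    · exact absurd ⟨⟨hx.1, hxD⟩, Or.inr (Or.inr ⟨z, h4, adj_symm hxz⟩)⟩ hx.2
    · rw [hout z hzF, eta_mem h4]

/-- Four crosscuts around a boundary point: `Q₁ < Q₁' < Q₂' < Q₂`. -/
structure Four (F : Set Pt) (x₀ : Pt) (Q₁ Q₁' Q₂' Q₂ : Set Pt) (ρ₁ R₁ ρ R ρ₂ R₂ : ℤ) : Prop where
  x0 : x₀ ∉ F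
  s1 : Q₁ ⊆ F
  s1' : Q₁' ⊆ F
  s2' : Q₂' ⊆ F
  s2 : Q₂ ⊆ F
  c1 : Cn Q₁
  c1' : Cn Q₁'
  c2' : Cn Q₂'
  c2 : Cn Q₂
  w1 : ∃ q ∈ Q₁, NO F q
  w2' : ∃ q ∈ Q₂', NO F q
  b1 : Q₁ ⊆ bx x₀ ρ₁
  d1 : Disjoint Q₁' (bx x₀ R₁)
  g1 : ∀ q ∈ Q₁, ∀ v, Conn (F \ Q₁') q v → v ∈ bx x₀ (ρ - 2)
  g2 : ∀ q ∈ Q₂, ∀ v, Conn (F \ Q₂') q v → v ∉ bx x₀ (R + 2)
  b2' : Q₂' ⊆ bx x₀ ρ₂
  d2 : Disjoint Q₂ (bx x₀ R₂)

/-- No high path between two crosscuts. -/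
theorem high_small (hS : LOC.S_land 2) : ∀ ε : ℝ, 0 < ε → ∃ t : ℤ, 1 ≤ t ∧ ∃ ρ₀ : ℤ, 1 ≤ ρ₀ ∧
    ∀ (F P M : Set Pt) (x₀ : Pt) (ρ R : ℤ) (N Q : Set Pt), Arcs F P M → x₀ ∉ F → ρ₀ ≤ ρ →
      t * ρ ≤ R → N ⊆ F → Q ⊆ F → Cn N → Cn Q → (∃ q ∈ N, NO F q) → N ⊆ bx x₀ ρ →
      Disjoint Q (bx x₀ R) →
      Pr (CA F M) {h | ∃ x ∈ N, ∃ y ∈ Q, Conn (F ∩ up h 3) x y} ≤ ε := by
  intro ε hε
  obtain ⟨t, ht, ρ₀, hρ₀, H⟩ := multW_hi 0 hS ε hε
  refine ⟨t, ht, ρ₀, hρ₀, ?_⟩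
  intro F P M x₀ ρ R N Q hA hx₀ hρ hR hNF hQF hN hQ ⟨p, hp, hpn⟩ hNb hQb
  have hle : ∀ z, eta M z ≤ 1 := fun z => by
    rcases eta_or M z with h | h <;> rw [h] <;> norm_num
  have key := H 1 F F x₀ ρ R p (eta M) N Q odd_one
    ⟨hA.fin, hA.cc, subset_rfl, CA_nonempty F M, fun x hx _ => (Co_subset hx).1⟩
    (fun z _ => by have := hle z; push_cast; omega) (fun z _ x _ _ _ => hle z) hx₀ hρ hR hpn hp hNF
    hNb (fun x hx => hN p hp x hx) hQF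
    (Set.disjoint_left.2 fun x hx hx' => Set.disjoint_left.1 hQb hx (Co_subset hx').2) hQ
  refine (Pr_mono fun h _ hh => ?_).trans key
  obtain ⟨x, hx, y, hy, hxy⟩ := hh
  refine ⟨x, hx, y, hy, hxy.mono ?_⟩
  intro z hz
  refine ⟨hz.1, fun hc => ?_⟩
  have h1 : h z ≤ 1 := (Wdn_subset hc).2
  have h2 : 3 ≤ h z := hz.2
  omega

/-- The first set stays away from the annulus. -/
def Gd (x₀ : Pt) (ρ R : ℤ) (D : Set Pt) : Prop := ∀ x ∈ D, x ∈ bx x₀ (ρ - 1) ∨ x ∉ bx x₀ (R + 1)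

/-- **The crossing which is not attached to the positive wall.** -/
theorem end_plus (hS : LOC.S_land 2) : ∀ ε : ℝ, 0 < ε → ∃ t : ℤ, 1 ≤ t ∧ ∃ ρ₀ : ℤ, 1 ≤ ρ₀ ∧
    ∀ (F P M : Set Pt) (x₀ : Pt) (Q₁ Q₁' Q₂' Q₂ : Set Pt) (ρ₁ R₁ ρ R ρ₂ R₂ : ℤ), Arcs F P M →
      Four F x₀ Q₁ Q₁' Q₂' Q₂ ρ₁ R₁ ρ R ρ₂ R₂ → ρ₀ ≤ ρ₁ → t * ρ₁ ≤ R₁ → ρ₀ ≤ ρ → t * ρ ≤ R →
      ρ₀ ≤ ρ₂ → t * ρ₂ ≤ R₂ →
      Pr (CA F M) {h | ∃ x ∈ Q₁, ∃ y ∈ Q₂,
        Conn ((F ∩ up h 1) \ Eh F P (Q₁ ∪ Q₂) h ∪ Q₁ ∪ Q₂) x y} ≤ ε := by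
  classical
  intro ε hε
  obtain ⟨t₁, ht₁, r₁, hr₁, H₁⟩ := high_small hS (ε / 3) (by positivity)
  obtain ⟨t₂, ht₂, r₂, hr₂, H₂⟩ := multW_hi 0 hS (ε / 3) (by positivity)
  refine ⟨2 * max t₁ t₂, by
    have := le_max_left t₁ t₂
    omega, max r₁ r₂ + 2, by
    have := le_max_left r₁ r₂
    omega, ?_⟩
  intro F P M x₀ Q₁ Q₁' Q₂' Q₂ ρ₁ R₁ ρ R ρ₂ R₂ hA hF hρ₁ hR₁ hρ hR hρ₂ hR₂
  have m1 := le_max_left r₁ r₂
  have m2 := le_max_right r₁ r₂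
  have m3 : t₁ ≤ max t₁ t₂ := le_max_left t₁ t₂
  have m4 : t₂ ≤ max t₁ t₂ := le_max_right t₁ t₂
  have hbx : ∀ {v : Pt} {a b : ℤ}, v ∈ bx x₀ a → a ≤ b → v ∈ bx x₀ b := by
    intro v a b hv hab
    rw [mem_bx_iff] at hv ⊢
    omega
  have k1 := H₁ F P M x₀ ρ₁ R₁ Q₁ Q₁' hA hF.x0 (by omega) (by nlinarith) hF.s1 hF.s1' hF.c1 hF.c1'
    hF.w1 hF.b1 hF.d1
  have k2 := H₁ F P M x₀ ρ₂ R₂ Q₂' Q₂ hA hF.x0 (by omega) (by nlinarith) hF.s2' hF.s2 hF.c2' hF.c2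
    hF.w2' hF.b2' hF.d2
  set Q := Q₁ ∪ Q₂ with hQ
  have hQF : Q ⊆ F := union_subset hF.s1 hF.s2
  set S := CA F M with hSd
  have hfin : S.Finite := CA_finite hA.fin
  set A : Set Hg := {h | ∃ x ∈ Q₁, ∃ y ∈ Q₂, Conn ((F ∩ up h 1) \ Eh F P Q h ∪ Q₁ ∪ Q₂) x y} with hAd
  set B₁ : Set Hg := {h | ∃ x ∈ Q₁, ∃ y ∈ Q₁', Conn (F ∩ up h 3) x y} with hB₁
  set B₂ : Set Hg := {h | ∃ x ∈ Q₂', ∃ y ∈ Q₂, Conn (F ∩ up h 3) x y} with hB₂
  set G : Set Hg := {h | Gd x₀ ρ R (D1 F Q h)} with hG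
  -- the inner and outer radii
  have hd1 : Disjoint Q₁ Q₁' := by
    refine Set.disjoint_left.2 fun x hx hx' => Set.disjoint_left.1 hF.d1 hx' (hbx (hF.b1 hx) ?_)
    nlinarith
  have hd2 : Disjoint Q₂ Q₂' := by
    refine Set.disjoint_left.2 fun x hx hx' => Set.disjoint_left.1 hF.d2 hx (hbx (hF.b2' hx') ?_)
    nlinarith
  have hgood : ∀ h, h ∉ B₁ → h ∉ B₂ → h ∈ G := by
    intro h hb1 hb2
    have hC : ∀ x ∈ Ch F Q h, x ∈ bx x₀ (ρ - 2) ∨ x ∉ bx x₀ (R + 2) := by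
      rintro x ⟨q, hq, hqx⟩
      rcases hq with hq | hq
      · left
        refine hF.g1 q hq x ?_
        refine Conn.ind (S := F ∩ up h 3) (fun x => Conn (F \ Q₁') q x)
          (Conn.refl ⟨hF.s1 hq, fun hc => Set.disjoint_left.1 hd1 hq hc⟩) ?_ hqx
        intro u v hu huv hv ih
        exact ih.tail huv ⟨hv.1, fun hc => hb1 ⟨q, hq, v, hc, hu.tail huv hv⟩⟩
      · right
        refine hF.g2 q hq x ?_
        refine Conn.ind (S := F ∩ up h 3) (fun x => Conn (F \ Q₂') q x)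
          (Conn.refl ⟨hF.s2 hq, fun hc => Set.disjoint_left.1 hd2 hq hc⟩) ?_ hqx
        intro u v hu huv hv ih
        exact ih.tail huv ⟨hv.1, fun hc => hb2 ⟨v, hc, q, hq, (hu.tail huv hv).symm⟩⟩
    have hC' : ∀ x ∈ Ch F Q h, ∀ y, Adj x y → y ∈ bx x₀ (ρ - 1) ∨ y ∉ bx x₀ (R + 1) := by
      intro x hx y hxy
      have h1 := ds_adj (x₀ := x₀) hxy
      rw [abs_le] at h1
      rcases hC x hx with h2 | h2
      · left
        rw [mem_bx_iff] at h2 ⊢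
        omega
      · right
        rw [mem_bx_iff] at h2 ⊢
        omega
    rintro x (hx | ⟨hxF, hx | ⟨y, hy, hyx⟩⟩)
    · rcases hx with hx | hx
      · left
        exact hbx (hF.g1 x hx x (Conn.refl ⟨hF.s1 hx, fun hc => Set.disjoint_left.1 hd1 hx hc⟩))
          (by omega)
      · right
        intro hc
        exact hF.g2 x hx x (Conn.refl ⟨hF.s2 hx, fun hc => Set.disjoint_left.1 hd2 hx hc⟩)
          (hbx hc (by omega))
    · rcases hC x hx with h2 | h2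
      · exact Or.inl (hbx h2 (by omega))
      · exact Or.inr fun hc => h2 (hbx hc (by omega))
    · exact hC' y hy x hyx
  -- the fibres
  have key := Pr_le_of_fiber hfin (fun h : Hg => (DD F P Q h, fun x => if x ∈ DD F P Q h then h x
    else 0)) A G (c := ε / 3) ?_ ?_
  · have hle : Pr S G ≤ 1 := Pr_le_one _ _
    have h5 : Pr S A ≤ Pr S (B₁ ∪ (B₂ ∪ (G ∩ A))) := by
      refine Pr_mono fun h _ hh => ?_
      by_cases h6 : h ∈ B₁
      · exact Or.inl h6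
      · by_cases h7 : h ∈ B₂
        · exact Or.inr (Or.inl h7)
        · exact Or.inr (Or.inr ⟨hgood h h6 h7, hh⟩)
    have h6 := Pr_union_le S B₁ (B₂ ∪ (G ∩ A))
    have h7 := Pr_union_le S B₂ (G ∩ A)
    have h8 : ε / 3 * Pr S G ≤ ε / 3 := by
      have := Pr_nonneg S G
      nlinarith
    linarith
  · intro a ha b hb hab
    rw [Prod.mk.injEq] at hab
    have h1 : D1 F Q a = D1 F Q b := by
      refine D1_congr hQF fun x hx => ?_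
      have h2 := congrFun hab.2 x
      have h3 : x ∈ DD F P Q b := Or.inl hx
      rw [if_pos (hab.1 ▸ h3), if_pos h3] at h2
      exact h2
    simp only [hG, mem_ofPred_eq, h1]
  · intro h hh hhG
    have e : S ∩ {b | ((DD F P Q b, fun x => if x ∈ DD F P Q b then b x else 0) : Set Pt × Hg) =
        (DD F P Q h, fun x => if x ∈ DD F P Q h then h x else 0)} =
        Cfg (F \ DD F P Q h) (exa (F \ DD F P Q h) h) := by
      have e1 := fib_exa (F := F) (η := eta M) (h := h) hh (DD F P Q h)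
      rw [← e1]
      ext g
      refine and_congr_right fun hg => ?_
      rw [mem_ofPred_eq, mem_ofPred_eq, Prod.mk.injEq]
      constructor
      · rintro ⟨h1, h2⟩ x hx
        have h3 := congrFun h2 x
        rw [if_pos (h1 ▸ hx), if_pos hx] at h3
        exact h3
      · intro h1
        have h2 := DD_congr (P := P) hQF h1
        refine ⟨h2, funext fun x => ?_⟩
        rw [h2]
        split_ifs with h3
        · exact h1 x h3
        · rfl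
    rw [e]
    have hV : F \ DD F P Q h ⊆ F \ D2 F P Q h := fun x hx => ⟨hx.1, fun hc => hx.2 (Or.inr hc)⟩
    have hQV : Q ⊆ F \ D2 F P Q h := fun x hx => ⟨hQF hx, fun hc => hc.1.2 (Or.inl hx)⟩
    have hGh : Gd x₀ ρ R (D1 F Q h) := hhG
    obtain ⟨p, hp, hpn⟩ := hF.w1
    have hb1 : Q₁ ⊆ bx x₀ (ρ - 2) := fun x hx =>
      hF.g1 x hx x (Conn.refl ⟨hF.s1 hx, fun hc => Set.disjoint_left.1 hd1 hx hc⟩)
    have hb2 : ∀ x ∈ Q₂, x ∉ bx x₀ (R + 2) := fun x hx =>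
      hF.g2 x hx x (Conn.refl ⟨hF.s2 hx, fun hc => Set.disjoint_left.1 hd2 hx hc⟩)
    have hDr : ∀ x ∈ D1 F Q h, x ∈ bx x₀ R → x ∈ bx x₀ (ρ - 1) := by
      intro x hx hxR
      rcases hGh x hx with h1 | h1
      · exact h1
      · exact absurd (hbx hxR (by omega)) h1
    have k3 := H₂ (-1) (F \ D2 F P Q h) (F \ DD F P Q h) x₀ (ρ + 1) R p h Q₁ Q₂ (by decide)
      ⟨hA.fin.subset diff_subset, cc_V hA.cc hA.dFP, hV, ⟨h, ?_⟩, ?_⟩ ?_ ?_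
      (fun hc => hF.x0 hc.1) (by omega) (by nlinarith) ⟨hQV (Or.inl hp), ?_⟩ hp
      (fun x hx => hQV (Or.inl hx)) (fun x hx => hbx (hb1 hx) (by omega))
      (fun x hx => hF.c1 p hp x hx) (fun x hx => hQV (Or.inr hx)) ?_ hF.c2
    · refine (Pr_mono fun g hg hh => ?_).trans k3
      obtain ⟨x, hx, y, hy, hxy⟩ := hh
      refine ⟨x, hx, y, hy, hxy.mono ?_⟩
      have hgh : ∀ x ∈ DD F P Q h, g x = h x := fun x hx =>
        LOC.Cfg.eq_out hg fun hc => hc.2 hx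
      have e1 : D1 F Q g = D1 F Q h := D1_congr hQF fun x hx => hgh x (Or.inl hx)
      have e2 : D2 F P Q g = D2 F P Q h := D2_congr e1 fun x hx => hgh x (Or.inr hx)
      rintro z ((⟨⟨hzF, hz1⟩, hzE⟩ | hz) | hz)
      · have hz1' : 1 ≤ g z := hz1
        refine ⟨⟨hzF, fun hc => ?_⟩, fun hc => ?_⟩
        · rw [← e2] at hc
          refine hzE ?_
          have hzS : z ∈ (F \ D1 F Q g) ∩ up g 1 := ⟨hc.1, hz1⟩
          have h4 : z ∈ Eh F P (D1 F Q g) g := by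
            rcases hc.2 with h4 | ⟨y, hy, hyz⟩ | ⟨w, hw, hwz⟩
            · exact h4
            · exact Cl_step hy hyz hzS
            · exact ⟨z, ⟨w, hw, hwz⟩, Conn.refl hzS⟩
          obtain ⟨a, ha, haz⟩ := h4
          refine ⟨a, ha, haz.mono ?_⟩
          intro u hu
          exact ⟨⟨hu.1.1, fun hc => hu.1.2 (Or.inl hc)⟩, hu.2⟩
        · have h5 : g z ≤ -1 := (Wdn_subset hc).2
          omega
      · refine ⟨hQV (Or.inl hz), fun hc => ?_⟩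
        have h5 := mem_An_iff.1 (Wdn_subset hc).1.2
        have h6 := mem_bx_iff.1 (hb1 hz)
        omega
      · refine ⟨hQV (Or.inr hz), fun hc => ?_⟩
        have h5 := mem_An_iff.1 (Wdn_subset hc).1.2
        have h6 := hb2 z hz
        rw [mem_bx_iff] at h6
        omega
    · have e1 := fib_exa (F := F) (η := eta M) (h := h) hh (DD F P Q h)
      rw [← e1]
      exact ⟨hh, fun _ _ => rfl⟩
    · intro x hx hxρ
      have h1 := Co_subset hx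
      refine ⟨h1.1.1, ?_⟩
      rintro (hc | hc)
      · have h2 := hDr x hc h1.2
        rw [mem_bx_iff] at h2
        omega
      · exact h1.1.2 hc
    · intro z hz
      have := low_ebd hA hQF hh hz
      push_cast
      omega
    · intro z hz x hx hxz hzρ
      have h1 := Co_subset hx
      refine wall_neg hA hh hz h1.1 (fun hc => ?_) hxz
      have h2 := hDr x hc h1.2
      have h3 := ds_adj (x₀ := x₀) hxz
      rw [mem_bx_iff] at h2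
      rw [abs_le] at h3
      omega
    · obtain ⟨y, hy1, hy2⟩ := hpn.2
      exact ⟨y, hy1, fun hc => hy2 hc.1⟩
    · refine Set.disjoint_left.2 fun x hx hx' => hb2 x hx (hbx (Co_subset hx').2 (by omega))

end Vale.Agent.P153.R2.SLEX
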