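import Vale.Agent.P153.R2.SLEX.BdpA

/-!
P153, block SLEX (I_end): no edge joins the two arcs at intermediate distances from `b`.
-/

set_option autoImplicit false
set_option linter.all false

namespace Vale.Agent.P153.R2.SLEX

open Filter Topology Set
open Vale.Agent.P145.PT Vale.Agent.P153 Vale.Agent.P153.F.Top Vale.Agent.P153.R2.FLDI
open Vale.Agent.P153.Topo (Conn)
open Vale.Agent.P153.R2.LOC (ds)

theorem circ_cont : Continuous Final.circ := by
  unfold Final.circ
  fun_prop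

theorem circ_two_pi : Final.circ (2 * Real.pi) = Final.circ 0 := by
  unfold Final.circ
  simp

/-- The two arcs meet only at their ends. -/
theorem circ_eq {t t' : ℝ} (ht : t ∈ Icc 0 Real.pi) (ht' : t' ∈ Icc Real.pi (2 * Real.pi))
    (h : Final.circ t = Final.circ t') : Final.circ t = Final.circ 0 ∨ Final.circ t = Final.circ Real.pi := by
  have hs : Real.sin t = Real.sin t' := congrArg Prod.snd h
  have h1 : 0 ≤ Real.sin t := Real.sin_nonneg_of_mem_Icc ht
  have h2 : Real.sin t' ≤ 0 := by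
    have := Real.sin_nonneg_of_mem_Icc (x := t' - Real.pi) ⟨by linarith [ht'.1], by linarith [ht'.2]⟩
    rw [Real.sin_sub_pi] at this
    linarith
  have h3 : Real.sin t = 0 := le_antisymm (hs ▸ h2) h1
  rcases ht.1.eq_or_lt with h4 | h4
  · left; rw [← h4]
  · rcases ht.2.eq_or_lt with h5 | h5
    · right; rw [h5]
    · exact absurd h3 (Real.sin_pos_of_pos_of_lt_pi h4 h5).ne'

/-- Neighbours are close. -/
theorem dist_adj {δ : ℝ} (hδ : 0 < δ) {v w : Pt} (h : Adj v w) :
    dist (dp δ w) (dp δ v) ≤ 2 * δ := by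
  have h1 : ds v w ≤ 1 := by
    rw [Topo.adj_iff] at h
    unfold ds
    rw [max_le_iff, abs_le, abs_le]
    omega
  have := dist_le_ds hδ h1
  push_cast at this
  linarith

variable {Φ : (ℝ × ℝ) ≃ₜ (ℝ × ℝ)} {δ : ℕ → ℝ} {N k : ℕ → ℕ}
  {p : ∀ n, ZMod (N n) → ℤ × ℤ} {S : ℕ → Finset ((ℤ × ℤ) × Bool)}

/-- A positive distance between the arcs away from their ends. -/
theorem arcs_far (Φ : (ℝ × ℝ) ≃ₜ (ℝ × ℝ)) {a b : ℝ} (ha : 0 < a)
    (hb : b < dist (Φ (Final.circ 0)) (Φ (Final.circ Real.pi))) : ∃ m : ℝ, 0 < m ∧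
      ∀ t ∈ Icc 0 Real.pi, ∀ t' ∈ Icc Real.pi (2 * Real.pi),
        a ≤ dist (Φ (Final.circ t)) (Φ (Final.circ Real.pi)) →
        dist (Φ (Final.circ t)) (Φ (Final.circ Real.pi)) ≤ b →
          m ≤ dist (Φ (Final.circ t)) (Φ (Final.circ t')) := by
  set K : Set (ℝ × ℝ) := {x | (x.1 ∈ Icc 0 Real.pi ∧ x.2 ∈ Icc Real.pi (2 * Real.pi)) ∧
    (a ≤ dist (Φ (Final.circ x.1)) (Φ (Final.circ Real.pi)) ∧
      dist (Φ (Final.circ x.1)) (Φ (Final.circ Real.pi)) ≤ b)} with hK
  have hc1 : Continuous fun x : ℝ × ℝ => dist (Φ (Final.circ x.1)) (Φ (Final.circ Real.pi)) :=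
    (Φ.continuous.comp (circ_cont.comp continuous_fst)).dist continuous_const
  have hc2 : Continuous fun x : ℝ × ℝ => dist (Φ (Final.circ x.1)) (Φ (Final.circ x.2)) :=
    (Φ.continuous.comp (circ_cont.comp continuous_fst)).dist
      (Φ.continuous.comp (circ_cont.comp continuous_snd))
  have hKc : IsCompact K := by
    have e : K = (Icc 0 Real.pi ×ˢ Icc Real.pi (2 * Real.pi)) ∩
        ({x : ℝ × ℝ | a ≤ dist (Φ (Final.circ x.1)) (Φ (Final.circ Real.pi))} ∩
          {x : ℝ × ℝ | dist (Φ (Final.circ x.1)) (Φ (Final.circ Real.pi)) ≤ b}) := by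
      ext x
      simp only [hK, mem_ofPred_eq, mem_inter_iff, mem_prod]
    rw [e]
    refine (isCompact_Icc.prod isCompact_Icc).inter_right ?_
    exact (isClosed_le continuous_const hc1).inter (isClosed_le hc1 continuous_const)
  rcases K.eq_empty_or_nonempty with hE | hne
  · refine ⟨1, one_pos, fun t ht t' ht' h1 h2 => ?_⟩
    have : (t, t') ∈ K := ⟨⟨ht, ht'⟩, h1, h2⟩
    rw [hE] at this
    exact absurd this (notMem_empty _)
  · obtain ⟨x, hx, hmin⟩ := hKc.exists_isMinOn hne hc2.continuousOn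
    refine ⟨dist (Φ (Final.circ x.1)) (Φ (Final.circ x.2)), ?_, fun t ht t' ht' h1 h2 => ?_⟩
    · rw [dist_pos]
      intro he
      have h3 := Φ.injective he
      rcases circ_eq hx.1.1 hx.1.2 h3 with h4 | h4
      · have h5 := hx.2.2
        rw [h4] at h5
        linarith
      · have h5 := hx.2.1
        rw [h4, dist_self] at h5
        linarith
    · exact isMinOn_iff.1 hmin (t, t') ⟨⟨ht, ht'⟩, h1, h2⟩

/-- **No edge joins the two arcs at intermediate distances from `b`.** -/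
theorem pm_ev (h : Final.Approx Φ δ N k p S) {a b : ℝ} (ha : 0 < a)
    (hb : b < dist (Φ (Final.circ 0)) (Φ (Final.circ Real.pi))) :
    ∀ᶠ n in atTop, ∀ i j : ZMod (N n), i.val < k n → k n ≤ j.val → Adj (p n i) (p n j) →
      (dist (dp (δ n) (p n i)) (Φ (Final.circ Real.pi)) < a ∧
        dist (dp (δ n) (p n j)) (Φ (Final.circ Real.pi)) < a) ∨
      (b ≤ dist (dp (δ n) (p n i)) (Φ (Final.circ Real.pi)) ∧
        b ≤ dist (dp (δ n) (p n j)) (Φ (Final.circ Real.pi))) := by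
  have hA := approxF h
  set z := Φ (Final.circ Real.pi) with hz
  set d₀ := dist (Φ (Final.circ 0)) z with hd₀
  obtain ⟨m, hm, hfar⟩ := arcs_far Φ (a := a / 2) (b := (b + d₀) / 2) (by positivity)
    (by linarith)
  set ε := min (a / 8) (min ((d₀ - b) / 8) (m / 8)) with hε
  have hε0 : 0 < ε := lt_min (by positivity) (lt_min (by linarith) (by positivity))
  have he1 : ε ≤ a / 8 := min_le_left _ _
  have he2 : ε ≤ (d₀ - b) / 8 := (min_le_right _ _).trans (min_le_left _ _)
  have he3 : ε ≤ m / 8 := (min_le_right _ _).trans (min_le_right _ _)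
  have hδm : ∀ᶠ n in atTop, δ n < ε / 2 := hA.lim.eventually (gt_mem_nhds (half_pos hε0))
  filter_upwards [h.2.2.1 ε hε0, hδm] with n hn hδn i j hi hj hij
  obtain ⟨s, hs, hs0, hsk, hsN, hdist⟩ := hn
  have hδ := hA.pos n
  have hNn : 2 < N n := (h.1 n).2.2.2.1.1
  have : NeZero (N n) := ⟨by omega⟩
  have hv : ∀ i : ZMod (N n), dist (dp (δ n) (p n i)) (Φ (Final.circ (s i.val))) < ε := by
    intro i
    have h1 := hdist i.val i.val_lt (s i.val) ⟨le_rfl, hs (Nat.le_succ _)⟩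
    rw [ZMod.natCast_zmod_val i, dp_pt] at h1
    exact h1
  have hti : s i.val ∈ Icc 0 Real.pi := ⟨by rw [← hs0]; exact hs (Nat.zero_le _), by
    rw [← hsk]; exact hs hi.le⟩
  have htj : s j.val ∈ Icc Real.pi (2 * Real.pi) := ⟨by rw [← hsk]; exact hs hj, by
    rw [← hsN]; exact hs j.val_lt.le⟩
  have h1 := dist_adj hδ hij
  have h2 := hv i
  have h3 := hv j
  have h4 := dist_triangle_left (Φ (Final.circ (s i.val))) z (dp (δ n) (p n i))
  have h5 := dist_triangle (dp (δ n) (p n i)) (Φ (Final.circ (s i.val))) z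
  have h6 := dist_triangle4 (Φ (Final.circ (s i.val))) (dp (δ n) (p n i)) (dp (δ n) (p n j))
    (Φ (Final.circ (s j.val)))
  rw [dist_comm (Φ (Final.circ (s i.val))) (dp (δ n) (p n i)),
    dist_comm (dp (δ n) (p n i)) (dp (δ n) (p n j))] at h6
  have h7 := dist_triangle (dp (δ n) (p n j)) (dp (δ n) (p n i)) z
  have h8 := dist_triangle_left (dp (δ n) (p n i)) z (dp (δ n) (p n j))
  by_cases c1 : dist (Φ (Final.circ (s i.val))) z < a / 2
  · left
    constructor <;> linarith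
  · by_cases c2 : dist (Φ (Final.circ (s i.val))) z ≤ (b + d₀) / 2
    · have h9 := hfar _ hti _ htj (not_lt.1 c1) c2
      linarith
    · right
      push Not at c2
      constructor <;> linarith

/-- The positions of the ends. -/
theorem ends_ev (h : Final.Approx Φ δ N k p S) {a b : ℝ} (ha : 0 < a)
    (hb : b < dist (Φ (Final.circ 0)) (Φ (Final.circ Real.pi))) :
    ∀ᶠ n in atTop, b ≤ dist (dp (δ n) (p n 0)) (Φ (Final.circ Real.pi)) ∧
      b ≤ dist (dp (δ n) (p n (-1))) (Φ (Final.circ Real.pi)) ∧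
      dist (dp (δ n) (p n ((k n : ZMod (N n)) - 1))) (Φ (Final.circ Real.pi)) < a ∧
      dist (dp (δ n) (p n (k n))) (Φ (Final.circ Real.pi)) < a := by
  set z := Φ (Final.circ Real.pi) with hz
  set d₀ := dist (Φ (Final.circ 0)) z with hd₀
  set ε := min a (d₀ - b) with hε
  have hε0 : 0 < ε := lt_min ha (by linarith)
  have he1 : ε ≤ a := min_le_left _ _
  have he2 : ε ≤ d₀ - b := min_le_right _ _
  filter_upwards [h.2.2.1 ε hε0] with n hn
  obtain ⟨s, hs, hs0, hsk, hsN, hdist⟩ := hn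
  have hNn : 2 < N n := (h.1 n).2.2.2.1.1
  have hkn : k n < N n := (h.1 n).2.2.1
  have hk0 : 0 < k n := (h.1 n).2.1
  have : NeZero (N n) := ⟨by omega⟩
  have e0 := hdist 0 (by omega) 0 ⟨hs0.le, by rw [← hs0]; exact hs (Nat.zero_le _)⟩
  have e1 := hdist (N n - 1) (by omega) (2 * Real.pi) ⟨by rw [← hsN]; exact hs (by omega), by
    rw [Nat.sub_add_cancel (by omega), hsN]⟩
  have e2 := hdist (k n - 1) (by omega) Real.pi ⟨by rw [← hsk]; exact hs (by omega), by
    rw [Nat.sub_add_cancel (by omega), hsk]⟩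
  have e3 := hdist (k n) hkn Real.pi ⟨hsk.le, by rw [← hsk]; exact hs (Nat.le_succ _)⟩
  rw [dp_pt] at e0 e1 e2 e3
  rw [circ_two_pi] at e1
  have c1 : ((N n - 1 : ℕ) : ZMod (N n)) = -1 := by
    rw [Nat.cast_sub (by omega)]
    simp
  have c2 : ((k n - 1 : ℕ) : ZMod (N n)) = (k n : ZMod (N n)) - 1 := by
    rw [Nat.cast_sub (by omega)]
    simp
  rw [c1] at e1
  rw [c2] at e2
  rw [Nat.cast_zero] at e0
  have f0 := dist_triangle_left (Φ (Final.circ 0)) z (dp (δ n) (p n 0))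
  have f1 := dist_triangle_left (Φ (Final.circ 0)) z (dp (δ n) (p n (-1)))
  refine ⟨by linarith, by linarith, e2.trans_le he1, e3.trans_le he1⟩

end Vale.Agent.P153.R2.SLEX
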