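import Vale.Agent.P153.R2.PLAN.Par
import Vale.Agent.P153.R2.INTF.Step

/-!
P153, block SLEX: parity lemma for the interface.

`K` is connected and touched by the faces `fa ρ_{m₁}` and `fa ρ_{m₃}`. If `i ≤ m₁ < j ≤ m₃`, the left
ends of the states `i`, `j` are joined by positive heights off `K` and the right ends by negative
heights off `K`, we get a contradiction.
-/

set_option autoImplicit false

namespace Vale.Agent.P153.R2.SLEX

open Vale.Agent.P153 Vale.Agent.P153.Topo Relation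
open Vale.Agent.P153.R2.PLAN
open Vale.Agent.P153.R2.INTF (St run fa fb ah Good Alive NZ st_cases run_good fb_run run_inj)

theorem mem_cor_fa {s : St} (h : Adj s.1 s.2) {v : ℤ × ℤ} (hv : v = s.1 ∨ v = s.2 ∨ v = ah s) :
    v ∈ cor (fa s) := by
  have h1 := (INTF.corners_fa h v).2 hv
  rcases hs : fa s with ⟨⟨i, j⟩, b⟩
  rw [hs] at h1
  cases b
  · simp only [F.Dom.corners] at h1
    rw [cor_false]
    simpa using h1
  · simp only [F.Dom.corners] at h1
    rw [cor_true]
    simpa using h1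

/-- The two faces of an edge. -/
theorem tsum_edge {s : St} (h : Adj s.1 s.2) (r : PLAN.Tri) :
    PLAN.tsum (ec s(s.1, s.2)) r = tind (fb s) r + tind (fa s) r := by
  have key : ∀ a b : ℤ × ℤ, ∀ s' t' : PLAN.Tri, (∀ r, PLAN.tsum (ec s(a, b)) r = tind s' r + tind t' r) →
      ∀ r, PLAN.tsum (ec s(b, a)) r = tind t' r + tind s' r := by
    intro a b s' t' h1 r
    rw [Sym2.eq_swap, h1, add_comm]
  have hhor : ∀ i j : ℤ, ∀ r, PLAN.tsum (ec s((i, j), (i + 1, j))) r =
      tind ((i, j), false) r + tind ((i, j - 1), true) r := by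
    intro i j r
    obtain ⟨⟨a, b⟩, c⟩ := r
    cases c
    · rw [tind_val, tind_zero (by decide), add_zero]
      simp only [PLAN.tsum]
      rw [ec_val (P := a = i ∧ b = j) (by simp only [Prod.mk.injEq]; omega),
        ec_zero (by simp only [Prod.mk.injEq]; omega), ec_zero (by simp only [Prod.mk.injEq]; omega),
        add_zero, add_zero]
    · rw [tind_val, tind_zero (by decide), zero_add]
      simp only [PLAN.tsum]
      rw [ec_val (x := (a, b + 1)) (P := a = i ∧ b = j - 1) (by simp only [Prod.mk.injEq]; omega),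
        ec_zero (by simp only [Prod.mk.injEq]; omega), ec_zero (by simp only [Prod.mk.injEq]; omega),
        zero_add, zero_add]
  have hver : ∀ i j : ℤ, ∀ r, PLAN.tsum (ec s((i, j), (i, j + 1))) r =
      tind ((i, j), false) r + tind ((i - 1, j), true) r := by
    intro i j r
    obtain ⟨⟨a, b⟩, c⟩ := r
    cases c
    · rw [tind_val, tind_zero (by decide), add_zero]
      simp only [PLAN.tsum]
      rw [ec_val (x := (a, b)) (y := (a, b + 1)) (P := a = i ∧ b = j)
          (by simp only [Prod.mk.injEq]; omega),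
        ec_zero (by simp only [Prod.mk.injEq]; omega), ec_zero (by simp only [Prod.mk.injEq]; omega),
        zero_add, add_zero]
    · rw [tind_val, tind_zero (by decide), zero_add]
      simp only [PLAN.tsum]
      rw [ec_val (x := (a + 1, b)) (y := (a + 1, b + 1)) (P := a = i - 1 ∧ b = j)
          (by simp only [Prod.mk.injEq]; omega),
        ec_zero (by simp only [Prod.mk.injEq]; omega), ec_zero (by simp only [Prod.mk.injEq]; omega),
        zero_add, add_zero]
  have hdia : ∀ i j : ℤ, ∀ r, PLAN.tsum (ec s((i + 1, j), (i, j + 1))) r =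
      tind ((i, j), false) r + tind ((i, j), true) r := by
    intro i j r
    obtain ⟨⟨a, b⟩, c⟩ := r
    cases c
    · rw [tind_val, tind_zero (by decide), add_zero]
      simp only [PLAN.tsum]
      rw [ec_val (x := (a + 1, b)) (P := a = i ∧ b = j)
          (by simp only [Prod.mk.injEq]; omega),
        ec_zero (by simp only [Prod.mk.injEq]; omega), ec_zero (by simp only [Prod.mk.injEq]; omega),
        zero_add, zero_add]
    · rw [tind_val, tind_zero (by decide), zero_add]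
      simp only [PLAN.tsum]
      rw [ec_val (x := (a + 1, b)) (P := a = i ∧ b = j)
          (by simp only [Prod.mk.injEq]; omega),
        ec_zero (by simp only [Prod.mk.injEq]; omega), ec_zero (by simp only [Prod.mk.injEq]; omega),
        add_zero, add_zero]
  obtain ⟨a, b, h1⟩ := st_cases h
  rcases h1 with h1 | h1 | h1 | h1 | h1 | h1 <;> subst h1
  · have e1 : fa (((a + 1, b), (a, b)) : St) = ((a, b - 1), true) := by simp [fa]
    have e2 : fb (((a + 1, b), (a, b)) : St) = ((a, b), false) := by simp [fb, fa]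
    rw [e1, e2, Sym2.eq_swap]
    exact hhor a b r
  · have e1 : fa (((a, b + 1), (a, b)) : St) = ((a, b), false) := by simp [fa]
    have e2 : fb (((a, b + 1), (a, b)) : St) = ((a - 1, b), true) := by simp [fb, fa]
    rw [e1, e2, Sym2.eq_swap, add_comm (tind _ r)]
    exact hver a b r
  · have e1 : fa (((a - 1, b + 1), (a, b)) : St) = ((a - 1, b), true) := by simp [fa]
    have e2 : fb (((a - 1, b + 1), (a, b)) : St) = ((a - 1, b), false) := by simp [fb, fa]
    have := hdia (a - 1) b r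
    rw [sub_add_cancel] at this
    rw [e1, e2, Sym2.eq_swap]
    exact this
  · have e1 : fa (((a - 1, b), (a, b)) : St) = ((a - 1, b), false) := by simp [fa]
    have e2 : fb (((a - 1, b), (a, b)) : St) = ((a - 1, b - 1), true) := by simp [fb, fa]
    have := hhor (a - 1) b r
    rw [sub_add_cancel] at this
    rw [e1, e2, add_comm (tind _ r)]
    exact this
  · have e1 : fa (((a, b - 1), (a, b)) : St) = ((a - 1, b - 1), true) := by simp [fa]
    have e2 : fb (((a, b - 1), (a, b)) : St) = ((a, b - 1), false) := by simp [fb, fa]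
    have := hver a (b - 1) r
    rw [sub_add_cancel] at this
    rw [e1, e2]
    exact this
  · have e1 : fa (((a + 1, b - 1), (a, b)) : St) = ((a, b - 1), false) := by simp [fa]
    have e2 : fb (((a + 1, b - 1), (a, b)) : St) = ((a, b - 1), true) := by simp [fb, fa]
    have := hdia a (b - 1) r
    rw [sub_add_cancel] at this
    rw [e1, e2, add_comm (tind _ r)]
    exact this

/-- The cochain of the steps `m₁ + 1, …, m₃`. -/
noncomputable def rc (ρ : ℕ → St) (m₁ m₃ : ℕ) (x y : ℤ × ℤ) : ZMod 2 :=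
  ∑ m ∈ Finset.Ioc m₁ m₃, ec s((ρ m).1, (ρ m).2) x y

theorem rc_symm (ρ : ℕ → St) (m₁ m₃ : ℕ) (x y : ℤ × ℤ) : rc ρ m₁ m₃ x y = rc ρ m₁ m₃ y x := by
  unfold rc
  refine Finset.sum_congr rfl fun m _ => ?_
  unfold ec
  rw [Sym2.eq_swap]

theorem tsum_rc {ρ : ℕ → St} (h : ∀ m, Adj (ρ m).1 (ρ m).2) {m₁ m₃ : ℕ} (hm : m₁ ≤ m₃)
    (hf : ∀ m, m₁ ≤ m → m < m₃ → fb (ρ (m + 1)) = fa (ρ m)) (r : PLAN.Tri) :
    PLAN.tsum (rc ρ m₁ m₃) r = tind (fa (ρ m₁)) r + tind (fa (ρ m₃)) r := by
  induction m₃, hm using Nat.le_induction with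
  | base =>
    rw [z2]
    obtain ⟨⟨i, j⟩, b⟩ := r
    cases b <;> simp [PLAN.tsum, rc]
  | succ m hm ih =>
    have e : rc ρ m₁ (m + 1) = fun x y => rc ρ m₁ m x y + ec s((ρ (m + 1)).1, (ρ (m + 1)).2) x y := by
      funext x y
      unfold rc
      rw [Finset.sum_Ioc_succ_top hm]
    rw [e, tsum_add, ih fun k hk hk' => hf k hk (by omega), tsum_edge (h _),
      hf m hm (Nat.lt_succ_self m)]
    have := z2 (tind (fa (ρ m)) r)
    linear_combination this

/-- **Parity lemma.** -/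
theorem parity {ρ : ℕ → St} {h : ℤ × ℤ → ℤ} (hg : ∀ m, Good h (ρ m)) {i j m₁ m₃ : ℕ} (hi : i ≤ m₁)
    (hj : m₁ < j) (hj3 : j ≤ m₃) (hf : ∀ m, m < m₃ → fb (ρ (m + 1)) = fa (ρ m))
    (hinj : ∀ m ≤ m₃, ∀ m' ≤ m₃, ρ m = ρ m' → m = m') {K A B : Set (ℤ × ℤ)} {a b : ℤ × ℤ}
    (hK : Conn K a b) (ha : a ∈ cor (fa (ρ m₁))) (hb : b ∈ cor (fa (ρ m₃)))
    (hA : Conn A (ρ i).1 (ρ j).1) (hAp : ∀ v ∈ A, 0 < h v ∧ v ∉ K)
    (hB : Conn B (ρ i).2 (ρ j).2) (hBp : ∀ v ∈ B, h v < 0 ∧ v ∉ K) : False := by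
  obtain ⟨d, d1, d2, d3⟩ := hug_of_conn hK ha hb
  set c := rc ρ m₁ m₃ with hc
  set e : ℤ × ℤ → ℤ × ℤ → ZMod 2 := fun x y => c x y + d x y with he
  have het : ∀ r, PLAN.tsum e r = 0 := by
    intro r
    rw [he, tsum_add, hc, tsum_rc (fun m => (hg m).1) (by omega) (fun m _ hm => hf m hm), d2]
    exact z2 _
  obtain ⟨U, hU⟩ := exists_cob e (fun x y => by
      show c x y + d x y = c y x + d y x
      rw [hc, rc_symm, d1]) (fun i j => het ((i, j), false)) (fun i j => het ((i, j), true))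
  have hc0 : ∀ x y, (0 < h x ∧ 0 < h y) ∨ (h x < 0 ∧ h y < 0) → c x y = 0 := by
    intro x y hxy
    refine Finset.sum_eq_zero fun m _ => ?_
    refine ec_zero ?_
    obtain ⟨-, h1, h2⟩ := hg m
    rintro (⟨rfl, rfl⟩ | ⟨rfl, rfl⟩) <;> omega
  have hcA : ∀ A : Set (ℤ × ℤ), (∀ u ∈ A, ∀ v ∈ A, c u v = 0) → (∀ v ∈ A, v ∉ K) → ∀ x y,
      Conn A x y → U x = U y := by
    intro A h1 h2 x y hxy
    refine Conn.ind (S := A) (fun v => U x = U v) rfl ?_ hxy
    intro u v hu huv hv ih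
    have h3 := hU u v huv
    have h4 : e u v = 0 := by
      show c u v + d u v = 0
      rw [h1 u hu.right_mem v hv, d3 u v (h2 u hu.right_mem) (h2 v hv), add_zero]
    rw [h4] at h3
    have h5 := z2 (U v)
    rw [ih]
    linear_combination -h3 - h5
  have hUA := hcA A (fun u hu v hv => hc0 u v (Or.inl ⟨(hAp u hu).1, (hAp v hv).1⟩))
    (fun v hv => (hAp v hv).2) _ _ hA
  have hUB := hcA B (fun u hu v hv => hc0 u v (Or.inr ⟨(hBp u hu).1, (hBp v hv).1⟩))
    (fun v hv => (hBp v hv).2) _ _ hB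
  have hedge : ∀ m m' : ℕ, ec s((ρ m).1, (ρ m).2) (ρ m').1 (ρ m').2 = if ρ m = ρ m' then 1 else 0 := by
    intro m m'
    refine ec_val ?_
    obtain ⟨-, h1, h2⟩ := hg m
    obtain ⟨-, h3, h4⟩ := hg m'
    constructor
    · rintro (⟨h5, h6⟩ | ⟨h5, h6⟩)
      · exact Prod.ext h5.symm h6.symm
      · rw [h5] at h3; omega
    · intro h5
      rw [h5]
      exact Or.inl ⟨rfl, rfl⟩
  have cj : c (ρ j).1 (ρ j).2 = 1 := by
    rw [hc, rc, Finset.sum_eq_single j]
    · rw [hedge, if_pos rfl]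
    · intro m hm hmj
      rw [Finset.mem_Ioc] at hm
      rw [hedge, if_neg fun h5 => hmj (hinj m hm.2 j hj3 h5)]
    · intro h5
      exact absurd (Finset.mem_Ioc.2 ⟨hj, hj3⟩) h5
  have ci : c (ρ i).1 (ρ i).2 = 0 := by
    rw [hc, rc]
    refine Finset.sum_eq_zero fun m hm => ?_
    rw [Finset.mem_Ioc] at hm
    rw [hedge, if_neg fun h5 => ?_]
    have := hinj m hm.2 i (by omega) h5
    omega
  have h1 := hU _ _ (hg i).1
  have h2 := hU _ _ (hg j).1
  have h3 : e (ρ i).1 (ρ i).2 = 0 := by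
    show c _ _ + d _ _ = 0
    rw [ci, d3 _ _ (hAp _ hA.left_mem).2 (hBp _ hB.left_mem).2, add_zero]
  have h4 : e (ρ j).1 (ρ j).2 = 1 := by
    show c _ _ + d _ _ = 1
    rw [cj, d3 _ _ (hAp _ hA.right_mem).2 (hBp _ hB.right_mem).2, add_zero]
  rw [h3, hUA, hUB] at h1
  rw [h4] at h2
  rw [← h1] at h2
  exact one_ne_zero h2

/-- The parity lemma for the run. -/
theorem parity_run {h : ℤ × ℤ → ℤ} {S : Finset INTF.Tri} {s : St} {k : ℕ} (hz : NZ h S)
    (hs : Good h s) (hb : fb s ∉ S) (hk : Alive h S s k) {i j m₁ m₃ : ℕ} (hi : i ≤ m₁)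
    (hj : m₁ < j) (hj3 : j ≤ m₃) (h3k : m₃ ≤ k) {K A B : Set (ℤ × ℤ)} {a b : ℤ × ℤ}
    (hK : Conn K a b) (ha : a = (run h S s m₁).1 ∨ a = (run h S s m₁).2)
    (hb' : b = (run h S s m₃).1 ∨ b = (run h S s m₃).2)
    (hA : Conn A (run h S s i).1 (run h S s j).1) (hAp : ∀ v ∈ A, 0 < h v ∧ v ∉ K)
    (hB : Conn B (run h S s i).2 (run h S s j).2) (hBp : ∀ v ∈ B, h v < 0 ∧ v ∉ K) : False :=
  parity (ρ := run h S s) (fun m => run_good hz hs m) hi hj hj3
    (fun m hm => fb_run hz hs (hk.mono (by omega)))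
    (fun m hm m' hm' he => run_inj hz hs hb hk (by omega) (by omega) he) hK
    (mem_cor_fa (run_good hz hs _).1 (by tauto)) (mem_cor_fa (run_good hz hs _).1 (by tauto))
    hA hAp hB hBp

end Vale.Agent.P153.R2.SLEX
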