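import Vale.Agent.P153.R2.SLEX.EndP
import Vale.Agent.P153.R2.SLEX.Par

/-!
P153, block SLEX (I_end): a run which touches `Q₂`, then `Q₁`, then `Q₂` again has a crossing which
is not attached to the positive or to the negative wall.
-/

set_option autoImplicit false

namespace Vale.Agent.P153.R2.SLEX

open Set
open Vale.Agent.P153 Vale.Agent.P153.R2
open Vale.Agent.P153.Topo (Conn adj_symm)
open Vale.Agent.P153.R2.INTF (CA mem_CA CA_finite eta eta_mem eta_not eta_or Arcs St run fa fb Good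
  Alive NZ run_good)
open Vale.Agent.P153.R2.OBSV (sw sw_mem sw_bij)

variable {F P M Q Q₁ Q₂ : Set Pt} {g h : Hg} {x y z : Pt}

/-- The event of `end_plus`. -/
def Ev (F P Q₁ Q₂ : Set Pt) : Set Hg :=
  {h | ∃ x ∈ Q₁, ∃ y ∈ Q₂, Conn ((F ∩ up h 1) \ Eh F P (Q₁ ∪ Q₂) h ∪ Q₁ ∪ Q₂) x y}

/-- Attached to `P`. -/
def AtP (F P Q : Set Pt) (g : Hg) (x : Pt) : Prop := x ∈ P ∨ x ∈ Eh F P Q g

theorem AtP_step (hx : AtP F P Q g x) (hxy : Adj x y) (hy : (y ∈ F ∧ y ∉ Q) ∨ y ∈ P)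
    (hy1 : 1 ≤ g y) : AtP F P Q g y := by
  rcases hy with hy | hy
  · rcases hx with hx | hx
    · exact Or.inr ⟨y, ⟨x, hx, hxy⟩, Conn.refl ⟨hy, hy1⟩⟩
    · exact Or.inr (Cl_step hx hxy ⟨hy, hy1⟩)
  · exact Or.inl hy

/-- Two consecutive states, seen from the side `a`. -/
def Stp (a b a' b' : Pt) : Prop := (b' = b ∧ Adj a a') ∨ (a' = a ∧ Adj b b')

/-- **One side of a crossing.** -/
theorem side {a b : ℕ → Pt} {c d : ℕ} (hcd : c + 1 < d)
    (hmem : ∀ j, c < j → j < d → a j ∈ F ∨ a j ∈ P) (hval : ∀ j, c < j → j < d → 1 ≤ g (a j))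
    (hstep : ∀ j, c ≤ j → j < d → Stp (a j) (b j) (a (j + 1)) (b (j + 1)))
    (hadj : ∀ j, Adj (a j) (b j))
    (hnt : ∀ j, c < j → j < d → a j ∉ Q₁ ∪ Q₂ ∧ b j ∉ Q₁ ∪ Q₂)
    (hc : a c ∈ Q₂ ∨ b c ∈ Q₂) (hd : a d ∈ Q₁ ∨ b d ∈ Q₁) :
    (∀ j, c < j → j < d → AtP F P (Q₁ ∪ Q₂) g (a j)) ∨ g ∈ Ev F P Q₁ Q₂ := by
  have hm : ∀ j, c < j → j < d → (a j ∈ F ∧ a j ∉ Q₁ ∪ Q₂) ∨ a j ∈ P := by
    intro j h1 h2
    rcases hmem j h1 h2 with h3 | h3
    · exact Or.inl ⟨h3, (hnt j h1 h2).1⟩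
    · exact Or.inr h3
  by_cases hat : ∃ j, c < j ∧ j < d ∧ AtP F P (Q₁ ∪ Q₂) g (a j)
  · left
    obtain ⟨j₀, h1, h2, h3⟩ := hat
    have up' : ∀ m, j₀ + m < d → AtP F P (Q₁ ∪ Q₂) g (a (j₀ + m)) := by
      intro m
      induction m with
      | zero => intro _; exact h3
      | succ m ih =>
        intro hm'
        have ih' := ih (by omega)
        rcases hstep (j₀ + m) (by omega) (by omega) with ⟨-, h5⟩ | ⟨h5, -⟩
        · exact AtP_step ih' h5 (hm _ (by omega) hm') (hval _ (by omega) hm')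
        · rw [← add_assoc, h5]
          exact ih'
    have down : ∀ m, c < j₀ - m → AtP F P (Q₁ ∪ Q₂) g (a (j₀ - m)) := by
      intro m
      induction m with
      | zero => intro _; exact h3
      | succ m ih =>
        intro hm'
        have ih' := ih (by omega)
        have e : j₀ - m = j₀ - (m + 1) + 1 := by omega
        rw [e] at ih'
        rcases hstep (j₀ - (m + 1)) (by omega) (by omega) with ⟨-, h5⟩ | ⟨h5, -⟩
        · exact AtP_step ih' (adj_symm h5) (hm _ hm' (by omega)) (hval _ hm' (by omega))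
        · rw [h5] at ih'
          exact ih'
    intro j h4 h5
    rcases le_total j₀ j with h6 | h6
    · have := up' (j - j₀) (by omega)
      rwa [show j₀ + (j - j₀) = j by omega] at this
    · have := down (j₀ - j) (by omega)
      rwa [show j₀ - (j₀ - j) = j by omega] at this
  · right
    push Not at hat
    set S' : Set Pt := (F ∩ up g 1) \ Eh F P (Q₁ ∪ Q₂) g ∪ Q₁ ∪ Q₂ with hS'
    have hin : ∀ j, c < j → j < d → a j ∈ S' := by
      intro j h1 h2
      have h3 := hat j h1 h2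
      refine Or.inl (Or.inl ⟨⟨?_, hval j h1 h2⟩, fun h4 => h3 (Or.inr h4)⟩)
      rcases hmem j h1 h2 with h4 | h4
      · exact h4
      · exact absurd (Or.inl h4) h3
    have hpath : ∀ m, c + 1 + m < d → Conn S' (a (c + 1)) (a (c + 1 + m)) := by
      intro m
      induction m with
      | zero => intro hm'; exact Conn.refl (hin _ (by omega) hm')
      | succ m ih =>
        intro hm'
        have ih' := ih (by omega)
        rcases hstep (c + 1 + m) (by omega) (by omega) with ⟨-, h5⟩ | ⟨h5, -⟩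
        · exact ih'.tail h5 (hin _ (by omega) hm')
        · rw [← add_assoc, h5]
          exact ih'
    obtain ⟨y, hy, hyc⟩ : ∃ y ∈ Q₂, Adj y (a (c + 1)) := by
      obtain ⟨n1, n2⟩ := hnt (c + 1) (by omega) hcd
      rcases hstep c le_rfl (by omega) with ⟨h5, h6⟩ | ⟨h5, h6⟩
      · rcases hc with h7 | h7
        · exact ⟨_, h7, h6⟩
        · rw [h5] at n2
          exact absurd (Or.inr h7) n2
      · rcases hc with h7 | h7
        · rw [h5] at n1
          exact absurd (Or.inr h7) n1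
        · refine ⟨_, h7, ?_⟩
          rw [h5]
          exact adj_symm (hadj c)
    obtain ⟨e, he⟩ : ∃ e, d = e + 1 := ⟨d - 1, by omega⟩
    obtain ⟨x, hx, hxd⟩ : ∃ x ∈ Q₁, Adj (a e) x := by
      obtain ⟨n1, n2⟩ := hnt e (by omega) (by omega)
      rcases hstep e (by omega) (by omega) with ⟨h5, h6⟩ | ⟨h5, h6⟩
      · rcases hd with h7 | h7
        · rw [he] at h7
          exact ⟨_, h7, h6⟩
        · rw [he, h5] at h7
          exact absurd (Or.inl h7) n2
      · rcases hd with h7 | h7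
        · rw [he, h5] at h7
          exact absurd (Or.inl h7) n1
        · rw [he] at h7
          refine ⟨_, h7, ?_⟩
          rw [← h5]
          exact hadj _
    have h8 := hpath (e - (c + 1)) (by omega)
    rw [show c + 1 + (e - (c + 1)) = e by omega] at h8
    refine ⟨x, hx, y, hy, ?_⟩
    have hxS : x ∈ S' := Or.inl (Or.inr hx)
    have hyS : y ∈ S' := Or.inr hy
    exact ((Conn.of_adj hyS h8.left_mem hyc).trans (h8.tail hxd hxS)).symm

/-- The attached set is connected. -/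
theorem AtP_conn (hP : Cn P) (hx : x ∈ P) (hy : AtP F P Q g y) :
    Conn {v | AtP F P Q g v} x y := by
  have h0 : P ⊆ {v | AtP F P Q g v} := fun v hv => Or.inl hv
  rcases hy with hy | ⟨a, ⟨z, hz, hza⟩, hay⟩
  · exact (hP x hx y hy).mono h0
  · have h1 : Conn {v | AtP F P Q g v} x z := (hP x hx z hz).mono h0
    have hE : ∀ u, Conn ((F \ Q) ∩ up g 1) a u → AtP F P Q g u := fun u hu =>
      Or.inr ⟨a, ⟨z, hz, hza⟩, hu⟩
    refine h1.trans ?_
    refine Conn.ind (S := (F \ Q) ∩ up g 1) (fun u => Conn {v | AtP F P Q g v} z u)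
      (Conn.of_adj (h0 hz) (hE a (Conn.refl hay.left_mem)) hza) ?_ hay
    intro u v hu huv hv ih
    exact ih.tail huv (hE v (hu.tail huv hv))

theorem nx_stp (h : Hg) {s : St} (hs : Good h s) :
    Stp s.1 s.2 (INTF.nx h s).1 (INTF.nx h s).2 := by
  unfold INTF.nx
  split
  · exact Or.inl ⟨rfl, INTF.ah_adj1 hs.1⟩
  · exact Or.inr ⟨rfl, adj_symm (INTF.ah_adj2 hs.1)⟩

/-- Between a touch of `Q₂` and a later touch of `Q₁` there is a crossing. -/
theorem exists_crossing {T₁ T₂ : ℕ → Prop} {u w : ℕ} (huw : u < w) (hu : T₂ u) (hw : T₁ w)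
    (h12 : ∀ j, ¬ (T₁ j ∧ T₂ j)) :
    ∃ c d, u ≤ c ∧ c < d ∧ d ≤ w ∧ T₂ c ∧ T₁ d ∧ ∀ j, c < j → j < d → ¬ T₁ j ∧ ¬ T₂ j := by
  classical
  have hex : ∃ d, u ≤ d ∧ T₁ d := ⟨w, huw.le, hw⟩
  obtain ⟨h1, h2⟩ := Nat.find_spec hex
  set d := Nat.find hex with hd
  have h3 : ∀ j, u ≤ j → j < d → ¬ T₁ j := fun j hj hjd hT => Nat.find_min hex hjd ⟨hj, hT⟩
  have h4 : d ≤ w := Nat.find_le ⟨huw.le, hw⟩
  have h5 : u < d := by
    rcases eq_or_lt_of_le h1 with h6 | h6
    · rw [← h6] at h2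
      exact absurd ⟨h2, hu⟩ (h12 u)
    · exact h6
  -- the last touch of `Q₂`
  have hex2 : ∃ m, m ≤ d - 1 - u ∧ T₂ (d - 1 - m) := ⟨d - 1 - u, le_rfl, by
    rwa [show d - 1 - (d - 1 - u) = u by omega]⟩
  obtain ⟨h6, h7⟩ := Nat.find_spec hex2
  set m := Nat.find hex2 with hm
  refine ⟨d - 1 - m, d, by omega, by omega, h4, h7, h2, fun j hj1 hj2 => ⟨h3 j (by omega) hj2, ?_⟩⟩
  intro hT
  refine Nat.find_min hex2 (m := d - 1 - j) (by omega) ⟨by omega, ?_⟩
  rwa [show d - 1 - (d - 1 - j) = j by omega]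

/-- The state touches the set. -/
def TchE (Q : Set Pt) (s : St) : Prop := s.1 ∈ Q ∨ s.2 ∈ Q

/-- **Run implies event.** -/
theorem run_ev (hA : Arcs F P M) (hh : h ∈ CA F M) {S : Finset INTF.Tri} {s : St} {k : ℕ}
    (hs : Good h s) (hs1 : s.1 ∈ P) (hs2 : s.2 ∈ M) (hb : fb s ∉ S) (hk : Alive h S s k)
    (hmem : ∀ j ≤ k, ((run h S s j).1 ∈ F ∨ (run h S s j).1 ∈ P) ∧
      ((run h S s j).2 ∈ F ∨ (run h S s j).2 ∈ M))
    (h2F : Q₂ ⊆ F) (h2c : Cn Q₂)
    (hsep : ∀ x ∈ Q₁, ∀ y ∈ Q₂, x ≠ y ∧ ¬ Adj x y) {u w v : ℕ} (huw : u < w) (hwv : w ≤ v)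
    (hvk : v ≤ k) (hu : TchE Q₂ (run h S s u)) (hw : TchE Q₁ (run h S s w))
    (hv : TchE Q₂ (run h S s v)) : h ∈ Ev F P Q₁ Q₂ ∨ sw F P h ∈ Ev F M Q₁ Q₂ := by
  have hz : NZ h S := INTF.CA.nz hh
  have hg : ∀ j, Good h (run h S s j) := fun j => run_good hz hs j
  have hval : ∀ j, h (run h S s j).1 = 1 ∧ h (run h S s j).2 = -1 := fun j =>
    INTF.CA.good_val hh (hg j)
  have hstep : ∀ j, j < k → Stp (run h S s j).1 (run h S s j).2 (run h S s (j + 1)).1
      (run h S s (j + 1)).2 := by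
    intro j hj
    rw [INTF.run_succ (hk j hj)]
    exact nx_stp h (hg j)
  have hstp_symm : ∀ a b a' b' : Pt, Stp a b a' b' → Stp b a b' a' := by
    intro a b a' b' h1
    exact h1.symm
  have h12 : ∀ j, ¬ (TchE Q₁ (run h S s j) ∧ TchE Q₂ (run h S s j)) := by
    rintro j ⟨h1 | h1, h2 | h2⟩
    · exact (hsep _ h1 _ h2).1 rfl
    · exact (hsep _ h1 _ h2).2 (hg j).1
    · exact (hsep _ h1 _ h2).2 (adj_symm (hg j).1)
    · exact (hsep _ h1 _ h2).1 rfl
  obtain ⟨c, d, huc, hcd, hdw, hTc, hTd, hno⟩ := exists_crossing (T₁ := fun j => TchE Q₁ (run h S s j))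
    (T₂ := fun j => TchE Q₂ (run h S s j)) huw hu hw h12
  have hcd' : c + 1 < d := by
    by_contra hcon
    have e : d = c + 1 := by omega
    subst e
    have h5 := hstep c (by omega)
    have h6 := (hg c).1
    have h7 := (hg (c + 1)).1
    have hTc' : TchE Q₂ (run h S s c) := hTc
    have hTd' : TchE Q₁ (run h S s (c + 1)) := hTd
    rcases h5 with ⟨e1, e2⟩ | ⟨e1, e2⟩
    · rcases hTc' with h8 | h8 <;> rcases hTd' with h9 | h9
      · exact (hsep _ h9 _ h8).2 (adj_symm e2)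
      · rw [e1] at h9
        exact (hsep _ h9 _ h8).2 (adj_symm h6)
      · rw [e1] at h7
        exact (hsep _ h9 _ h8).2 h7
      · rw [e1] at h9
        exact (hsep _ h9 _ h8).1 rfl
    · rcases hTc' with h8 | h8 <;> rcases hTd' with h9 | h9
      · rw [e1] at h9
        exact (hsep _ h9 _ h8).1 rfl
      · rw [e1] at h7
        exact (hsep _ h9 _ h8).2 (adj_symm h7)
      · rw [e1] at h9
        exact (hsep _ h9 _ h8).2 h6
      · exact (hsep _ h9 _ h8).2 (adj_symm e2)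
  have hnt1 : ∀ j, c < j → j < d → (run h S s j).1 ∉ Q₁ ∪ Q₂ ∧ (run h S s j).2 ∉ Q₁ ∪ Q₂ := by
    intro j h1 h2
    obtain ⟨h3, h4⟩ := hno j h1 h2
    constructor
    · rintro (h5 | h5)
      · exact h3 (Or.inl h5)
      · exact h4 (Or.inl h5)
    · rintro (h5 | h5)
      · exact h3 (Or.inr h5)
      · exact h4 (Or.inr h5)
  -- the left side
  rcases side (F := F) (P := P) (Q₁ := Q₁) (Q₂ := Q₂) (g := h) (a := fun j => (run h S s j).1)
      (b := fun j => (run h S s j).2) hcd' (fun j _ h2 => (hmem j (by omega)).1)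
      (fun j _ _ => (hval j).1.ge) (fun j _ h2 => hstep j (by omega)) (fun j => (hg j).1)
      hnt1 hTc hTd with hL | hL
  swap
  · exact Or.inl hL
  -- the right side
  have hsw : ∀ j, j ≤ k → 1 ≤ sw F P h (run h S s j).2 := by
    intro j hj
    unfold sw
    split_ifs with h3
    · rw [(hval j).2]
      norm_num
    · rcases (hmem j hj).2 with h4 | h4
      · exact absurd h4 h3
      · rw [eta_not fun h5 => Set.disjoint_left.1 hA.dPM h5 h4]
  rcases side (F := F) (P := M) (Q₁ := Q₁) (Q₂ := Q₂) (g := sw F P h)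
      (a := fun j => (run h S s j).2) (b := fun j => (run h S s j).1) hcd'
      (fun j _ h2 => (hmem j (by omega)).2) (fun j _ h2 => hsw j (by omega))
      (fun j _ h2 => hstp_symm _ _ _ _ (hstep j (by omega))) (fun j => adj_symm (hg j).1)
      (fun j h1 h2 => (hnt1 j h1 h2).symm) hTc.symm hTd.symm with hR | hR
  swap
  · exact Or.inr hR
  -- both sides are attached: contradiction by parity
  exfalso
  obtain ⟨a, haQ, ha⟩ : ∃ a ∈ Q₂, a = (run h S s c).1 ∨ a = (run h S s c).2 := by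
    rcases hTc with h1 | h1
    · exact ⟨_, h1, Or.inl rfl⟩
    · exact ⟨_, h1, Or.inr rfl⟩
  obtain ⟨b, hbQ, hb'⟩ : ∃ b ∈ Q₂, b = (run h S s v).1 ∨ b = (run h S s v).2 := by
    rcases hv with h1 | h1
    · exact ⟨_, h1, Or.inl rfl⟩
    · exact ⟨_, h1, Or.inr rfl⟩
  have hPv : ∀ v ∈ P, h v = 1 := fun v hv => by
    rw [(mem_CA.1 hh).2.1 v (fun hc => Set.disjoint_left.1 hA.dFP hc hv),
      eta_not (fun hc => Set.disjoint_left.1 hA.dPM hv hc)]
  have hMv : ∀ v ∈ M, h v = -1 := fun v hv => by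
    rw [(mem_CA.1 hh).2.1 v (fun hc => Set.disjoint_left.1 hA.dFM hc hv), eta_mem hv]
  refine parity_run (i := 0) (j := c + 1) (m₁ := c) (m₃ := v) (K := Q₂)
    (A := {v | AtP F P (Q₁ ∪ Q₂) h v}) (B := {v | AtP F M (Q₁ ∪ Q₂) (sw F P h) v}) hz hs hb hk
    (Nat.zero_le _) (Nat.lt_succ_self _) (by omega) hvk (h2c a haQ b hbQ) ha hb' ?_ ?_ ?_ ?_
  · exact AtP_conn hA.cP hs1 (hL (c + 1) (Nat.lt_succ_self _) hcd')
  · rintro v (hv | hv)
    · exact ⟨by rw [hPv v hv]; norm_num, fun hc => Set.disjoint_left.1 hA.dFP (h2F hc) hv⟩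
    · have h1 := PLAN.Cl_subset hv
      have h2 : 1 ≤ h v := h1.2
      exact ⟨by omega, fun hc => h1.1.2 (Or.inr hc)⟩
  · exact AtP_conn hA.cM hs2 (hR (c + 1) (Nat.lt_succ_self _) hcd')
  · rintro v (hv | hv)
    · exact ⟨by rw [hMv v hv]; norm_num, fun hc => Set.disjoint_left.1 hA.dFM (h2F hc) hv⟩
    · have h1 := PLAN.Cl_subset hv
      have h2 : 1 ≤ sw F P h v := h1.2
      unfold sw at h2
      rw [if_pos h1.1.1] at h2
      exact ⟨by omega, fun hc => h1.1.2 (Or.inr hc)⟩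

end Vale.Agent.P153.R2.SLEX
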