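import Vale.Agent.P153.R2.SLEX.EndG
import Vale.Agent.P153.R2.SLEX.EndR
import Vale.Agent.P153.R2.SLEX.BdpB
import Vale.Agent.P153.R2.SLEX.EndQ

/-!
P153, block SLEX (I_end): a run which passes from distance `a` to distance `b` from `z` touches a
crosscut between these distances.
-/

set_option autoImplicit false

namespace Vale.Agent.P153.R2.SLEX

open Filter Topology Set
open Vale.Agent.P145.PT Vale.Agent.P153 Vale.Agent.P153.F.Top Vale.Agent.P153.R2.FLDI
open Vale.Agent.P153.Topo (Conn adj_symm)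
open Vale.Agent.P153.R2.LOC (NO ds mem_bx_iff ds_adj)
open Vale.Agent.P153.R2.INTF (St run fa fb Good Alive NZ run_good Arcs)

variable {F Q : Set Pt} {δ a b : ℝ} {z : ℝ × ℝ}

/-- Consecutive states. -/
def Nb (s s' : St) : Prop :=
  ∀ x y, (x = s.1 ∨ x = s.2) → (y = s'.1 ∨ y = s'.2) → x = y ∨ Adj x y

theorem Nb.symm {s s' : St} (h : Nb s s') : Nb s' s := by
  intro x y hx hy
  rcases h y x hy hx with h1 | h1
  · exact Or.inl h1.symm
  · exact Or.inr (adj_symm h1)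

theorem Stp.nb {s s' : St} (hs : Adj s.1 s.2) (hs' : Adj s'.1 s'.2)
    (h : Stp s.1 s.2 s'.1 s'.2) : Nb s s' := by
  intro x y hx hy
  rcases h with ⟨e1, e2⟩ | ⟨e1, e2⟩
  · rcases hx with rfl | rfl <;> rcases hy with rfl | rfl
    · exact Or.inr e2
    · rw [e1]; exact Or.inr hs
    · rw [← e1]; exact Or.inr (adj_symm hs')
    · exact Or.inl e1.symm
  · rcases hx with rfl | rfl <;> rcases hy with rfl | rfl
    · exact Or.inl e1.symm
    · rw [← e1]; exact Or.inr hs'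
    · rw [e1]; exact Or.inr (adj_symm hs)
    · exact Or.inr e2

theorem dist_adj_z (hδ : 0 < δ) {x y : Pt} (h : x = y ∨ Adj x y) :
    dist (dp δ y) z ≤ dist (dp δ x) z + 2 * δ := by
  rcases h with rfl | h
  · linarith
  · have h1 := dist_adj hδ h
    have h2 := dist_triangle (dp δ y) (dp δ x) z
    linarith

/-- **The touch lemma.** -/
theorem touch (hδ : 0 < δ) (C : Crc F δ z Q a b) {τ : ℕ → St} {m : ℕ}
    (hN : ∀ j < m, Nb (τ j) (τ (j + 1))) (hadj : ∀ j, Adj (τ j).1 (τ j).2)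
    (hpm : ∀ j ≤ m, a / 2 ≤ dist (dp δ (τ j).1) z → dist (dp δ (τ j).1) z < b + 8 * δ →
      (τ j).1 ∈ F ∨ (τ j).2 ∈ F)
    (h0 : dist (dp δ (τ 0).1) z < 3 * a / 4) (hm : b + 4 * δ ≤ dist (dp δ (τ m).1) z)
    (hδa : 16 * δ ≤ a) : ∃ j ≤ m, TchE Q (τ j) := by
  have hab : a < b := by
    obtain ⟨q, hq, -⟩ := C.wall
    exact (C.far q hq).trans_lt (C.near q hq)
  by_contra hcon
  push Not at hcon
  have hm0 : 0 < m := by
    rcases Nat.eq_zero_or_pos m with h1 | h1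
    · rw [h1] at hm
      linarith
    · exact h1
  obtain ⟨c, d, -, hcd, hdm, hTc, hTd, hno⟩ :=
    exists_crossing (T₁ := fun j => b + 4 * δ ≤ dist (dp δ (τ j).1) z)
      (T₂ := fun j => dist (dp δ (τ j).1) z < 3 * a / 4) hm0 h0 hm (fun j hj => by
        obtain ⟨h1, h2⟩ := hj
        linarith)
  have hTc' : dist (dp δ (τ c).1) z < 3 * a / 4 := hTc
  have hTd' : b + 4 * δ ≤ dist (dp δ (τ d).1) z := hTd
  have hst : ∀ j < m, dist (dp δ (τ (j + 1)).1) z ≤ dist (dp δ (τ j).1) z + 2 * δ := fun j hj =>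
    dist_adj_z hδ (hN j hj _ _ (Or.inl rfl) (Or.inl rfl))
  have hst' : ∀ j < m, dist (dp δ (τ j).1) z ≤ dist (dp δ (τ (j + 1)).1) z + 2 * δ := fun j hj =>
    dist_adj_z hδ ((hN j hj).symm _ _ (Or.inl rfl) (Or.inl rfl))
  have hsd : ∀ j x, (x = (τ j).1 ∨ x = (τ j).2) →
      dist (dp δ x) z ≤ dist (dp δ (τ j).1) z + 2 * δ ∧
      dist (dp δ (τ j).1) z ≤ dist (dp δ x) z + 2 * δ := by
    rintro j x (rfl | rfl)
    · constructor <;> linarith
    · exact ⟨dist_adj_z hδ (Or.inr (hadj j)), dist_adj_z hδ (Or.inr (adj_symm (hadj j)))⟩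
  have hcd1 : c + 1 < d := by
    by_contra h1
    have e : d = c + 1 := by omega
    subst e
    have := hst c (by omega)
    linarith
  have hin : ∀ j, c < j → j ≤ d → 3 * a / 4 ≤ dist (dp δ (τ j).1) z ∧
      dist (dp δ (τ j).1) z < b + 6 * δ := by
    intro j h1 h2
    rcases Nat.lt_or_ge j d with h3 | h3
    · obtain ⟨h4, h5⟩ := hno j h1 h3
      have h4' : ¬ b + 4 * δ ≤ dist (dp δ (τ j).1) z := h4
      have h5' : ¬ dist (dp δ (τ j).1) z < 3 * a / 4 := h5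
      constructor <;> linarith
    · have e : j = d := le_antisymm h2 h3
      subst e
      obtain ⟨i, rfl⟩ : ∃ i, j = i + 1 := ⟨j - 1, by omega⟩
      obtain ⟨h4, -⟩ := hno i (by omega) (by omega)
      have h4' : ¬ b + 4 * δ ≤ dist (dp δ (τ i).1) z := h4
      have h6 := hst i (by omega)
      constructor <;> linarith
  have hF : ∀ j, c < j → j ≤ d → ∃ x, (x = (τ j).1 ∨ x = (τ j).2) ∧ x ∈ F := by
    intro j h1 h2
    obtain ⟨h3, h4⟩ := hin j h1 h2
    rcases hpm j (by omega) (by linarith) (by linarith) with h5 | h5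
    · exact ⟨_, Or.inl rfl, h5⟩
    · exact ⟨_, Or.inr rfl, h5⟩
  have hnQ : ∀ j ≤ m, ∀ x, (x = (τ j).1 ∨ x = (τ j).2) → x ∉ Q := by
    rintro j hj x (rfl | rfl) hx
    · exact hcon j hj (Or.inl hx)
    · exact hcon j hj (Or.inr hx)
  obtain ⟨w₀, hw₀, hw₀F⟩ := hF (c + 1) (by omega) (by omega)
  have key : ∀ i, c + 1 + i ≤ d → ∀ w, (w = (τ (c + 1 + i)).1 ∨ w = (τ (c + 1 + i)).2) → w ∈ F →
      Conn (F \ Q) w₀ w := by
    intro i
    induction i with
    | zero =>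
      intro _ w hw hwF
      have h1 : w₀ ∈ F \ Q := ⟨hw₀F, hnQ _ (by omega) _ hw₀⟩
      have h2 : w ∈ F \ Q := ⟨hwF, hnQ _ (by omega) _ hw⟩
      rw [Nat.add_zero] at hw
      rcases hw₀ with e1 | e1 <;> rcases hw with e2 | e2
      · rw [e1, ← e2]; exact Conn.refl h2
      · exact Conn.of_adj h1 h2 (by rw [e1, e2]; exact hadj _)
      · exact Conn.of_adj h1 h2 (by rw [e1, e2]; exact adj_symm (hadj _))
      · rw [e1, ← e2]; exact Conn.refl h2
    | succ i ih =>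
      intro hid w hw hwF
      obtain ⟨w', hw', hw'F⟩ := hF (c + 1 + i) (by omega) (by omega)
      have h1 := ih (by omega) w' hw' hw'F
      have h2 : w ∈ F \ Q := ⟨hwF, hnQ _ (by omega) _ hw⟩
      rcases hN (c + 1 + i) (by omega) w' w hw' hw with h3 | h3
      · rw [← h3]; exact h1
      · exact h1.tail h3 h2
  obtain ⟨w₁, hw₁, hw₁F⟩ := hF d hcd le_rfl
  have h1 := key (d - (c + 1)) (by omega) w₁ (by rwa [show c + 1 + (d - (c + 1)) = d by omega]) hw₁F
  refine C.cut w₀ w₁ hw₀F ?_ ?_ h1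
  · have h2 := (hsd _ _ hw₀).1
    have h3 := hst c (by omega)
    linarith
  · have h2 := (hsd _ _ hw₁).2
    linarith

end Vale.Agent.P153.R2.SLEX
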