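import Vale.Agent.P153.R2.LOC.Mir
import Vale.Agent.P153.R2.PLAN.Poly

/-!
P153, block SLEX: exploration of the attached clusters off two connected sets, and the bound for a
crossing which is not attached.

`F` are the random sites, `η = ±1` the exact data off `F`, `Z ⊆ F` (the union of an inner part `Vi`
and an outer part `Vo`). `EE F Z η h`: the clusters of `{h ≥ 1}` in `F \ Z` attached to a wall with
the value `1`; `EB`: what is revealed. Then the clusters of `{h ≥ 3}` of `Z` in the rest are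
revealed: `UU`, `UB`.
-/

set_option autoImplicit false

namespace Vale.Agent.P153.R2.SLEX

open Set Relation
open Vale.Agent.P153
open Vale.Agent.P153.Topo (Conn)
open Vale.Agent.P153.R2
open Vale.Agent.P153.R2.LOC
open scoped Classical

variable {F Z Vi Vo : Set Pt} {η g h : Hg} {x₀ p x y : Pt} {ρ R : ℤ}

/-- Attached clusters. -/
def EE (F Z : Set Pt) (η h : Hg) : Set Pt :=
  {x | ∃ y z, Conn ((F \ Z) ∩ up h 1) x y ∧ Adj y z ∧ z ∉ F ∧ η z = 1}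

/-- The sites revealed in the first step. -/
def EB (F Z : Set Pt) (η h : Hg) : Set Pt :=
  EE F Z η h ∪ {x | x ∈ F \ Z ∧ ∃ y ∈ EE F Z η h, Adj y x} ∪
    {x | x ∈ F \ Z ∧ ∃ z, Adj x z ∧ z ∉ F ∧ η z = 1}

theorem EE_sub (hx : x ∈ EE F Z η h) : x ∈ (F \ Z) ∩ up h 1 := by
  obtain ⟨y, z, h1, -, -⟩ := hx
  exact h1.left_mem

theorem EB_sub (hx : x ∈ EB F Z η h) : x ∈ F \ Z := by
  rcases hx with (h1 | h1) | h1
  · exact (EE_sub h1).1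
  · exact h1.1
  · exact h1.1

theorem EE_step (hx : x ∈ EE F Z η h) (hxy : Adj x y) (hyB : y ∈ F \ Z) (hy : 1 ≤ h y) :
    y ∈ EE F Z η h := by
  obtain ⟨z, w, h1, h2, h3, h4⟩ := hx
  have h5 : y ∈ (F \ Z) ∩ up h 1 := ⟨hyB, hy⟩
  exact ⟨z, w, (Conn.of_adj h5 h1.left_mem (Topo.adj_symm hxy)).trans h1, h2, h3, h4⟩

theorem EE_conn (hx : x ∈ EE F Z η h) (hxy : Conn ((F \ Z) ∩ up h 1) x y) : y ∈ EE F Z η h := by
  obtain ⟨z, w, h1, h2, h3, h4⟩ := hx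
  exact ⟨z, w, hxy.symm.trans h1, h2, h3, h4⟩

theorem EE_wall {z : Pt} (hx : x ∈ F \ Z) (h1 : 1 ≤ h x) (hxz : Adj x z) (hz : z ∉ F)
    (hz1 : η z = 1) : x ∈ EE F Z η h :=
  ⟨x, z, Conn.refl ⟨hx, h1⟩, hxz, hz, hz1⟩

theorem EE_of_eq (hgh : ∀ x ∈ EB F Z η h, g x = h x) : EE F Z η g = EE F Z η h := by
  apply Subset.antisymm
  · rintro x ⟨y, z, h1, h2, h3, h4⟩
    refine Conn.ind (S := (F \ Z) ∩ up g 1) (fun u => u ∈ EE F Z η h) ?_ ?_ h1.symm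
    · have hy : y ∈ EB F Z η h := Or.inr ⟨h1.right_mem.1, z, h2, h3, h4⟩
      have h5 : 1 ≤ g y := h1.right_mem.2
      rw [hgh y hy] at h5
      exact ⟨y, z, Conn.refl ⟨h1.right_mem.1, h5⟩, h2, h3, h4⟩
    · intro u v hu huv hv ih
      have h5 : v ∈ EB F Z η h := Or.inl (Or.inr ⟨hv.1, u, ih, huv⟩)
      have h6 : 1 ≤ g v := hv.2
      rw [hgh v h5] at h6
      exact EE_step ih huv hv.1 h6
  · rintro x hx
    obtain ⟨y, z, h1, h2, h3, h4⟩ := hx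
    have hyW : y ∈ EE F Z η h := ⟨y, z, Conn.refl h1.right_mem, h2, h3, h4⟩
    have : Conn ((F \ Z) ∩ up g 1) y x ∧ x ∈ EE F Z η h := by
      refine Conn.ind (S := (F \ Z) ∩ up h 1)
        (fun u => Conn ((F \ Z) ∩ up g 1) y u ∧ u ∈ EE F Z η h)
        ⟨Conn.refl ⟨h1.right_mem.1, ?_⟩, hyW⟩ ?_ h1.symm
      · show 1 ≤ g y
        rw [hgh y (Or.inl (Or.inl hyW))]
        exact h1.right_mem.2
      · rintro u v hu' huv hv ⟨ih1, ih2⟩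
        have h6 : v ∈ EE F Z η h := EE_step ih2 huv hv.1 hv.2
        refine ⟨ih1.tail huv ⟨hv.1, ?_⟩, h6⟩
        show 1 ≤ g v
        rw [hgh v (Or.inl (Or.inl h6))]
        exact hv.2
    exact ⟨y, z, this.1.symm, h2, h3, h4⟩

theorem EB_of_eq (hgh : ∀ x ∈ EB F Z η h, g x = h x) : EB F Z η g = EB F Z η h := by
  unfold EB
  rw [EE_of_eq hgh]

/-- The revealed sites off the attached clusters have the height `-1`. -/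
theorem EB_val (hh : h ∈ Cfg F (exa F η)) (hx : x ∈ EB F Z η h) (hxE : x ∉ EE F Z η h) :
    h x = -1 := by
  have ho := hh.1 x
  rcases hx with (h1 | ⟨h1, y, h2, h3⟩) | ⟨h1, z, h2, h3, h4⟩
  · exact absurd h1 hxE
  · have h4 : 1 ≤ h y := (EE_sub h2).2
    have h5 := hh.2.2 x h1.1 y (Topo.adj_symm h3)
    have h6 : ¬ 1 ≤ h x := fun h7 => hxE (EE_step h2 h3 h1 h7)
    rw [abs_le] at h5
    obtain ⟨k, hk⟩ := ho
    omega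
  · have h5 := hh.2.2 x h1.1 z h2
    rw [Cfg.eq_out hh h3, h4] at h5
    have h6 : ¬ 1 ≤ h x := fun h7 => hxE (EE_wall h1 h7 h2 h3 h4)
    rw [abs_le] at h5
    obtain ⟨k, hk⟩ := ho
    omega

/-- The rest after the first step. -/
def VV (F Z : Set Pt) (η h : Hg) : Set Pt := F \ EB F Z η h

/-- The sites of `Z` and the `{h ≥ 3}`-clusters of `Z` in the rest. -/
def UU (F Z : Set Pt) (η h : Hg) : Set Pt :=
  Z ∪ {x | ∃ z ∈ Z, Conn (VV F Z η h ∩ up h 3) z x}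

/-- The sites revealed in the second step. -/
def UB (F Z : Set Pt) (η h : Hg) : Set Pt :=
  UU F Z η h ∪ {y | y ∈ VV F Z η h ∧ ∃ x ∈ UU F Z η h, 3 ≤ h x ∧ Adj x y}

/-- All the revealed sites. -/
def TT (F Z : Set Pt) (η h : Hg) : Set Pt := EB F Z η h ∪ UB F Z η h

theorem Z_sub_VV (hZ : Z ⊆ F) : Z ⊆ VV F Z η h := fun _ hx => ⟨hZ hx, fun h1 => (EB_sub h1).2 hx⟩

theorem UU_step (hZ : Z ⊆ F) (hx : x ∈ UU F Z η h) (h3 : 3 ≤ h x) (hxy : Adj x y)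
    (hy : y ∈ VV F Z η h) (hy3 : 3 ≤ h y) : y ∈ UU F Z η h := by
  rcases hx with hx | ⟨z, hz, hzx⟩
  · exact Or.inr ⟨x, hx, Conn.of_adj ⟨Z_sub_VV hZ hx, h3⟩ ⟨hy, hy3⟩ hxy⟩
  · exact Or.inr ⟨z, hz, hzx.tail hxy ⟨hy, hy3⟩⟩

theorem VV_of_eq (hgh : ∀ x ∈ EB F Z η h, g x = h x) : VV F Z η g = VV F Z η h := by
  unfold VV
  rw [EB_of_eq hgh]

theorem UU_of_eq (hZ : Z ⊆ F) (hgh : ∀ x ∈ TT F Z η h, g x = h x) :
    UU F Z η g = UU F Z η h := by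
  have hV : VV F Z η g = VV F Z η h := VV_of_eq fun x hx => hgh x (Or.inl hx)
  apply Subset.antisymm
  · rintro x (hx | ⟨z, hz, hzx⟩)
    · exact Or.inl hx
    · refine Conn.ind (S := VV F Z η g ∩ up g 3) (fun u => u ∈ UU F Z η h) (Or.inl hz) ?_ hzx
      intro u v hu huv hv ih
      have h1 : 3 ≤ g u := hu.right_mem.2
      rw [hgh u (Or.inr (Or.inl ih))] at h1
      have h2 : v ∈ VV F Z η h := by rw [← hV]; exact hv.1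
      have h3 : v ∈ TT F Z η h := Or.inr (Or.inr ⟨h2, u, ih, h1, huv⟩)
      have h4 : 3 ≤ g v := hv.2
      rw [hgh v h3] at h4
      exact UU_step hZ ih h1 huv h2 h4
  · rintro x (hx | ⟨z, hz, hzx⟩)
    · exact Or.inl hx
    · have : Conn (VV F Z η g ∩ up g 3) z x ∧ x ∈ UU F Z η h := by
        refine Conn.ind (S := VV F Z η h ∩ up h 3)
          (fun u => Conn (VV F Z η g ∩ up g 3) z u ∧ u ∈ UU F Z η h)
          ⟨Conn.refl ⟨Z_sub_VV hZ hz, ?_⟩, Or.inl hz⟩ ?_ hzx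
        · show 3 ≤ g z
          rw [hgh z (Or.inr (Or.inl (Or.inl hz)))]
          exact hzx.left_mem.2
        · rintro u v hu' huv hv ⟨ih1, ih2⟩
          have h6 : v ∈ UU F Z η h := UU_step hZ ih2 hu'.right_mem.2 huv hv.1 hv.2
          refine ⟨ih1.tail huv ⟨by rw [hV]; exact hv.1, ?_⟩, h6⟩
          show 3 ≤ g v
          rw [hgh v (Or.inr (Or.inl h6))]
          exact hv.2
      exact Or.inr ⟨z, hz, this.1⟩

theorem UB_of_eq (hZ : Z ⊆ F) (hgh : ∀ x ∈ TT F Z η h, g x = h x) :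
    UB F Z η g = UB F Z η h := by
  have hV : VV F Z η g = VV F Z η h := VV_of_eq fun x hx => hgh x (Or.inl hx)
  have hU := UU_of_eq hZ hgh
  unfold UB
  rw [hV, hU]
  congr 1
  ext y
  constructor
  · rintro ⟨h1, x, h2, h3, h4⟩
    refine ⟨h1, x, h2, ?_, h4⟩
    rwa [hgh x (Or.inr (Or.inl h2))] at h3
  · rintro ⟨h1, x, h2, h3, h4⟩
    refine ⟨h1, x, h2, ?_, h4⟩
    rwa [hgh x (Or.inr (Or.inl h2))]

theorem TT_of_eq (hZ : Z ⊆ F) (hgh : ∀ x ∈ TT F Z η h, g x = h x) :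
    TT F Z η g = TT F Z η h := by
  unfold TT
  rw [UB_of_eq hZ hgh, EB_of_eq fun x hx => hgh x (Or.inl hx)]

/-- The revealed configuration. -/
noncomputable def rvl (F Z : Set Pt) (η h : Hg) : Pt → Option ℤ := fun x =>
  if x ∈ TT F Z η h then some (h x) else none

theorem rvl_eq_iff (hZ : Z ⊆ F) :
    rvl F Z η g = rvl F Z η h ↔ ∀ x ∈ TT F Z η h, g x = h x := by
  constructor
  · intro h1 x hx
    have h2 := congrFun h1 x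
    unfold rvl at h2
    rw [if_pos hx] at h2
    split_ifs at h2 with h3
    simpa using h2
  · intro h1
    funext x
    unfold rvl
    rw [TT_of_eq hZ h1]
    split_ifs with h2
    · rw [h1 x h2]
    · rfl

/-- The geometric hypotheses. -/
structure Geo (F Vi Vo : Set Pt) (η : Hg) (x₀ p : Pt) (ρ R : ℤ) : Prop where
  fin : F.Finite
  cc : CC F
  pm : ∀ x, η x = 1 ∨ η x = -1
  subi : Vi ⊆ F
  subo : Vo ⊆ F
  cni : ∀ x ∈ Vi, Conn Vi p x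
  cno : ∀ x ∈ Vo, ∀ y ∈ Vo, Conn Vo x y
  pin : p ∈ Vi
  pno : ∃ o, o ∉ F ∧ Adj p o
  inn : ∀ x ∈ Vi, ds x₀ x ≤ ρ - 2
  out : ∀ x ∈ Vo, R + 2 < ds x₀ x
  ctr : x₀ ∉ F

/-- The good event: the second step does not enter the annulus. -/
def Gd (F Z : Set Pt) (η : Hg) (x₀ : Pt) (ρ R : ℤ) : Set Hg :=
  {h | ∀ x ∈ UB F Z η h, ds x₀ x ≤ ρ ∨ R < ds x₀ x}

/-- Crossing from `Vi` to `Vo` which is not attached. -/
def Bad (F Vi Vo : Set Pt) (η : Hg) : Set Hg :=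
  {h | ∃ x y, (∃ a ∈ Vi, Adj a x) ∧ (∃ b ∈ Vo, Adj b y) ∧
    Conn ((F \ (Vi ∪ Vo)) ∩ up h 1) x y ∧ x ∉ EE F (Vi ∪ Vo) η h}

theorem cfg_ne {F : Set Pt} {η : Hg} (hη : ∀ x, η x = 1 ∨ η x = -1) :
    (Cfg F (exa F η)).Nonempty := by
  refine ⟨η, fun x => ?_, fun x => ?_, fun x _ y _ => ?_⟩
  · rcases hη x with h1 | h1
    · rw [h1]; exact odd_one
    · rw [h1]; exact ⟨-1, rfl⟩
  · by_cases hx : x ∈ F
    · rw [exa_in hx]; exact Set.mem_univ _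
    · rw [exa_out hx]; exact Set.mem_singleton _
  · rw [abs_le]
    rcases hη x with h1 | h1 <;> rcases hη y with h2 | h2 <;> rw [h1, h2] <;> norm_num

section Geo

variable (G : Geo F Vi Vo η x₀ p ρ R)

include G

theorem Geo.Zsub : Vi ∪ Vo ⊆ F := union_subset G.subi G.subo

/-- A site of the rest in the annulus is not in `Z`. -/
theorem Geo.notZ (h1 : ρ - 2 < ds x₀ x) (h2 : ds x₀ x ≤ R + 2) : x ∉ Vi ∪ Vo := by
  rintro (hx | hx)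
  · have := G.inn x hx; omega
  · have := G.out x hx; omega

/-- The rest is simply connected. -/
theorem Geo.ccV : CC (VV F (Vi ∪ Vo) η h) := by
  refine PLAN.CC_diff G.cc fun x hx => ?_
  have key : ∀ x ∈ EE F (Vi ∪ Vo) η h, ∃ y, y ∉ F ∧ Conn (EB F (Vi ∪ Vo) η h ∪ Fᶜ) x y := by
    rintro x ⟨y, z, h1, h2, h3, h4⟩
    have hyW : y ∈ EE F (Vi ∪ Vo) η h := ⟨y, z, Conn.refl h1.right_mem, h2, h3, h4⟩
    have h5 : Conn (EE F (Vi ∪ Vo) η h) y x := by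
      have : Conn (EE F (Vi ∪ Vo) η h) y x ∧ x ∈ EE F (Vi ∪ Vo) η h := by
        refine Conn.ind (S := (F \ (Vi ∪ Vo)) ∩ up h 1)
          (fun u => Conn (EE F (Vi ∪ Vo) η h) y u ∧ u ∈ EE F (Vi ∪ Vo) η h)
          ⟨Conn.refl hyW, hyW⟩ ?_ h1.symm
        rintro u v hu huv hv ⟨ih1, ih2⟩
        have h6 := EE_step ih2 huv hv.1 hv.2
        exact ⟨ih1.tail huv h6, h6⟩
      exact this.1
    refine ⟨z, h3, (h5.symm.mono fun u hu => Or.inl (Or.inl (Or.inl hu))).tail h2 (Or.inr h3)⟩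
  rcases hx with (h1 | ⟨h1, y, h2, h3⟩) | ⟨h1, z, h2, h3, h4⟩
  · exact key x h1
  · obtain ⟨w, hw, h4⟩ := key y h2
    have hx' : x ∈ EB F (Vi ∪ Vo) η h := Or.inl (Or.inr ⟨h1, y, h2, h3⟩)
    exact ⟨w, hw, (Conn.of_adj (Or.inl hx') h4.left_mem (Topo.adj_symm h3)).trans h4⟩
  · have hx' : x ∈ EB F (Vi ∪ Vo) η h := Or.inr ⟨h1, z, h2, h3, h4⟩
    exact ⟨z, h3, Conn.of_adj (Or.inl hx') (Or.inr h3) h2⟩

/-- A neighbour of the rest is a wall with the value `-1`, or a revealed site with the value `-1`,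
or next to `Z`. -/
theorem Geo.nbr (hh : h ∈ Cfg F (exa F η)) (hx : x ∈ VV F (Vi ∪ Vo) η h) (hxZ : x ∉ Vi ∪ Vo)
    {z : Pt} (hxz : Adj x z) (hz : z ∉ VV F (Vi ∪ Vo) η h) : h z = -1 := by
  by_cases hzF : z ∈ F
  · have hzE : z ∈ EB F (Vi ∪ Vo) η h := by
      by_contra h1
      exact hz ⟨hzF, h1⟩
    refine EB_val hh hzE fun h1 => hx.2 ?_
    exact Or.inl (Or.inr ⟨⟨hx.1, hxZ⟩, z, h1, Topo.adj_symm hxz⟩)
  · rw [Cfg.eq_out hh hzF]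
    rcases G.pm z with h1 | h1
    · exact absurd (Or.inr ⟨⟨hx.1, hxZ⟩, z, hxz, hzF, h1⟩ : x ∈ EB F (Vi ∪ Vo) η h) hx.2
    · exact h1

/-- The heights next to the rest after the second step are at most one. -/
theorem Geo.low (hh : h ∈ Cfg F (exa F η)) {z : Pt}
    (hz : z ∈ ebd (VV F (Vi ∪ Vo) η h \ UB F (Vi ∪ Vo) η h)) : h z ≤ 1 := by
  obtain ⟨hz1, y, ⟨hy1, hy2⟩, hyz⟩ := hz
  have hyZ : y ∉ Vi ∪ Vo := fun h1 => hy2 (Or.inl (Or.inl h1))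
  by_cases hzV : z ∈ VV F (Vi ∪ Vo) η h
  · have hzU : z ∈ UB F (Vi ∪ Vo) η h := by
      by_contra h1
      exact hz1 ⟨hzV, h1⟩
    obtain ⟨k, hk⟩ := hh.1 z
    by_contra hcon
    have h3 : 3 ≤ h z := by omega
    rcases hzU with h1 | ⟨-, x, h4, h5, h6⟩
    · exact hy2 (Or.inr ⟨hy1, z, h1, h3, Topo.adj_symm hyz⟩)
    · have h7 := UU_step G.Zsub h4 h5 h6 hzV h3
      exact hy2 (Or.inr ⟨hy1, z, h7, h3, Topo.adj_symm hyz⟩)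
  · rw [G.nbr hh hy1 hyZ hyz hzV]
    norm_num

end Geo

theorem fib_rvl (hZ : Z ⊆ F) (hh : h ∈ Cfg F (exa F η)) :
    Cfg F (exa F η) ∩ {g | rvl F Z η g = rvl F Z η h} =
      Cfg (F \ TT F Z η h) (exa (F \ TT F Z η h) h) := by
  rw [← fib_exa hh]
  ext g
  simp only [Set.mem_inter_iff, Set.mem_ofPred_eq, rvl_eq_iff hZ]

theorem F_diff_TT : F \ TT F Z η h = VV F Z η h \ UB F Z η h := by
  ext x
  unfold TT VV
  simp only [Set.mem_sdiff, Set.mem_union, not_or]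
  tauto

/-- The neighbourhood of a connected set in a bigger set is connected. -/
theorem conn_nbh {V N : Set Pt} {p : Pt} (hN : N ⊆ V) (hc : ∀ x ∈ N, Conn N p x) (hx : x ∈ V)
    (hxN : x ∈ N ∨ ∃ a ∈ N, Adj a x) : Conn {x | x ∈ V ∧ (x ∈ N ∨ ∃ a ∈ N, Adj a x)} p x := by
  have hs : N ⊆ {x | x ∈ V ∧ (x ∈ N ∨ ∃ a ∈ N, Adj a x)} := fun y hy => ⟨hN hy, Or.inl hy⟩
  rcases hxN with h1 | ⟨a, ha, hax⟩
  · exact (hc x h1).mono hs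
  · exact ((hc a ha).mono hs).tail hax ⟨hx, Or.inr ⟨a, ha, hax⟩⟩

/-- **The bound on the good event.** -/
theorem bad_good (hS : S_land (0 + 2)) : ∀ ε : ℝ, 0 < ε → ∃ t : ℤ, 1 ≤ t ∧ ∃ ρ₀ : ℤ, 1 ≤ ρ₀ ∧
    ∀ (F Vi Vo : Set Pt) (η : Hg) (x₀ p : Pt) (ρ R : ℤ), Geo F Vi Vo η x₀ p ρ R → ρ₀ ≤ ρ →
      t * ρ ≤ R → Pr (Cfg F (exa F η)) (Gd F (Vi ∪ Vo) η x₀ ρ R ∩ Bad F Vi Vo η) ≤ ε := by
  intro ε hε
  obtain ⟨t, ht, ρ₀, hρ₀, H⟩ := multW_hi 0 hS ε hε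
  refine ⟨t, ht, ρ₀, hρ₀, fun F Vi Vo η x₀ p ρ R G hρ hR => ?_⟩
  have hZ := G.Zsub
  have hfin := Cfg_finite (Dat_exa G.fin η)
  refine (Pr_le_of_fiber hfin (rvl F (Vi ∪ Vo) η) (Bad F Vi Vo η) (Gd F (Vi ∪ Vo) η x₀ ρ R)
    (c := ε) ?_ ?_).trans (mul_le_of_le_one_right hε.le (Pr_le_one _ _))
  · intro a _ b _ hab
    have h1 := UB_of_eq hZ ((rvl_eq_iff hZ).1 hab)
    unfold Gd
    simp only [Set.mem_ofPred_eq, h1]
  · intro h hh hG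
    rw [fib_rvl hZ hh, F_diff_TT]
    set V := VV F (Vi ∪ Vo) η h with hV
    set F'' := V \ UB F (Vi ∪ Vo) η h with hF''
    set N : Set Pt := {x | x ∈ V ∧ (x ∈ Vi ∨ ∃ a ∈ Vi, Adj a x)} with hN
    set Q : Set Pt := {x | x ∈ V ∧ (x ∈ Vo ∨ ∃ a ∈ Vo, Adj a x)} with hQ
    have hVF : V ⊆ F := fun x hx => hx.1
    have hiV : Vi ⊆ V := fun x hx => Z_sub_VV hZ (Or.inl hx)
    have hoV : Vo ⊆ V := fun x hx => Z_sub_VV hZ (Or.inr hx)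
    have hcfg : h ∈ Cfg F'' (exa F'' h) := by
      rw [hF'', hV, ← F_diff_TT, ← fib_rvl hZ hh]
      exact ⟨hh, rfl⟩
    have hQc : ∀ x ∈ Q, ∀ y ∈ Q, Conn Q x y := by
      rintro x ⟨hx, hx'⟩ y ⟨hy, hy'⟩
      obtain ⟨a, ha⟩ : ∃ a, a ∈ Vo := by
        rcases hx' with h1 | ⟨a, h1, -⟩
        · exact ⟨x, h1⟩
        · exact ⟨a, h1⟩
      exact (conn_nbh hoV (fun z hz => G.cno a ha z hz) hx hx').symm.trans
        (conn_nbh hoV (fun z hz => G.cno a ha z hz) hy hy')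
    have hρ0 : 1 ≤ ρ := hρ₀.trans hρ
    have hRρ : ρ ≤ R := le_trans (by nlinarith) hR
    have key := H (-1) V F'' x₀ ρ R p h N Q (by decide)
      ⟨G.fin.subset hVF, G.ccV, fun x hx => hx.1, ⟨h, hcfg⟩, ?_⟩ ?_ ?_ (fun h1 => G.ctr (hVF h1))
      hρ hR ?_ ⟨hiV G.pin, Or.inl G.pin⟩ (fun x hx => hx.1) ?_ ?_ (fun x hx => hx.1) ?_ hQc
    · refine (Pr_mono fun g hg hb => ?_).trans key
      obtain ⟨x, y, ⟨a, ha, hax⟩, ⟨b, hb, hby⟩, hxy, hxE⟩ := hb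
      -- the fiber
      have hgT : ∀ x ∈ TT F (Vi ∪ Vo) η h, g x = h x := by
        have : g ∈ Cfg F (exa F η) ∩ {g | rvl F (Vi ∪ Vo) η g = rvl F (Vi ∪ Vo) η h} := by
          rw [fib_rvl hZ hh, F_diff_TT]
          exact hg
        exact (rvl_eq_iff hZ).1 this.2
      have hgF : g ∈ Cfg F (exa F η) := by
        have : g ∈ Cfg F (exa F η) ∩ {g | rvl F (Vi ∪ Vo) η g = rvl F (Vi ∪ Vo) η h} := by
          rw [fib_rvl hZ hh, F_diff_TT]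
          exact hg
        exact this.1
      have hVg : VV F (Vi ∪ Vo) η g = V := VV_of_eq fun x hx => hgT x (Or.inl hx)
      have hpath : Conn (V ∩ up g 1) x y := by
        have : Conn (V ∩ up g 1) x y ∧ y ∉ EE F (Vi ∪ Vo) η g := by
          have step : ∀ u, u ∈ (F \ (Vi ∪ Vo)) ∩ up g 1 → u ∉ EE F (Vi ∪ Vo) η g →
              u ∈ V ∩ up g 1 := by
            intro u hu huE
            refine ⟨?_, hu.2⟩
            rw [← hVg]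
            refine ⟨hu.1.1, fun h1 => ?_⟩
            have h2 := EB_val hgF h1 huE
            have h3 : 1 ≤ g u := hu.2
            omega
          refine Conn.ind (S := (F \ (Vi ∪ Vo)) ∩ up g 1)
            (fun u => Conn (V ∩ up g 1) x u ∧ u ∉ EE F (Vi ∪ Vo) η g)
            ⟨Conn.refl (step x hxy.left_mem hxE), hxE⟩ ?_ hxy
          rintro u v hu huv hv ⟨ih1, ih2⟩
          have h3 : v ∉ EE F (Vi ∪ Vo) η g := fun h1 =>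
            ih2 (EE_step h1 (Topo.adj_symm huv) hu.right_mem.1 hu.right_mem.2)
          exact ⟨ih1.tail huv (step v hv h3), h3⟩
        exact this.1
      refine ⟨x, ⟨hpath.left_mem.1, Or.inr ⟨a, ha, hax⟩⟩, y, ⟨hpath.right_mem.1, Or.inr ⟨b, hb, hby⟩⟩,
        hpath.mono ?_⟩
      rintro u ⟨hu1, hu2⟩
      refine ⟨hu1, fun h1 => ?_⟩
      have h2 : g u ≤ -1 := (Wdn_subset h1).2
      have h3 : 1 ≤ g u := hu2
      omega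
    · -- random sites in the annulus
      intro x hx hxρ
      have hxV := (Co_subset hx).1
      have hxR := mem_bx_iff.1 (Co_subset hx).2
      refine ⟨hxV, fun h1 => ?_⟩
      rcases hG x h1 with h2 | h2 <;> omega
    · -- low
      intro z hz
      have := G.low hh hz
      push_cast
      linarith
    · -- walls
      intro z hz x hx hxz hzρ
      have hxV := (Co_subset hx).1
      have hxR := mem_bx_iff.1 (Co_subset hx).2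
      have h1 := ds_adj (x₀ := x₀) hxz
      rw [abs_le] at h1
      have hxZ : x ∉ Vi ∪ Vo := G.notZ (by omega) (by omega)
      exact (G.nbr hh hxV hxZ hxz hz).le
    · obtain ⟨o, ho, hpo⟩ := G.pno
      exact ⟨hiV G.pin, o, hpo, fun h1 => ho (hVF h1)⟩
    · rintro x ⟨hx, hx'⟩
      rw [mem_bx_iff]
      rcases hx' with h1 | ⟨a, h1, hax⟩
      · have := G.inn x h1; omega
      · have h2 := G.inn a h1
        have h3 := ds_adj (x₀ := x₀) hax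
        rw [abs_le] at h3
        omega
    · intro x hx
      exact conn_nbh hiV G.cni hx.1 hx.2
    · rw [Set.disjoint_left]
      rintro x ⟨hx, hx'⟩ hxC
      have hxR := mem_bx_iff.1 (Co_subset hxC).2
      rcases hx' with h1 | ⟨a, h1, hax⟩
      · have := G.out x h1; omega
      · have h2 := G.out a h1
        have h3 := ds_adj (x₀ := x₀) hax
        rw [abs_le] at h3
        omega

/-- **No high crossing**, data `±1`. -/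
theorem cross3 (hS : S_land (0 + 2)) : ∀ ε : ℝ, 0 < ε → ∃ t : ℤ, 1 ≤ t ∧ ∃ ρ₀ : ℤ, 1 ≤ ρ₀ ∧
    ∀ (F : Set Pt) (η : Hg) (x₀ p : Pt) (ρ R : ℤ) (N Q : Set Pt), F.Finite → CC F →
      (∀ x, η x = 1 ∨ η x = -1) → x₀ ∉ F → ρ₀ ≤ ρ → t * ρ ≤ R → p ∈ N → (∃ o, o ∉ F ∧ Adj p o) →
      N ⊆ F → (∀ x ∈ N, ds x₀ x ≤ ρ) → (∀ x ∈ N, Conn N p x) → Q ⊆ F →
      (∀ x ∈ Q, R < ds x₀ x) → (∀ x ∈ Q, ∀ y ∈ Q, Conn Q x y) →
      Pr (Cfg F (exa F η)) {h | ∃ x ∈ N, ∃ y ∈ Q, Conn (F ∩ up h 3) x y} ≤ ε := by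
  intro ε hε
  obtain ⟨t, ht, ρ₀, hρ₀, H⟩ := multW_hi 0 hS ε hε
  refine ⟨t, ht, ρ₀, hρ₀, fun F η x₀ p ρ R N Q hF hcc hη hx₀ hρ hR hpN hpo hNF hNρ hNc hQF hQR
    hQc => ?_⟩
  have key := H 1 F F x₀ ρ R p η N Q (by decide)
    ⟨hF, hcc, Subset.rfl, cfg_ne hη, fun x hx _ => (Co_subset hx).1⟩
    (fun z _ => by rcases hη z with h1 | h1 <;> rw [h1] <;> norm_num)
    (fun z _ x _ _ _ => by rcases hη z with h1 | h1 <;> rw [h1] <;> norm_num) hx₀ hρ hR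
    (by obtain ⟨o, ho, hpo⟩ := hpo; exact ⟨hNF hpN, o, hpo, ho⟩) hpN hNF
    (fun x hx => mem_bx_iff.2 (hNρ x hx)) hNc hQF ?_ hQc
  · refine (Pr_mono fun g hg hb => ?_).trans key
    obtain ⟨x, hx, y, hy, hxy⟩ := hb
    refine ⟨x, hx, y, hy, hxy.mono ?_⟩
    rintro u ⟨hu1, hu2⟩
    refine ⟨hu1, fun h1 => ?_⟩
    have h2 : g u ≤ 1 := (Wdn_subset h1).2
    have h3 : 3 ≤ g u := hu2
    omega
  · rw [Set.disjoint_left]
    intro x hx hxC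
    have h1 := mem_bx_iff.1 (Co_subset hxC).2
    have h2 := hQR x hx
    omega

/-- A path meets `Q` or avoids it. -/
theorem conn_meet {W Q : Set Pt} {a b : Pt} (h : Conn W a b) :
    Conn (W \ Q) a b ∨ ∃ y ∈ Q, Conn W a y := by
  by_cases ha : a ∈ Q
  · exact Or.inr ⟨a, ha, Conn.refl h.left_mem⟩
  · refine Conn.ind (S := W) (fun v => Conn (W \ Q) a v ∨ ∃ y ∈ Q, Conn W a y)
      (Or.inl (Conn.refl ⟨h.left_mem, ha⟩)) ?_ h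
    rintro u v hu huv hv (ih | ih)
    · by_cases hvQ : v ∈ Q
      · exact Or.inr ⟨v, hvQ, hu.tail huv hv⟩
      · exact Or.inl (ih.tail huv ⟨hv, hvQ⟩)
    · exact Or.inr ih

/-- The crosscuts which bound the second step: `Q₃` between `Vi` and the annulus, `Q₄` between the
annulus and `Vo`. -/
structure Cuts (F Vi Vo : Set Pt) (x₀ : Pt) (ρ R : ℤ) (t ρ₀ ρ₁ R₁ ρ₂ R₂ : ℤ) (Q₃ Q₄ : Set Pt)
    (p₄ : Pt) : Prop where
  r₁ : ρ₀ ≤ ρ₁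
  t₁ : t * ρ₁ ≤ R₁
  i₁ : ∀ x ∈ Vi, ds x₀ x ≤ ρ₁
  sub₃ : Q₃ ⊆ F
  out₃ : ∀ x ∈ Q₃, R₁ < ds x₀ x
  cn₃ : ∀ x ∈ Q₃, ∀ y ∈ Q₃, Conn Q₃ x y
  cut₃ : ∀ a ∈ Vi, ∀ w, ρ - 1 ≤ ds x₀ w → ¬ Conn (F \ Q₃) a w
  r₂ : ρ₀ ≤ ρ₂
  t₂ : t * ρ₂ ≤ R₂
  o₂ : ∀ x ∈ Vo, R₂ < ds x₀ x
  sub₄ : Q₄ ⊆ F
  pin₄ : p₄ ∈ Q₄
  pno₄ : ∃ o, o ∉ F ∧ Adj p₄ o
  inn₄ : ∀ x ∈ Q₄, ds x₀ x ≤ ρ₂
  cn₄ : ∀ x ∈ Q₄, Conn Q₄ p₄ x
  cut₄ : ∀ a ∈ Vo, ∀ w, ds x₀ w ≤ R + 1 → ¬ Conn (F \ Q₄) a w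

theorem good_compl (hS : S_land (0 + 2)) : ∀ ε : ℝ, 0 < ε → ∃ t : ℤ, 1 ≤ t ∧ ∃ ρ₀ : ℤ, 1 ≤ ρ₀ ∧
    ∀ (F Vi Vo : Set Pt) (η : Hg) (x₀ p : Pt) (ρ R : ℤ), Geo F Vi Vo η x₀ p ρ R →
      ∀ (ρ₁ R₁ ρ₂ R₂ : ℤ) (Q₃ Q₄ : Set Pt) (p₄ : Pt),
      Cuts F Vi Vo x₀ ρ R t ρ₀ ρ₁ R₁ ρ₂ R₂ Q₃ Q₄ p₄ →
      Pr (Cfg F (exa F η)) (Gd F (Vi ∪ Vo) η x₀ ρ R)ᶜ ≤ ε := by
  intro ε hε
  obtain ⟨t, ht, ρ₀, hρ₀, H⟩ := cross3 hS (ε / 2) (by linarith)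
  refine ⟨t, ht, ρ₀, hρ₀, fun F Vi Vo η x₀ p ρ R G ρ₁ R₁ ρ₂ R₂ Q₃ Q₄ p₄ C => ?_⟩
  have k1 := H F η x₀ p ρ₁ R₁ Vi Q₃ G.fin G.cc G.pm G.ctr C.r₁ C.t₁ G.pin G.pno G.subi C.i₁ G.cni
    C.sub₃ C.out₃ C.cn₃
  have k2 := H F η x₀ p₄ ρ₂ R₂ Q₄ Vo G.fin G.cc G.pm G.ctr C.r₂ C.t₂ C.pin₄ C.pno₄ C.sub₄ C.inn₄
    C.cn₄ G.subo C.o₂ G.cno
  refine (Pr_mono (B := {h | ∃ x ∈ Vi, ∃ y ∈ Q₃, Conn (F ∩ up h 3) x y} ∪
    {h | ∃ x ∈ Q₄, ∃ y ∈ Vo, Conn (F ∩ up h 3) x y}) fun h hh hg => ?_).trans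
    ((Pr_union_le _ _ _).trans (by linarith))
  have hg' : ∃ x ∈ UB F (Vi ∪ Vo) η h, ρ < ds x₀ x ∧ ds x₀ x ≤ R := by
    by_contra hcon
    push Not at hcon
    refine hg fun x hx => ?_
    rcases le_or_gt (ds x₀ x) ρ with h1 | h1
    · exact Or.inl h1
    · exact Or.inr (hcon x hx h1)
  obtain ⟨x, hx, hx1, hx2⟩ := hg'
  have hxZ : x ∉ Vi ∪ Vo := G.notZ (by omega) (by omega)
  obtain ⟨z, w, hz, hzw, hw1, hw2⟩ : ∃ z w, z ∈ Vi ∪ Vo ∧ Conn (F ∩ up h 3) z w ∧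
      ρ - 1 ≤ ds x₀ w ∧ ds x₀ w ≤ R + 1 := by
    have hs : VV F (Vi ∪ Vo) η h ∩ up h 3 ⊆ F ∩ up h 3 := fun u hu => ⟨hu.1.1, hu.2⟩
    rcases hx with (h1 | ⟨z, hz, hzx⟩) | ⟨hxV, w, hw, hw3, hwx⟩
    · exact absurd h1 hxZ
    · exact ⟨z, x, hz, hzx.mono hs, by omega, by omega⟩
    · have h1 := ds_adj (x₀ := x₀) hwx
      rw [abs_le] at h1
      rcases hw with h2 | ⟨z, hz, hzw⟩
      · exact absurd h2 (G.notZ (by omega) (by omega))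
      · exact ⟨z, w, hz, hzw.mono hs, by omega, by omega⟩
  rcases hz with hz | hz
  · left
    rcases conn_meet (Q := Q₃) hzw with h1 | ⟨y, hy, h1⟩
    · exact absurd (Conn.mono (T := F \ Q₃) (fun u hu => ⟨hu.1.1, hu.2⟩) h1) (C.cut₃ z hz w hw1)
    · exact ⟨z, hz, y, hy, h1⟩
  · right
    rcases conn_meet (Q := Q₄) hzw with h1 | ⟨y, hy, h1⟩
    · exact absurd (Conn.mono (T := F \ Q₄) (fun u hu => ⟨hu.1.1, hu.2⟩) h1) (C.cut₄ z hz w hw2)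
    · exact ⟨y, hy, z, hz, h1.symm⟩

/-- **The bound for a crossing which is not attached.** -/
theorem bad_le (hS : S_land (0 + 2)) : ∀ ε : ℝ, 0 < ε → ∃ t : ℤ, 1 ≤ t ∧ ∃ ρ₀ : ℤ, 1 ≤ ρ₀ ∧
    ∀ (F Vi Vo : Set Pt) (η : Hg) (x₀ p : Pt) (ρ R : ℤ), Geo F Vi Vo η x₀ p ρ R → ρ₀ ≤ ρ →
      t * ρ ≤ R → ∀ (ρ₁ R₁ ρ₂ R₂ : ℤ) (Q₃ Q₄ : Set Pt) (p₄ : Pt),
      Cuts F Vi Vo x₀ ρ R t ρ₀ ρ₁ R₁ ρ₂ R₂ Q₃ Q₄ p₄ →
      Pr (Cfg F (exa F η)) (Bad F Vi Vo η) ≤ ε := by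
  intro ε hε
  obtain ⟨t₁, ht₁, ρ₁, hρ₁, H₁⟩ := bad_good hS (ε / 2) (by linarith)
  obtain ⟨t₂, ht₂, ρ₂, hρ₂, H₂⟩ := good_compl hS (ε / 2) (by linarith)
  refine ⟨max t₁ t₂, le_max_of_le_left ht₁, max ρ₁ ρ₂, le_max_of_le_left hρ₁,
    fun F Vi Vo η x₀ p ρ R G hρ hR a b c d Q₃ Q₄ p₄ C => ?_⟩
  have hρ1 : ρ₁ ≤ ρ := le_trans (le_max_left _ _) hρ
  have hmul : ∀ s : ℤ, max ρ₁ ρ₂ ≤ s → t₁ * s ≤ max t₁ t₂ * s ∧ t₂ * s ≤ max t₁ t₂ * s := by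
    intro s hs
    have h0 : 0 ≤ s := by
      have := le_max_left ρ₁ ρ₂
      omega
    exact ⟨mul_le_mul_of_nonneg_right (le_max_left _ _) h0,
      mul_le_mul_of_nonneg_right (le_max_right _ _) h0⟩
  have k1 := H₁ F Vi Vo η x₀ p ρ R G hρ1 ((hmul ρ hρ).1.trans hR)
  have k2 := H₂ F Vi Vo η x₀ p ρ R G a b c d Q₃ Q₄ p₄
    { C with
      r₁ := le_trans (le_max_right _ _) C.r₁
      t₁ := (hmul a C.r₁).2.trans C.t₁
      r₂ := le_trans (le_max_right _ _) C.r₂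
      t₂ := (hmul c C.r₂).2.trans C.t₂ }
  refine (Pr_mono (B := (Gd F (Vi ∪ Vo) η x₀ ρ R ∩ Bad F Vi Vo η) ∪
    (Gd F (Vi ∪ Vo) η x₀ ρ R)ᶜ) fun h _ hb => ?_).trans ((Pr_union_le _ _ _).trans (by linarith))
  by_cases h1 : h ∈ Gd F (Vi ∪ Vo) η x₀ ρ R
  · exact Or.inl ⟨h1, hb⟩
  · exact Or.inr h1

/-- The mirror of `Bad`: a negative crossing which is not attached to a wall with the value `-1`. -/
def BadM (F Vi Vo : Set Pt) (η : Hg) : Set Hg :=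
  {h | aff (-1) 0 h ∈ Bad F Vi Vo (aff (-1) 0 η)}

/-- **The bound for the mirror.** -/
theorem badM_le (hS : S_land (0 + 2)) : ∀ ε : ℝ, 0 < ε → ∃ t : ℤ, 1 ≤ t ∧ ∃ ρ₀ : ℤ, 1 ≤ ρ₀ ∧
    ∀ (F Vi Vo : Set Pt) (η : Hg) (x₀ p : Pt) (ρ R : ℤ), Geo F Vi Vo η x₀ p ρ R → ρ₀ ≤ ρ →
      t * ρ ≤ R → ∀ (ρ₁ R₁ ρ₂ R₂ : ℤ) (Q₃ Q₄ : Set Pt) (p₄ : Pt),
      Cuts F Vi Vo x₀ ρ R t ρ₀ ρ₁ R₁ ρ₂ R₂ Q₃ Q₄ p₄ →
      Pr (Cfg F (exa F η)) (BadM F Vi Vo η) ≤ ε := by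
  intro ε hε
  obtain ⟨t, ht, ρ₀, hρ₀, H⟩ := bad_le hS ε hε
  refine ⟨t, ht, ρ₀, hρ₀, fun F Vi Vo η x₀ p ρ R G hρ hR a b c d Q₃ Q₄ p₄ C => ?_⟩
  have key := H F Vi Vo (aff (-1) 0 η) x₀ p ρ R { G with pm := fun x => ?_ } hρ hR a b c d Q₃ Q₄
    p₄ C
  · rw [Pr_aff (c := 0) (Or.inr rfl) ⟨0, rfl⟩ G.fin] at key
    exact key
  · unfold aff
    rcases G.pm x with h1 | h1 <;> rw [h1] <;> norm_num

end Vale.Agent.P153.R2.SLEX
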