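import Vale.Agent.P153.R2.LOC.Mult
import Vale.Agent.P153.R2.PLAN.Ring
import Vale.Agent.P153.R2.PLAN.Box
import Vale.Agent.P153.R2.MULT.Gen

/-!
# P153-R2, block SLEX: exploration of the components of `{h ≤ c}` next to a set of vertices

`Dx A T c h`: the components of `A ∩ {h ≤ c}` next to `T`; `Tx A T c h`: the vertices revealed by
their exploration.
-/

namespace Vale.Agent.P153.R2.SLEX

open Set Relation
open Vale.Agent.P153
open Vale.Agent.P153.Topo (Conn)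
open Vale.Agent.P153.R2

/-- The vertices next to `T`. -/
def Nx (T : Set Pt) : Set Pt := {u | ∃ v ∈ T, Adj v u}

/-- The components of `A ∩ {h ≤ c}` next to `T`. -/
def Dx (A T : Set Pt) (c : ℤ) (h : Hg) : Set Pt := Cl (A ∩ dn h c) (Nx T)

/-- The revealed vertices. -/
def Tx (A T : Set Pt) (c : ℤ) (h : Hg) : Set Pt :=
  {x | x ∈ A ∧ (x ∈ Nx T ∨ x ∈ Dx A T c h ∨ x ∈ Nx (Dx A T c h))}

variable {A T T' : Set Pt} {c c' : ℤ} {g h : Hg} {x y u z : Pt}

theorem conn_closed {S T : Set Pt} (h : Conn S x y) (hx : x ∈ T)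
    (hT : ∀ a b, a ∈ T → a ∈ S → b ∈ S → Adj a b → b ∈ T) : Conn (S ∩ T) x y := by
  refine Conn.ind (S := S) (fun z => Conn (S ∩ T) x z) (Conn.refl ⟨h.left_mem, hx⟩) ?_ h
  intro a b _ hab hb ih
  exact ih.tail hab ⟨hb, hT a b ih.right_mem.2 ih.right_mem.1 hb hab⟩

theorem Dx_sub : Dx A T c h ⊆ A ∩ dn h c := by
  rintro x ⟨u, _, h1⟩
  exact h1.right_mem

theorem Dx_sub_Tx : Dx A T c h ⊆ Tx A T c h := fun _ hx => ⟨(Dx_sub hx).1, Or.inr (Or.inl hx)⟩

theorem Tx_sub : Tx A T c h ⊆ A := fun _ hx => hx.1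

theorem Dx_adj (hx : x ∈ Dx A T c h) (hxy : Adj x y) (hy : y ∈ A) (hyc : h y ≤ c) :
    y ∈ Dx A T c h := by
  obtain ⟨u, hu, h1⟩ := hx
  exact ⟨u, hu, h1.tail hxy ⟨hy, hyc⟩⟩

theorem Tx_adj (hx : x ∈ Dx A T c h) (hxy : Adj x y) (hy : y ∈ A) : y ∈ Tx A T c h :=
  ⟨hy, Or.inr (Or.inr ⟨x, hx, hxy⟩)⟩

theorem Tx_nx (hx : x ∈ A) (hT : x ∈ Nx T) : x ∈ Tx A T c h := ⟨hx, Or.inl hT⟩

theorem Dx_nx (hx : x ∈ A) (hT : x ∈ Nx T) (hc : h x ≤ c) : x ∈ Dx A T c h :=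
  ⟨x, hT, Conn.refl ⟨hx, hc⟩⟩

/-- The revealed vertices off the components have heights larger than `c`. -/
theorem lt_of_Tx (hx : x ∈ Tx A T c h) (hx' : x ∉ Dx A T c h) : c < h x := by
  by_contra hc
  push Not at hc
  rcases hx with ⟨hA, h1 | h1 | ⟨v, hv, hvx⟩⟩
  · exact hx' (Dx_nx hA h1 hc)
  · exact hx' h1
  · exact hx' (Dx_adj hv hvx hA hc)

/-- Connections from `Nx T` in `A ∩ {h ≤ c}` are determined by the revealed heights. -/
theorem conn_of_eq (hgh : ∀ x ∈ Tx A T c h, g x = h x) (hu : u ∈ Nx T)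
    (hc : Conn (A ∩ dn h c) u z) : Conn (A ∩ dn g c) u z := by
  have hu' : u ∈ Dx A T c h := ⟨u, hu, Conn.refl hc.left_mem⟩
  refine (conn_closed (T := Dx A T c h) hc hu' fun a b ha _ hb hab => ?_).mono ?_
  · exact Dx_adj ha hab hb.1 hb.2
  · rintro w ⟨hw, hw'⟩
    refine ⟨hw.1, ?_⟩
    show g w ≤ c
    rw [hgh w (Dx_sub_Tx hw')]
    exact hw.2

theorem conn_of_eq' (hgh : ∀ x ∈ Tx A T c h, g x = h x) (hu : u ∈ Nx T)
    (hc : Conn (A ∩ dn g c) u z) : Conn (A ∩ dn h c) u z := by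
  have hu' : u ∈ Dx A T c h := by
    refine Dx_nx hc.left_mem.1 hu ?_
    rw [← hgh u (Tx_nx hc.left_mem.1 hu)]
    exact hc.left_mem.2
  have key : z ∈ Dx A T c h ∧ Conn (A ∩ dn h c) u z := by
    refine Conn.ind (S := A ∩ dn g c) (fun w => w ∈ Dx A T c h ∧ Conn (A ∩ dn h c) u w)
      ⟨hu', Conn.refl (Dx_sub hu')⟩ ?_ hc
    rintro a b _ hab hb ⟨ha, ha'⟩
    have hbc : h b ≤ c := by
      rw [← hgh b (Tx_adj ha hab hb.1)]
      exact hb.2
    exact ⟨Dx_adj ha hab hb.1 hbc, ha'.tail hab ⟨hb.1, hbc⟩⟩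
  exact key.2

theorem conn_iff (hgh : ∀ x ∈ Tx A T c h, g x = h x) (hu : u ∈ Nx T) :
    Conn (A ∩ dn g c) u z ↔ Conn (A ∩ dn h c) u z :=
  ⟨conn_of_eq' hgh hu, conn_of_eq hgh hu⟩

theorem Dx_of_eq (hgh : ∀ x ∈ Tx A T c h, g x = h x) : Dx A T c g = Dx A T c h := by
  ext x
  constructor
  · rintro ⟨u, hu, h1⟩
    exact ⟨u, hu, conn_of_eq' hgh hu h1⟩
  · rintro ⟨u, hu, h1⟩
    exact ⟨u, hu, conn_of_eq hgh hu h1⟩

theorem Tx_of_eq (hgh : ∀ x ∈ Tx A T c h, g x = h x) : Tx A T c g = Tx A T c h := by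
  unfold Tx
  rw [Dx_of_eq hgh]

/-- Two successive explorations. -/
def X2 (A T : Set Pt) (c : ℤ) (T' : Set Pt) (c' : ℤ) (h : Hg) : Set Pt :=
  Tx A T c h ∪ Tx (A \ Tx A T c h) T' c' h

theorem X2_of_eq (hgh : ∀ x ∈ X2 A T c T' c' h, g x = h x) :
    Tx A T c g = Tx A T c h ∧ X2 A T c T' c' g = X2 A T c T' c' h := by
  have h1 : Tx A T c g = Tx A T c h := Tx_of_eq fun x hx => hgh x (Or.inl hx)
  refine ⟨h1, ?_⟩
  unfold X2
  rw [h1, Tx_of_eq fun x hx => hgh x (Or.inr hx)]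

theorem X2_sub : X2 A T c T' c' h ⊆ A := by
  rintro x (hx | hx)
  · exact hx.1
  · exact hx.1.1

open Classical in
/-- The revealed information. -/
noncomputable def rv (A : Set Pt) (X : Hg → Set Pt) (h : Hg) : Hg :=
  fun x => if x ∈ X h ∨ x ∉ A then h x else 0

/-- Equality of the revealed information. -/
theorem rv_eq_iff {X : Hg → Set Pt} (hX : ∀ g h : Hg, (∀ x ∈ X h, g x = h x) → X g = X h)
    (ho : ∀ x, Odd (h x)) :
    rv A X g = rv A X h ↔ ∀ x, (x ∈ X h ∨ x ∉ A) → g x = h x := by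
  classical
  constructor
  · intro he x hx
    have h1 := congrFun he x
    unfold rv at h1
    rw [if_pos hx] at h1
    split_ifs at h1 with h2
    · exact h1
    · exfalso
      have := ho x
      rw [← h1] at this
      simp at this
  · intro he
    have h1 := hX g h fun x hx => he x (Or.inl hx)
    funext x
    unfold rv
    rw [h1]
    split_ifs with h2
    · exact he x h2
    · rfl

/-- The fibre of the revealed information. -/
theorem fib_rv {F : Set Pt} {η : Hg} {X : Hg → Set Pt}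
    (hX : ∀ g h : Hg, (∀ x ∈ X h, g x = h x) → X g = X h) (hA : A ⊆ F)
    (hh : h ∈ Cfg F (exa F η)) :
    Cfg F (exa F η) ∩ {g | rv A X g = rv A X h} = Cfg (A \ X h) (exa (A \ X h) h) := by
  have e1 : Cfg F (exa F η) ∩ {g | rv A X g = rv A X h} =
      Cfg F (exa F η) ∩ {g | ∀ x, x ∉ A \ X h → g x = h x} := by
    ext g
    refine and_congr_right fun hg => ?_
    rw [mem_ofPred_eq, mem_ofPred_eq, rv_eq_iff hX hh.1]
    refine forall_congr' fun x => ?_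
    simp only [mem_sdiff, not_and, not_not]
    constructor
    · intro h1 h2
      by_cases h3 : x ∈ A
      · exact h1 (Or.inl (h2 h3))
      · exact h1 (Or.inr h3)
    · rintro h1 (h2 | h2)
      · exact h1 fun _ => h2
      · exact h1 fun h3 => absurd h3 h2
  rw [e1, Cfg_agree hh (sdiff_subset.trans hA)]
  congr 1
  funext x
  unfold exa
  by_cases hx : x ∈ A \ X h
  · rw [if_pos hx, if_pos hx, if_pos (hA hx.1)]
  · rw [if_neg hx, if_neg hx]

end Vale.Agent.P153.R2.SLEX
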