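import Vale.Agent.P153.R2.SLEX.Expl

/-!
# P153-R2, block SLEX: the round on the boundary of a box
-/

namespace Vale.Agent.P153.R2.SLEX

open Set Relation
open Vale.Agent.P153
open Vale.Agent.P153.Topo (Conn adj_symm)
open Vale.Agent.P153.R2
open Vale.Agent.P153.R2.PLAN (Ring rnd rnd2 rnd_step rnd_end rnd_mem exists_rnd rnd2_low rnd2_step)

theorem rnd_inj {a b : ℤ} {n k k' : ℕ} (hk : k < 4 * n) (hk' : k' < 4 * n)
    (h : rnd a b n k = rnd a b n k') : k = k' := by
  unfold rnd at h
  split_ifs at h <;> rw [Prod.mk.injEq] at h <;> omega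

/-- The vertices of the boundary of the box, in cyclic order (starting next to a corner). -/
def vr (y : Pt) (r l : ℕ) : Pt := rnd (y.1 - r) (y.2 - r) (2 * r) (l + 1)

variable {y z : Pt} {r l l' : ℕ}

theorem vr_mem (hr : 0 < r) (hl : l < 8 * r) : vr y r l ∈ Ring y r := rnd_mem hr (by omega)

theorem vr_step (hl : l + 1 < 8 * r) : Adj (vr y r l) (vr y r (l + 1)) := rnd_step (by omega)

theorem vr_inj (hl : l < 8 * r) (hl' : l' < 8 * r) (h : vr y r l = vr y r l') : l = l' := by
  unfold vr at h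
  by_cases h1 : l + 1 = 8 * r
  · by_cases h2 : l' + 1 = 8 * r
    · omega
    · rw [show l + 1 = 4 * (2 * r) by omega, rnd_end _ _ (by omega)] at h
      have := rnd_inj (by omega) (by omega) h
      omega
  · by_cases h2 : l' + 1 = 8 * r
    · rw [show l' + 1 = 4 * (2 * r) by omega, rnd_end _ _ (by omega)] at h
      have := rnd_inj (by omega) (by omega) h
      omega
    · have := rnd_inj (by omega) (by omega) h
      omega

theorem exists_vr (hr : 0 < r) (hz : z ∈ Ring y r) : ∃ l, l < 8 * r ∧ vr y r l = z := by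
  obtain ⟨k, hk, rfl⟩ := exists_rnd hr hz
  rcases Nat.eq_zero_or_pos k with rfl | h
  · refine ⟨8 * r - 1, by omega, ?_⟩
    unfold vr
    rw [show 8 * r - 1 + 1 = 4 * (2 * r) by omega, rnd_end _ _ (by omega)]
  · refine ⟨k - 1, by omega, ?_⟩
    unfold vr
    rw [Nat.sub_add_cancel h]

theorem vr_zero (hr : 0 < r) : Adj (vr y r 0) (y.1 - r + 1, y.2 - r + 1) := by
  unfold vr rnd
  rw [if_pos (by omega), Topo.adj_iff]
  push_cast
  simp

/-- The round from `k₀ + 1` on misses the vertex `k₀`. -/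
theorem ring_erase {w₀ : Pt} (hr : 0 < r) (hw : w₀ ∈ Ring y r) :
    ∃ q, q ∈ Ring y r ∧ q ≠ w₀ ∧ Adj q w₀ ∧
      ∀ x ∈ Ring y r, x ≠ w₀ → Conn (Ring y r \ {w₀}) q x := by
  obtain ⟨k₀, hk₀, rfl⟩ := exists_rnd hr hw
  set f : ℕ → Pt := rnd2 (y.1 - r) (y.2 - r) (2 * r) with hf
  have f0 : f k₀ = rnd (y.1 - r) (y.2 - r) (2 * r) k₀ := rnd2_low (by omega) (by omega)
  have fne : ∀ k, k₀ < k → k < k₀ + 4 * (2 * r) → f k ≠ rnd (y.1 - r) (y.2 - r) (2 * r) k₀ := by
    intro k h1 h2 he
    rw [hf] at he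
    unfold rnd2 at he
    split_ifs at he with h3
    · have := rnd_inj h3 hk₀ he
      omega
    · have := rnd_inj (by omega) hk₀ he
      omega
  have fm : ∀ k, k < 8 * (2 * r) → f k ∈ Ring y r := by
    intro k h1
    rw [hf]
    unfold rnd2
    split_ifs with h3
    · exact rnd_mem hr (by omega)
    · exact rnd_mem hr (by omega)
  have key : ∀ m : ℕ, m + 1 < 4 * (2 * r) →
      Conn (Ring y r \ {rnd (y.1 - r) (y.2 - r) (2 * r) k₀}) (f (k₀ + 1)) (f (k₀ + 1 + m)) := by
    intro m
    induction m with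
    | zero =>
      intro h
      exact Conn.refl ⟨fm _ (by omega), fne _ (by omega) (by omega)⟩
    | succ m ih =>
      intro h
      refine (ih (by omega)).tail ?_ ⟨fm _ (by omega), fne _ (by omega) (by omega)⟩
      exact rnd2_step (by omega) (by omega)
  refine ⟨f (k₀ + 1), fm _ (by omega), fne _ (by omega) (by omega), ?_, ?_⟩
  · rw [← f0]
    exact adj_symm (rnd2_step (by omega) (by omega))
  · intro x hx hne
    obtain ⟨k, hk, rfl⟩ := exists_rnd hr hx
    rcases lt_trichotomy k k₀ with h1 | h1 | h1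
    · have h2 := key (k + 4 * (2 * r) - (k₀ + 1)) (by omega)
      rw [show k₀ + 1 + (k + 4 * (2 * r) - (k₀ + 1)) = k + 4 * (2 * r) by omega] at h2
      have h3 : f (k + 4 * (2 * r)) = rnd (y.1 - r) (y.2 - r) (2 * r) k := PLAN.rnd2_high
      rwa [h3] at h2
    · exact absurd (by rw [h1]) hne
    · have h2 := key (k - (k₀ + 1)) (by omega)
      rw [show k₀ + 1 + (k - (k₀ + 1)) = k by omega] at h2
      have h3 : f k = rnd (y.1 - r) (y.2 - r) (2 * r) k := rnd2_low (by omega) (by omega)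
      rwa [h3] at h2

/-- Vertices with index between `i + 1` and `M` are joined. -/
theorem vr_conn {S : Set Pt} {i m : ℕ} (hm : i + m < 8 * r)
    (hS : ∀ l, i ≤ l → l ≤ i + m → vr y r l ∈ S) : Conn S (vr y r i) (vr y r (i + m)) := by
  induction m with
  | zero => exact Conn.refl (hS _ le_rfl (by omega))
  | succ m ih =>
    refine (ih (by omega) fun l h1 h2 => hS l h1 (by omega)).tail ?_ (hS _ (by omega) (by omega))
    exact vr_step (by omega)

theorem vr_conn' {S : Set Pt} {i l : ℕ} (hil : i ≤ l) (hl : l < 8 * r)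
    (hS : ∀ k, i ≤ k → k ≤ l → vr y r k ∈ S) : Conn S (vr y r i) (vr y r l) := by
  have := vr_conn (y := y) (r := r) (S := S) (i := i) (m := l - i) (by omega)
    fun k h1 h2 => hS k h1 (by omega)
  rwa [show i + (l - i) = l by omega] at this

end Vale.Agent.P153.R2.SLEX
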