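import Vale.Agent.P153.R2.SLEX.Geo

/-!
# P153-R2, block SLEX: no further crossing component, with probability bounded below
-/

namespace Vale.Agent.P153.R2.SLEX

open Set Relation
open Vale.Agent.P153
open Vale.Agent.P153.Topo (Conn adj_symm)
open Vale.Agent.P153.R2
open Vale.Agent.P153.R2.LOC (An Blk NO SepA)
open Vale.Agent.P153.R2.PLAN (Ring)
open scoped Classical

/-- The first vertices of the round. -/
def Ti (y : Pt) (r i : ℕ) : Set Pt := {v | ∃ l ≤ i, v = vr y r l}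

/-- The component of `A ∩ {h ≤ -1}` next to `vr l`, and next to `O`, discovered at the index `l`. -/
def Dsc (A O : Set Pt) (y : Pt) (r : ℕ) (h : Hg) (l : ℕ) : Prop :=
  ∃ u, Adj (vr y r l) u ∧ (∃ z ∈ Nx O, Conn (A ∩ dn h (-1)) u z) ∧
    ∀ l' < l, ∀ u', Adj (vr y r l') u' → ¬ Conn (A ∩ dn h (-1)) u u'

variable {A O T : Set Pt} {y z w w₀ x : Pt} {r i l : ℕ} {R K c₂ : ℤ} {g h : Hg} {F : Set Pt}
  {η : Hg} {j : ℕ} {α : ℝ}

theorem Dsc_of_eq (hl : l ≤ i) (hgh : ∀ x ∈ Tx A (Ti y r i) (-1) h, g x = h x) :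
    Dsc A O y r g l ↔ Dsc A O y r h l := by
  have hn : ∀ k ≤ l, ∀ u, Adj (vr y r k) u → u ∈ Nx (Ti y r i) := fun k hk u hu =>
    ⟨_, ⟨k, by omega, rfl⟩, hu⟩
  constructor
  · rintro ⟨u, hu, ⟨z, hz, h1⟩, h2⟩
    exact ⟨u, hu, ⟨z, hz, conn_of_eq' hgh (hn l le_rfl u hu) h1⟩, fun l' hl' u' hu' h3 =>
      h2 l' hl' u' hu' (conn_of_eq hgh (hn l le_rfl u hu) h3)⟩
  · rintro ⟨u, hu, ⟨z, hz, h1⟩, h2⟩
    exact ⟨u, hu, ⟨z, hz, conn_of_eq hgh (hn l le_rfl u hu) h1⟩, fun l' hl' u' hu' h3 =>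
      h2 l' hl' u' hu' (conn_of_eq' hgh (hn l le_rfl u hu) h3)⟩

theorem exists_out (hR : 0 ≤ R) (hw : w ∈ Ring y R) : ∃ o, o ∉ bx y R ∧ Adj w o := by
  obtain ⟨h1, h2, h3⟩ := hw
  simp only [bx, mem_ofPred_eq]
  rcases h3 with h3 | h3
  · rcases abs_eq hR |>.1 h3 with h4 | h4
    · refine ⟨(w.1 + 1, w.2), fun h5 => ?_, by rw [Topo.adj_iff]; simp⟩
      rw [abs_le] at h5
      dsimp only at h5
      omega
    · refine ⟨(w.1 - 1, w.2), fun h5 => ?_, by rw [Topo.adj_iff]; simp⟩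
      rw [abs_le] at h5
      dsimp only at h5
      omega
  · rcases abs_eq hR |>.1 h3 with h4 | h4
    · refine ⟨(w.1, w.2 + 1), fun h5 => ?_, by rw [Topo.adj_iff]; simp⟩
      rw [abs_le, abs_le] at h5
      dsimp only at h5
      omega
    · refine ⟨(w.1, w.2 - 1), fun h5 => ?_, by rw [Topo.adj_iff]; simp⟩
      rw [abs_le, abs_le] at h5
      dsimp only at h5
      omega

theorem mem_ring_succ (hz : z ∈ bx y R) (hw : w ∉ bx y R) (hzw : Adj z w) : w ∈ Ring y (R + 1) := by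
  rw [Topo.adj_iff] at hzw
  simp only [bx, mem_ofPred_eq, abs_le] at hz hw
  refine ⟨by rw [abs_le]; omega, by rw [abs_le]; omega, ?_⟩
  by_cases h1 : w.1 - y.1 = R + 1 ∨ w.1 - y.1 = -(R + 1)
  · left
    rcases h1 with h1 | h1
    · rw [h1, abs_of_nonneg (by omega)]
    · rw [h1, abs_neg, abs_of_nonneg (by omega)]
  · right
    have h2 : w.2 - y.2 = R + 1 ∨ w.2 - y.2 = -(R + 1) := by omega
    rcases h2 with h2 | h2
    · rw [h2, abs_of_nonneg (by omega)]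
    · rw [h2, abs_neg, abs_of_nonneg (by omega)]

/-- A vertex of the box next to the outside has two outer neighbours. -/
theorem exists_two (hz : z ∈ bx y R) (hw : w ∉ bx y R) (hzw : Adj z w) (w₀ : Pt) :
    ∃ w', w' ∈ Ring y (R + 1) ∧ Adj z w' ∧ w' ≠ w₀ := by
  have hz' : z ∈ Ring y R := PLAN.mem_ring_of_adj hz hw hzw
  have hR : 0 ≤ R := (abs_nonneg _).trans hz.1
  have key : ∀ w' : Pt, Adj z w' → w' ∉ bx y R → w' ∈ Ring y (R + 1) := fun w' h1 h2 =>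
    mem_ring_succ hz h2 h1
  have key2 : ∀ a b : Pt, Adj z a → a ∉ bx y R → Adj z b → b ∉ bx y R → a ≠ b →
      ∃ w', w' ∈ Ring y (R + 1) ∧ Adj z w' ∧ w' ≠ w₀ := by
    intro a b h1 h2 h3 h4 h5
    by_cases h6 : a = w₀
    · exact ⟨b, key b h3 h4, h3, fun h7 => h5 (h6.trans h7.symm)⟩
    · exact ⟨a, key a h1 h2, h1, h6⟩
  obtain ⟨h1, h2, h3⟩ := hz'
  rcases h3 with h3 | h3
  · rcases abs_eq hR |>.1 h3 with h4 | h4
    · refine key2 (z.1 + 1, z.2) (z.1 + 1, z.2 - 1) (by rw [Topo.adj_iff]; simp) ?_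
        (by rw [Topo.adj_iff]; simp) ?_ (fun he => by rw [Prod.mk.injEq] at he; omega) <;>
        simp only [bx, mem_ofPred_eq, abs_le] <;> omega
    · refine key2 (z.1 - 1, z.2) (z.1 - 1, z.2 + 1) (by rw [Topo.adj_iff]; simp) ?_
        (by rw [Topo.adj_iff]; simp) ?_ (fun he => by rw [Prod.mk.injEq] at he; omega) <;>
        simp only [bx, mem_ofPred_eq, abs_le] <;> omega
  · rcases abs_eq hR |>.1 h3 with h4 | h4
    · refine key2 (z.1, z.2 + 1) (z.1 - 1, z.2 + 1) (by rw [Topo.adj_iff]; simp) ?_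
        (by rw [Topo.adj_iff]; simp) ?_ (fun he => by rw [Prod.mk.injEq] at he; omega) <;>
        simp only [bx, mem_ofPred_eq, abs_le] <;> omega
    · refine key2 (z.1, z.2 - 1) (z.1 + 1, z.2 - 1) (by rw [Topo.adj_iff]; simp) ?_
        (by rw [Topo.adj_iff]; simp) ?_ (fun he => by rw [Prod.mk.injEq] at he; omega) <;>
        simp only [bx, mem_ofPred_eq, abs_le] <;> omega

/-- The domain after the exploration. -/
def Vx (y : Pt) (r : ℕ) (R : ℤ) (i : ℕ) (w₀ : Pt) (h : Hg) : Set Pt :=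
  An y (r - 1) (R + 1) \ (Tx (An y r R) (Ti y r i) (-1) h ∪ Ti y r i ∪ {w₀})

theorem ccV (hr : 1 ≤ r) (hi : i < 8 * r) (hR : 0 ≤ R) (hw : w₀ ∈ Ring y (R + 1))
    (hz : z ∈ Dx (An y r R) (Ti y r i) (-1) h) (hzw : Adj z w₀) : CC (Vx y r R i w₀ h) := by
  set A := An y r R with hA
  set V := Vx y r R i w₀ h with hV
  have hTx : ∀ x ∈ Tx A (Ti y r i) (-1) h, x ∈ Vᶜ := fun x hx h1 => h1.2 (Or.inl (Or.inl hx))
  have hTi : ∀ x ∈ Ti y r i, x ∈ Vᶜ := fun x hx h1 => h1.2 (Or.inl (Or.inr hx))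
  have hw0 : w₀ ∈ Vᶜ := fun h1 => h1.2 (Or.inr rfl)
  have s0 : bx y ((r : ℤ) - 1) ⊆ Vᶜ := fun v hv h1 => h1.1.2 hv
  have s1 : (bx y (R + 1))ᶜ ⊆ Vᶜ := fun v hv h1 => hv h1.1.1
  have b0 : ∀ x ∈ bx y ((r : ℤ) - 1), Conn Vᶜ x y := by
    intro x hx
    refine (PLAN.cn_bx y ((r : ℤ) - 1) x hx y ?_).mono s0
    simp only [bx, mem_ofPred_eq, sub_self, abs_zero]
    omega
  have b1 : ∀ v ∈ Ti y r i, Conn Vᶜ v y := by
    rintro v ⟨l, hl, rfl⟩
    have h1 : Conn Vᶜ (vr y r 0) (vr y r l) := vr_conn' (Nat.zero_le l) (by omega)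
      fun k _ hk => hTi _ ⟨k, by omega, rfl⟩
    have h2 : (y.1 - (r : ℤ) + 1, y.2 - (r : ℤ) + 1) ∈ bx y ((r : ℤ) - 1) := by
      simp only [bx, mem_ofPred_eq, abs_le]
      omega
    have h3 := b0 _ h2
    exact (h1.symm.tail (vr_zero (by omega)) h3.left_mem).trans h3
  have b1' : ∀ u ∈ Nx (Ti y r i), u ∈ Vᶜ → Conn Vᶜ u y := by
    rintro u ⟨v, hv, hvu⟩ hu
    exact (Conn.of_adj hu (hTi v hv) (adj_symm hvu)).trans (b1 v hv)
  have b2 : ∀ x ∈ Dx A (Ti y r i) (-1) h, Conn Vᶜ x y := by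
    rintro x ⟨u, hu, h1⟩
    have hu' : u ∈ Dx A (Ti y r i) (-1) h := ⟨u, hu, Conn.refl h1.left_mem⟩
    have h2 : Conn Vᶜ u x := (conn_closed (T := Dx A (Ti y r i) (-1) h) h1 hu'
      fun a b ha _ hb hab => Dx_adj ha hab hb.1 hb.2).mono fun v hv => hTx v (Dx_sub_Tx hv.2)
    exact h2.symm.trans (b1' u hu h2.left_mem)
  have b3 : ∀ x ∈ Tx A (Ti y r i) (-1) h, Conn Vᶜ x y := by
    intro x hx
    rcases hx.2 with h1 | h1 | ⟨d, hd, hdx⟩
    · exact b1' x h1 (hTx x hx)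
    · exact b2 x h1
    · exact (Conn.of_adj (hTx x hx) (b2 d hd).left_mem (adj_symm hdx)).trans (b2 d hd)
  have b4 : Conn Vᶜ w₀ y := (Conn.of_adj hw0 (b2 z hz).left_mem (adj_symm hzw)).trans (b2 z hz)
  obtain ⟨o, ho, hwo⟩ := exists_out (by omega) hw
  have b5 : ∀ x, x ∉ bx y (R + 1) → Conn Vᶜ x y := by
    intro x hx
    have h1 : Conn Vᶜ x o := (PLAN.cn_compl_bx y (R + 1) x hx o ho).mono s1
    exact (h1.tail (adj_symm hwo) hw0).trans b4
  have key : ∀ x, x ∉ V → Conn Vᶜ x y := by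
    intro x hx
    by_cases h1 : x ∈ bx y (R + 1)
    · by_cases h2 : x ∈ bx y (r - 1)
      · exact b0 x h2
      · have h3 : x ∈ Tx A (Ti y r i) (-1) h ∪ Ti y r i ∪ {w₀} := by
          by_contra h4
          exact hx ⟨⟨h1, h2⟩, h4⟩
        rcases h3 with (h3 | h3) | h3
        · exact b3 x h3
        · exact b1 x h3
        · rw [mem_singleton_iff] at h3
          rw [h3]
          exact b4
    · exact b5 x h1
  exact fun x x' hx hx' => (key x hx).trans (key x' hx').symm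

theorem exa_in {V : Set Pt} (h : x ∈ V) : exa V η x = univ := if_pos h
theorem exa_out {V : Set Pt} (h : x ∉ V) : exa V η x = {η x} := if_neg h

theorem abs_max_sub (a b c : ℤ) : |max a c - max b c| ≤ |a - b| := by
  rw [abs_le]
  have h1 := le_abs_self (a - b)
  have h2 := neg_abs_le (a - b)
  rcases le_total a c with h3 | h3 <;> rcases le_total b c with h4 | h4 <;>
    simp only [h3, h4, max_eq_left, max_eq_right] <;> omega

/-- The second set of starting points. -/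
def To (y : Pt) (r : ℕ) (R : ℤ) : Set Pt := bx y r ∪ (bx y R)ᶜ

/-- **One step.** -/
theorem one {N r₀ : ℤ}
    (hblk : ∀ (V : Set Pt) (I : Pt → Set ℤ) (x₀ : Pt) (r : ℤ) (p q : Pt), CC V → x₀ ∉ V → r₀ ≤ r →
      NO V p → NO V q → p ∈ bx x₀ r → q ∉ bx x₀ (N * r) → Blk j V (An x₀ r (N * r)) I →
      α ≤ Pr (Cfg V I) (SepA V (V ∩ An x₀ r (N * r)) 1 p q))
    (hr : 1 ≤ r) (hr₀ : r₀ ≤ 2 * (r : ℤ)) (hN : 1 ≤ N) (hRK : R = N * (2 * r) + 2 * r)
    (hF : F.Finite) (hFb : bx y (R + 1) ⊆ F)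
    (hh : h ∈ Cfg F (exa F η)) (hi : i + 1 < 8 * r)
    (hd : Dsc (An y r R) (bx y R)ᶜ y r h i)
    (hG : Disjoint (Tx (An y r R \ Tx (An y r R) (Ti y r i) (-1) h) (To y r R)
      (-(2 * (j : ℤ) + 1)) h) (An y (2 * r) (N * (2 * r)))) :
    α ≤ Pr (Cfg (An y r R \ X2 (An y r R) (Ti y r i) (-1) (To y r R) (-(2 * (j : ℤ) + 1)) h)
      (exa (An y r R \ X2 (An y r R) (Ti y r i) (-1) (To y r R) (-(2 * (j : ℤ) + 1)) h) h))
      {g | ∀ l, i < l → l < 8 * r → ¬ Dsc (An y r R) (bx y R)ᶜ y r g l} := by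
  obtain ⟨K, hK⟩ : ∃ K : ℤ, K = N * (2 * r) := ⟨_, rfl⟩
  have hK2 : 2 * (r : ℤ) ≤ K := by rw [hK]; nlinarith
  have hblk' := fun V I p q => hblk V I y (2 * r) p q
  rw [← hK] at hRK hG
  simp only [← hK] at hblk'
  have hR0 : 0 ≤ R := by omega
  set A := An y r R with hA
  set c₂ : ℤ := -(2 * (j : ℤ) + 1) with hc₂
  set X := X2 A (Ti y r i) (-1) (To y r R) c₂ h with hX
  set T₁ := Tx A (Ti y r i) (-1) h with hT₁
  set T₂ := Tx (A \ T₁) (To y r R) c₂ h with hT₂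
  have hXe : X = T₁ ∪ T₂ := rfl
  set W := A \ X with hW
  -- the crossing component
  obtain ⟨u, hu, ⟨z, ⟨w₀, hw₀, hzw⟩, huz⟩, _⟩ := hd
  have hzD : z ∈ Dx A (Ti y r i) (-1) h := ⟨u, ⟨_, ⟨i, le_rfl, rfl⟩, hu⟩, huz⟩
  have hzA : z ∈ A := huz.right_mem.1
  have hw₀R : w₀ ∈ Ring y (R + 1) := mem_ring_succ hzA.1 hw₀ (adj_symm hzw)
  set V := Vx y r R i w₀ h with hV
  have hcc : CC V := ccV hr (by omega) hR0 hw₀R hzD (adj_symm hzw)
  have hVF : V ⊆ F := fun x hx => hFb hx.1.1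
  have hVfin : V.Finite := hF.subset hVF
  have hAn : A ⊆ An y ((r : ℤ) - 1) (R + 1) := by
    rintro x ⟨h1, h2⟩
    refine ⟨PLAN.bx_mono (by omega) h1, fun h3 => h2 (PLAN.bx_mono (by omega) h3)⟩
  have hTiA : ∀ x ∈ A, x ∉ Ti y r i := by
    rintro x ⟨h1, h2⟩ ⟨l, hl, rfl⟩
    have := vr_mem (y := y) (show 0 < r by omega) (show l < 8 * r by omega)
    exact h2 ⟨this.1, this.2.1⟩
  have hwA : ∀ x ∈ A, x ≠ w₀ := by
    rintro x ⟨h1, h2⟩ rfl
    exact hw₀ h1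
  have hAV : ∀ x ∈ A, x ∉ T₁ → x ∈ V := by
    intro x hx hx1
    refine ⟨hAn hx, ?_⟩
    rintro ((h1 | h1) | h1)
    · exact hx1 h1
    · exact hTiA x hx h1
    · exact hwA x hx h1
  have hWV : W ⊆ V := fun x hx => hAV x hx.1 fun h1 => hx.2 (Or.inl h1)
  have hVT : ∀ x ∈ V, x ∉ T₁ := fun x hx h1 => hx.2 (Or.inl (Or.inl h1))
  set A' := An y (2 * r) K with hA'
  have hA'A : A' ⊆ A := by
    rintro x ⟨h1, h2⟩
    exact ⟨PLAN.bx_mono (by omega) h1, fun h3 => h2 (PLAN.bx_mono (by omega) h3)⟩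
  have hVA'W : V ∩ A' ⊆ W := by
    rintro x ⟨h1, h2⟩
    refine ⟨hA'A h2, ?_⟩
    rintro (h3 | h3)
    · exact hVT x h1 h3
    · exact Set.disjoint_left.1 hG h3 h2
  -- the data
  set g₀ : Hg := fun x => max (h x) c₂ with hg₀
  have hc₂o : Odd c₂ := by
    rw [hc₂]
    exact ⟨-(j : ℤ) - 1, by ring⟩
  have hg₀o : ∀ x, Odd (g₀ x) := by
    intro x
    rcases max_choice (h x) c₂ with h1 | h1
    · show Odd (max (h x) c₂)
      rw [h1]
      exact hh.1 x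
    · show Odd (max (h x) c₂)
      rw [h1]
      exact hc₂o
  have hg₀l : ∀ x ∈ F, ∀ x', Adj x x' → |g₀ x - g₀ x'| ≤ 2 := fun x hx x' hxx' =>
    (abs_max_sub _ _ _).trans (hh.2.2 x hx x' hxx')
  have hg₀c : ∀ x, c₂ ≤ g₀ x := fun x => le_max_right _ _
  -- heights next to `W`
  have hnb : ∀ x ∈ W, ∀ x', x' ∉ W → Adj x x' → c₂ ≤ h x' := by
    intro x hx x' hx' hxx'
    by_cases h1 : x' ∈ A
    · have h2 : x' ∈ X := by
        by_contra h2
        exact hx' ⟨h1, h2⟩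
      rcases h2 with h2 | h2
      · by_cases h3 : x' ∈ Dx A (Ti y r i) (-1) h
        · exact absurd (Or.inl (Tx_adj h3 (adj_symm hxx') hx.1)) hx.2
        · have := lt_of_Tx h2 h3
          omega
      · by_cases h3 : x' ∈ Dx (A \ T₁) (To y r R) c₂ h
        · exact absurd (Or.inr (Tx_adj h3 (adj_symm hxx') ⟨hx.1, fun h4 => hx.2 (Or.inl h4)⟩)) hx.2
        · exact (lt_of_Tx h2 h3).le
    · exfalso
      have h2 : x' ∈ To y r R := by
        by_cases h3 : x' ∈ bx y R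
        · left
          by_contra h4
          exact h1 ⟨h3, h4⟩
        · exact Or.inr h3
      exact hx.2 (Or.inr (Tx_nx ⟨hx.1, fun h4 => hx.2 (Or.inl h4)⟩ ⟨x', h2, adj_symm hxx'⟩))
  -- the block
  have hblk0 : Blk j V A' (exa W g₀) := by
    refine ⟨?_, ?_, ?_, ?_, ?_, ?_⟩
    · exact PLAN.Dat.of_sub hVfin fun x hx => by
        rw [exa_out fun h1 => hx (hWV h1)]
        exact subsingleton_singleton
    · refine ⟨g₀, hg₀o, fun x => ?_, fun x hx x' hxx' => hg₀l x (hVF hx) x' hxx'⟩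
      by_cases hx : x ∈ W
      · rw [exa_in hx]; trivial
      · rw [exa_out hx]; rfl
    · intro x hx hx'
      exact exa_in (hVA'W ⟨hx, hx'⟩)
    · intro x _
      by_cases hx : x ∈ W
      · left; exact exa_in hx
      · right
        rw [exa_out hx]
        rintro a rfl
        exact hg₀c x
    · intro x hx a ha
      rw [exa_out fun h1 => hx.1 (hWV h1)] at ha
      rw [mem_singleton_iff.1 ha]
      exact hg₀c x
    · rintro x ⟨hx, v, hv, hvx⟩ hxA'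
      rw [exa_out fun h1 => hx (hWV h1)]
      refine LOC.SLe_of_ge fun a ha => ?_
      rw [mem_singleton_iff.1 ha]
      have h1 : x ∈ T₁ := by
        by_contra h1
        exact hx (hAV x (hA'A hxA') h1)
      have h2 : x ∉ Dx A (Ti y r i) (-1) h := by
        intro h2
        have hvA : v ∈ A := by
          have h3 := Topo.adj_iff.1 hvx
          obtain ⟨h4, h5⟩ := hxA'
          simp only [bx, mem_ofPred_eq, abs_le] at h4 h5
          constructor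
          · simp only [bx, mem_ofPred_eq, abs_le]
            omega
          · simp only [bx, mem_ofPred_eq, abs_le]
            omega
        exact hVT v hv (Tx_adj h2 (adj_symm hvx) hvA)
      have h3 := lt_of_Tx h1 h2
      have h4 := hh.1 x
      have h5 : (1 : ℤ) ≤ h x := by
        rw [Int.odd_iff] at h4
        omega
      exact h5.trans (le_max_left _ _)
  -- the marked points
  obtain ⟨n, hn⟩ := Int.eq_ofNat_of_zero_le (show 0 ≤ R + 1 by omega)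
  have hw₀n : w₀ ∈ Ring y (n : ℤ) := by rw [← hn]; exact hw₀R
  obtain ⟨q, hqR, hqw, hqa, hqc⟩ := ring_erase (y := y) (r := n) (by omega) hw₀n
  rw [← hn] at hqR hqc
  have hringV : ∀ x ∈ Ring y (R + 1), x ≠ w₀ → x ∈ V ∧ x ∉ A' ∧ x ∉ A := by
    rintro x ⟨h1, h2, h3⟩ hne
    have hxR : x ∉ bx y R := by
      rintro ⟨h4, h5⟩
      rcases h3 with h3 | h3 <;> omega
    refine ⟨⟨⟨⟨h1, h2⟩, fun h4 => hxR (PLAN.bx_mono (by omega) h4)⟩, ?_⟩,
      fun h4 => hxR (PLAN.bx_mono (by omega) h4.1), fun h4 => hxR h4.1⟩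
    rintro ((h4 | h4) | h4)
    · exact hxR h4.1.1
    · obtain ⟨l, hl, rfl⟩ := h4
      have := vr_mem (y := y) (show 0 < r by omega) (show l < 8 * r by omega)
      exact hxR (PLAN.bx_mono (by omega) ⟨this.1, this.2.1⟩)
    · exact hne h4
  have hvrV : ∀ l, i < l → l < 8 * r → vr y r l ∈ V ∧ vr y r l ∉ A' ∧ vr y r l ∉ A := by
    intro l h1 h2
    have h3 := vr_mem (y := y) (show 0 < r by omega) h2
    have h4 : vr y r l ∈ bx y r := ⟨h3.1, h3.2.1⟩
    refine ⟨⟨⟨PLAN.bx_mono (by omega) h4, ?_⟩, ?_⟩, fun h5 => h5.2 (PLAN.bx_mono (by omega) h4),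
      fun h5 => h5.2 h4⟩
    · rintro ⟨h5, h6⟩
      rcases h3.2.2 with h7 | h7 <;> omega
    · rintro ((h5 | h5) | h5)
      · exact h5.1.2 h4
      · obtain ⟨k, hk, hk'⟩ := h5
        have := vr_inj h2 (by omega) hk'
        omega
      · rw [mem_singleton_iff] at h5
        rw [← h5] at hw₀
        exact hw₀ (PLAN.bx_mono (by omega) h4)
  have hpV := hvrV (i + 1) (by omega) hi
  have hp : NO V (vr y r (i + 1)) := by
    refine ⟨hpV.1, vr y r i, adj_symm (vr_step hi), fun h1 => h1.2 (Or.inl (Or.inr ⟨i, le_rfl, rfl⟩))⟩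
  have hq : NO V q := ⟨(hringV q hqR hqw).1, w₀, hqa, fun h1 => h1.2 (Or.inr rfl)⟩
  have hyV : y ∉ V := by
    intro h1
    apply h1.1.2
    simp only [bx, mem_ofPred_eq, sub_self, abs_zero]
    omega
  have hpb : vr y r (i + 1) ∈ bx y (2 * (r : ℤ)) := by
    have h3 := vr_mem (y := y) (show 0 < r by omega) hi
    exact PLAN.bx_mono (by omega) ⟨h3.1, h3.2.1⟩
  have hqb : q ∉ bx y K := by
    intro h1
    have h2 : R + 1 ≤ K := by
      rcases hqR.2.2 with h3 | h3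
      · have := h1.1
        omega
      · have := h1.2
        omega
    omega
  have key := hblk' V (exa W g₀) (vr y r (i + 1)) q hcc hyV hr₀ hp hq hpb hqb hblk0
  -- change of the law
  have e1 : Cfg V (exa W g₀) = Cfg W (exa W g₀) := by
    have h1 := Cfg_sdiff (V := V) (I := exa W g₀) (N := V \ W) fun x hx x' hx' hxx' a ha b hb => by
      rw [exa_out hx.2, mem_singleton_iff] at ha
      have h2 : x' ∉ W := fun h3 => hx' ⟨hWV h3, fun h4 => h4.2 h3⟩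
      rw [exa_out h2, mem_singleton_iff] at hb
      rw [ha, hb]
      exact hg₀l x (hVF hx.1) x' hxx'
    rw [h1]
    congr 1
    ext x
    constructor
    · rintro ⟨h2, h3⟩
      by_contra h4
      exact h3 ⟨h2, h4⟩
    · intro h2
      exact ⟨hWV h2, fun h3 => h3.2 h2⟩
  have e2 : Pr (Cfg W (exa W g₀)) (SepA V (V ∩ A') 1 (vr y r (i + 1)) q) =
      Pr (Cfg W (exa W h)) (SepA V (V ∩ A') 1 (vr y r (i + 1)) q) := by
    refine MULT.Pr_irrel (fun x hx => ?_) (fun x hx => ?_) (fun x hx => ?_) fun g g' hgg => ?_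
    · by_cases h1 : x ∈ W
      · rw [exa_in h1, exa_in h1]
      · rw [exa_out h1, exa_out h1]
        rcases hx with hx | ⟨v, hv, hvx⟩
        · exact absurd hx h1
        · have := hnb v hv x h1 hvx
          show {max (h x) c₂} = {h x}
          rw [max_eq_left this]
    · exact ⟨_, hg₀o x, exa_out fun h1 => hx (Or.inl h1)⟩
    · exact ⟨_, hh.1 x, exa_out fun h1 => hx (Or.inl h1)⟩
    · exact LOC.SepA_congr fun x hx => hgg x (hVA'W hx)
  rw [e1, e2] at key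
  refine key.trans (Pr_mono fun g hg hsep => ?_)
  -- no further component
  have hgh : ∀ x, x ∉ W → g x = h x := fun x hx => by
    have := hg.2.1 x
    rw [exa_out hx, mem_singleton_iff] at this
    exact this
  have hgT : ∀ x ∈ T₁, g x = h x := fun x hx => hgh x fun h1 => h1.2 (Or.inl hx)
  intro l hil hl hds
  obtain ⟨u', hu', ⟨z', ⟨o', ho', hz'o⟩, hc⟩, hno⟩ := hds
  have hpath : Conn (V ∩ (A ∩ dn g (-1))) u' z' := by
    refine Conn.ind (S := A ∩ dn g (-1)) (fun b => Conn (V ∩ (A ∩ dn g (-1))) u' b) ?_ ?_ hc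
    · refine Conn.refl ⟨hAV u' hc.left_mem.1 fun h1 => ?_, hc.left_mem⟩
      have h2 : u' ∈ Tx A (Ti y r i) (-1) g := by rw [Tx_of_eq hgT]; exact h1
      have h3 : u' ∈ Dx A (Ti y r i) (-1) g := by
        by_contra h3
        have := lt_of_Tx h2 h3
        have h4 : g u' ≤ -1 := hc.left_mem.2
        omega
      obtain ⟨u'', ⟨v, ⟨k, hk, rfl⟩, hv⟩, h4⟩ := h3
      exact hno k (by omega) u'' hv h4.symm
    · intro a b hab hadj hb ih
      have hcb : Conn (A ∩ dn g (-1)) u' b := hab.tail hadj hb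
      refine ih.tail hadj ⟨hAV b hb.1 fun h1 => ?_, hb⟩
      have h2 : b ∈ Tx A (Ti y r i) (-1) g := by rw [Tx_of_eq hgT]; exact h1
      have h3 : b ∈ Dx A (Ti y r i) (-1) g := by
        by_contra h3
        have := lt_of_Tx h2 h3
        have h4 : g b ≤ -1 := hb.2
        omega
      obtain ⟨u'', ⟨v, ⟨k, hk, rfl⟩, hv⟩, h4⟩ := h3
      exact hno k (by omega) u'' hv (h4.trans hcb.symm).symm
  obtain ⟨w', hw'R, hz'w', hw'w₀⟩ := exists_two hc.right_mem.1.1 ho' (adj_symm hz'o) w₀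
  set Nn : Set Pt := {v | ∃ k, i < k ∧ k < 8 * r ∧ v = vr y r k} with hNn
  set Q : Set Pt := Ring y (R + 1) \ {w₀} with hQ
  set S : Set Pt := Nn ∪ Q ∪ (V ∩ (A ∩ dn g (-1))) with hS
  have hNnV : Nn ⊆ V \ (V ∩ A') := by
    rintro v ⟨k, h1, h2, rfl⟩
    exact ⟨(hvrV k h1 h2).1, fun h3 => (hvrV k h1 h2).2.1 h3.2⟩
  have hQV : Q ⊆ V \ (V ∩ A') := by
    rintro v ⟨h1, h2⟩
    exact ⟨(hringV v h1 h2).1, fun h3 => (hringV v h1 h2).2.1 h3.2⟩
  have hx : vr y r l ∈ Nn := ⟨l, hil, hl, rfl⟩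
  have hy : w' ∈ Q := ⟨hw'R, hw'w₀⟩
  refine LOC.SepA_sets hsep (N := Nn) (Q := Q) (S := S) ?_ ?_ hNnV hQV ?_ ?_ hx hy ?_
  · rintro v ⟨k, h1, h2, rfl⟩
    exact vr_conn' (by omega) h2 fun m h3 h4 => ⟨m, by omega, by omega, rfl⟩
  · rintro v ⟨h1, h2⟩
    exact hqc v h1 h2
  · rintro v ((h1 | h1) | h1)
    · exact (hNnV h1).1
    · exact (hQV h1).1
    · exact h1.1
  · rintro v ((h1 | h1) | h1) h2
    · exact absurd h2 (hNnV h1).2
    · exact absurd h2 (hQV h1).2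
    · have h3 : g v ≤ -1 := h1.2.2
      omega
  · have hS3 : V ∩ (A ∩ dn g (-1)) ⊆ S := fun v hv => Or.inr hv
    have h1 : Conn S (vr y r l) u' :=
      Conn.of_adj (Or.inl (Or.inl hx)) (hS3 hpath.left_mem) hu'
    exact (h1.trans (hpath.mono hS3)).tail hz'w' (Or.inl (Or.inr hy))

end Vale.Agent.P153.R2.SLEX
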