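import Vale.Agent.P153.R2.UNIQ.Inputs

/-!
# P153 / R2 / SLEX : reversal of the interface

`Φ' z = Φ (-z)`, `p' i = p (i + k)`, `k' = N - k`, `S' = S`, `h' = -h` : the interface of `h'` is
the interface of `h` with the reversed orientation.
-/

open MeasureTheory ProbabilityTheory Filter Topology Set
open scoped NNReal ENNReal

set_option linter.unusedVariables false

namespace Vale.Agent.P153.R2.REV

open Final UNIQ

/-- the marked domain with the marks interchanged -/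
def PhR (Φ : (ℝ × ℝ) ≃ₜ (ℝ × ℝ)) : (ℝ × ℝ) ≃ₜ (ℝ × ℝ) := (Homeomorph.neg (ℝ × ℝ)).trans Φ

lemma PhR_apply (Φ : (ℝ × ℝ) ≃ₜ (ℝ × ℝ)) (z : ℝ × ℝ) : PhR Φ z = Φ (-z) := rfl

lemma circ_add (t : ℝ) : -circ t = circ (t + Real.pi) := by
  simp [circ, Real.cos_add_pi, Real.sin_add_pi]

lemma circ_sub (t : ℝ) : -circ t = circ (t - Real.pi) := by
  simp [circ, Real.cos_sub_pi, Real.sin_sub_pi]

lemma PhR_circ (Φ : (ℝ × ℝ) ≃ₜ (ℝ × ℝ)) (t : ℝ) : PhR Φ (circ t) = Φ (circ (t + Real.pi)) := by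
  rw [PhR_apply, circ_add]

lemma PhR_circ' (Φ : (ℝ × ℝ) ≃ₜ (ℝ × ℝ)) (t : ℝ) : PhR Φ (circ t) = Φ (circ (t - Real.pi)) := by
  rw [PhR_apply, circ_sub]

lemma PhR_a (Φ : (ℝ × ℝ) ≃ₜ (ℝ × ℝ)) : PhR Φ (circ 0) = Φ (circ Real.pi) := by
  rw [PhR_circ, zero_add]

lemma PhR_b (Φ : (ℝ × ℝ) ≃ₜ (ℝ × ℝ)) : PhR Φ (circ Real.pi) = Φ (circ 0) := by
  rw [PhR_circ', sub_self]

lemma dom_PhR (Φ : (ℝ × ℝ) ≃ₜ (ℝ × ℝ)) : dom (PhR Φ) = dom Φ := by
  ext w
  constructor
  · rintro ⟨z, hz, rfl⟩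
    refine ⟨-z, ?_, rfl⟩
    have hz' : z.1 ^ 2 + z.2 ^ 2 < 1 := hz
    change (-z).1 ^ 2 + (-z).2 ^ 2 < 1
    simpa using hz'
  · rintro ⟨z, hz, rfl⟩
    refine ⟨-z, ?_, ?_⟩
    · have hz' : z.1 ^ 2 + z.2 ^ 2 < 1 := hz
      change (-z).1 ^ 2 + (-z).2 ^ 2 < 1
      simpa using hz'
    · rw [PhR_apply, neg_neg]

/-- the polygon with the marks interchanged -/
def pR {n : ℕ} (p : ZMod n → ℤ × ℤ) (k : ℕ) : ZMod n → ℤ × ℤ := fun i => p (i + k)

section poly

variable {n : ℕ} {p : ZMod n → ℤ × ℤ} {k : ℕ} {S : Finset Tri} {δ : ℝ}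

lemma poly_R (h : IsPolygon p) (k : ℕ) : IsPolygon (pR p k) := by
  refine ⟨h.1, fun i j hij => ?_, fun i => ?_⟩
  · exact add_right_cancel (h.2.1 hij)
  · have := h.2.2 (i + k)
    rw [add_right_comm] at this
    exact this

lemma edge_R (a b : ℤ × ℤ) : IsEdge (pR p k) a b ↔ IsEdge p a b := by
  constructor
  · rintro ⟨i, hi⟩
    refine ⟨i + k, ?_⟩
    simp only [pR] at hi
    rwa [add_right_comm] at hi
  · rintro ⟨i, hi⟩
    refine ⟨i - k, ?_⟩
    simp only [pR]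
    rw [sub_add_cancel, show i - (k : ZMod n) + 1 + k = i + 1 by ring]
    exact hi

lemma encl_R (h : Encloses p S) (k : ℕ) : Encloses (pR p k) S := by
  intro v
  obtain ⟨h1, h2, h3⟩ := h v
  simp only [Side, edge_R] at h1 h2 h3 ⊢
  exact ⟨h1, h2, h3⟩

lemma val_R (hk : k < n) (i : ZMod n) : (i + (k : ZMod n)).val < k ↔ ¬ i.val < n - k := by
  have hn : NeZero n := ⟨by omega⟩
  have hi := i.val_lt
  rw [ZMod.val_add, ZMod.val_natCast, Nat.mod_eq_of_lt hk]
  by_cases h : i.val + k < n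
  · rw [Nat.mod_eq_of_lt h]
    omega
  · have h1 : (i.val + k) % n = i.val + k - n := by
      rw [Nat.mod_eq_sub_mod (by omega), Nat.mod_eq_of_lt (by omega)]
    rw [h1]
    omega

lemma heights_R (hk : k < n) {h : ℤ × ℤ → ℤ} :
    -h ∈ Heights (pR p k) (n - k) S ↔ h ∈ Heights p k S := by
  have key : (∀ i, (-h) (pR p k i) = if i.val < n - k then 1 else -1) ↔
      ∀ i, h (p i) = if i.val < k then 1 else -1 := by
    constructor
    · intro H i
      have h1 := H (i - k)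
      simp only [pR, sub_add_cancel, Pi.neg_apply] at h1
      have h2 := val_R hk (i - k)
      rw [sub_add_cancel] at h2
      by_cases h3 : i.val < k
      · rw [if_neg (h2.1 h3)] at h1
        rw [if_pos h3]
        omega
      · rw [if_pos (by by_contra h4; exact h3 (h2.2 h4))] at h1
        rw [if_neg h3]
        omega
    · intro H i
      have h1 := H (i + k)
      have h2 := val_R hk i
      simp only [pR, Pi.neg_apply]
      by_cases h3 : i.val < n - k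
      · rw [if_neg (fun h4 => h2.1 h4 h3)] at h1
        rw [if_pos h3, h1]
        rfl
      · rw [if_pos (h2.2 h3)] at h1
        rw [if_neg h3, h1]
  simp only [Heights, Set.mem_ofPred_eq, key]
  refine and_congr ?_ (and_congr Iff.rfl (and_congr ?_ ?_))
  · simp
  · refine forall₂_congr fun v hv => forall₂_congr fun w hw => ?_
    simp only [Pi.neg_apply]
    rw [show -h v - -h w = -(h v - h w) by ring, abs_neg]
  · simp

lemma heights_R' (hk : k < n) {h : ℤ × ℤ → ℤ} :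
    h ∈ Heights (pR p k) (n - k) S ↔ -h ∈ Heights p k S := by
  rw [← heights_R hk, neg_neg]

/-- the law of the reversed data is the image of the law under `h ↦ -h` -/
theorem law_R (hk : k < n) (hfin : (Heights p k S).Finite) :
    law (pR p k) (n - k) S = (law p k S).map (MeasurableEquiv.neg (ℤ × ℤ → ℤ)) := by
  have hset : Heights (pR p k) (n - k) S = (fun h => -h) '' Heights p k S := by
    ext h
    rw [heights_R' hk]
    constructor
    · intro hh; exact ⟨-h, hh, neg_neg h⟩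
    · rintro ⟨g, hg, rfl⟩
      simpa using hg
  have hfin' : (Heights (pR p k) (n - k) S).Finite := by
    rw [hset]; exact hfin.image _
  have hm := hfin.measurableSet
  have hm' := hfin'.measurableSet
  have hinj : Function.Injective (fun h : ℤ × ℤ → ℤ => -h) := neg_injective
  ext A hA
  rw [MeasurableEquiv.map_apply]
  unfold law unif uniformOn
  rw [cond_apply hm', cond_apply hm, Measure.count_apply_finite _ hfin',
    Measure.count_apply_finite _ (hfin'.subset inter_subset_left),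
    Measure.count_apply_finite _ hfin, Measure.count_apply_finite _ (hfin.subset inter_subset_left)]
  congr 2
  · congr 1
    rw [← Set.ncard_eq_toFinset_card _ hfin', ← Set.ncard_eq_toFinset_card _ hfin, hset,
      Set.ncard_image_of_injective _ hinj]
  · have h1 : Heights (pR p k) (n - k) S ∩ A =
        (fun h => -h) '' (Heights p k S ∩ (MeasurableEquiv.neg (ℤ × ℤ → ℤ)) ⁻¹' A) := by
      rw [hset]
      ext h
      constructor
      · rintro ⟨⟨g, hg, rfl⟩, hA⟩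
        exact ⟨g, ⟨hg, hA⟩, rfl⟩
      · rintro ⟨g, ⟨hg, hA⟩, rfl⟩
        exact ⟨⟨g, hg, rfl⟩, hA⟩
    rw [← Set.ncard_eq_toFinset_card _ (hfin'.subset inter_subset_left),
      ← Set.ncard_eq_toFinset_card _ (hfin.subset inter_subset_left), h1,
      Set.ncard_image_of_injective _ hinj]

theorem law_R_real (hk : k < n) (hfin : (Heights p k S).Finite) (A : Set (ℤ × ℤ → ℤ)) :
    (law (pR p k) (n - k) S).real A = (law p k S).real {h | -h ∈ A} := by
  rw [law_R hk hfin, measureReal_def, MeasurableEquiv.map_apply]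
  rfl

theorem mean_R (hk : k < n) (hfin : (Heights p k S).Finite) (F : (ℤ × ℤ → ℤ) → ℝ) :
    mean (law (pR p k) (n - k) S) F = mean (law p k S) fun h => F (-h) := by
  unfold mean
  rw [law_R hk hfin, integral_map_equiv]
  rfl

lemma interp_neg (h : ℤ × ℤ → ℤ) (z : ℝ × ℝ) : interp (-h) z = -interp h z := by
  unfold interp
  rw [← finsum_neg_distrib]
  congr 1
  ext v
  simp

/-- the reversed curve -/
noncomputable def crv (c : C(unitInterval, ℂ)) : C(unitInterval, ℂ) :=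
  c.comp ⟨unitInterval.symm, unitInterval.continuous_symm⟩

lemma crv_apply (c : C(unitInterval, ℂ)) (t : unitInterval) : crv c t = c (unitInterval.symm t) :=
  rfl

lemma crv_crv (c : C(unitInterval, ℂ)) : crv (crv c) = c := by
  ext t
  simp [crv_apply]

lemma pR_neg : pR p k (-1) = p ((k : ZMod n) - 1) := by
  simp only [pR]; congr 1; ring

lemma pR_zero : pR p k 0 = p k := by simp [pR]

lemma cast_R (hk : k < n) : ((n - k : ℕ) : ZMod n) = -k := by
  rw [Nat.cast_sub hk.le]; simp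

lemma pR_k (hk : k < n) : pR p k ((n - k : ℕ) : ZMod n) = p 0 := by
  simp only [pR, cast_R hk]; congr 1; ring

lemma pR_k' (hk : k < n) : pR p k (((n - k : ℕ) : ZMod n) - 1) = p (-1) := by
  simp only [pR, cast_R hk]; congr 1; ring

/-- the reversed curve is the interface of the reversed data -/
theorem intf_R (hk : k < n) {h : ℤ × ℤ → ℤ} {c : C(unitInterval, ℂ)}
    (hc : IsInterface p k S δ h c) :
    IsInterface (pR p k) (n - k) S δ (-h) (crv c) := by
  obtain ⟨h1, h2, h3, h4⟩ := hc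
  refine ⟨?_, ?_, ?_, fun t => ?_⟩
  · intro s t hst
    exact unitInterval.symm_bijective.injective (h1 hst)
  · rw [crv_apply, unitInterval.symm_zero, h3, pR_neg, pR_zero]
  · rw [crv_apply, unitInterval.symm_one, h2, pR_k hk, pR_k' hk]
  · refine ⟨(h4 _).1, ?_⟩
    rw [interp_neg, crv_apply, (h4 _).2, neg_zero]

end poly

/-! ### The approximation -/

theorem approx_R {Φ : (ℝ × ℝ) ≃ₜ (ℝ × ℝ)} {δ : ℕ → ℝ} {N k : ℕ → ℕ}
    {p : ∀ n, ZMod (N n) → ℤ × ℤ} {S : ℕ → Finset Tri} (h : Approx Φ δ N k p S) :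
    Approx (PhR Φ) δ N (fun n => N n - k n) (fun n => pR (p n) (k n)) S := by
  obtain ⟨h1, h2, h3, h4⟩ := h
  refine ⟨fun n => ?_, h2, fun ε hε => ?_, ?_⟩
  · obtain ⟨a, b, c, d, e⟩ := h1 n
    exact ⟨a, (by change 0 < N n - k n; omega), (by change N n - k n < N n; omega), poly_R d _,
      encl_R e _⟩
  · filter_upwards [h3 ε hε] with n hn
    obtain ⟨s, hs, s0, sk, sN, hd⟩ := hn
    obtain ⟨-, hk0, hkN, -, -⟩ := h1 n
    have hkNpos : k n ≤ N n := hkN.le
    -- the new parameters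
    let s' : ℕ → ℝ := fun i => if i ≤ N n - k n then s (i + k n) - Real.pi
      else s (i - (N n - k n)) + Real.pi
    have hs'1 : ∀ i, i ≤ N n - k n → s' i = s (i + k n) - Real.pi := fun i hi => if_pos hi
    have hs'2 : ∀ i, N n - k n ≤ i → s' i = s (i - (N n - k n)) + Real.pi := by
      intro i hi
      rcases hi.eq_or_lt with h | h
      · subst h
        rw [hs'1 _ le_rfl, Nat.sub_add_cancel hkNpos, sN, Nat.sub_self, s0]
        ring
      · exact if_neg (by omega)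
    refine ⟨s', ?_, ?_, ?_, ?_, ?_⟩
    · refine monotone_nat_of_le_succ fun i => ?_
      by_cases hi : i + 1 ≤ N n - k n
      · rw [hs'1 _ hi, hs'1 _ (by omega)]
        exact sub_le_sub_right (hs (by omega)) _
      · rw [hs'2 i (by omega), hs'2 (i + 1) (by omega)]
        exact add_le_add_left (hs (by omega)) _
    · rw [hs'1 0 (by omega), zero_add, sk, sub_self]
    · rw [hs'2 _ le_rfl, Nat.sub_self, s0, zero_add]
    · rw [hs'2 _ (by omega), show N n - (N n - k n) = k n by omega, sk]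
      ring
    · intro i hi t ht
      have hcast : ∀ j : ℕ, pR (p n) (k n) (j : ZMod (N n)) = p n ((j + k n : ℕ) : ZMod (N n)) := by
        intro j; simp [pR]
      by_cases hi' : i + 1 ≤ N n - k n
      · rw [hs'1 i (by omega), hs'1 _ hi'] at ht
        have h5 := hd (i + k n) (by omega) (t + Real.pi)
          ⟨by linarith [ht.1], by
            have := ht.2
            rw [show i + k n + 1 = i + 1 + k n by ring]; linarith⟩
        rw [hcast, PhR_circ]
        exact h5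
      · rw [hs'2 i (by omega), hs'2 _ (by omega)] at ht
        have h5 := hd (i - (N n - k n)) (by omega) (t - Real.pi)
          ⟨by linarith [ht.1], by
            have := ht.2
            rw [show i - (N n - k n) + 1 = i + 1 - (N n - k n) by omega]; linarith⟩
        rw [hcast, PhR_circ']
        have h6 : ((i + k n : ℕ) : ZMod (N n)) = ((i - (N n - k n) : ℕ) : ZMod (N n)) := by
          rw [show i + k n = i - (N n - k n) + N n by omega]
          push_cast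
          simp
        rw [h6]
        exact h5
  · intro K hK
    rw [dom_PhR] at hK
    exact h4 K hK

/-! ### The uniformizers -/

/-- the uniformizer of the reversed data : `z ↦ ψ (-1 / z)`, and `0 ↦ b` -/
noncomputable def psR (ψ : ℂ → ℂ) (b : ℂ) : ℂ → ℂ := fun z => if z = 0 then b else ψ (-z⁻¹)

lemma psR_zero (ψ : ℂ → ℂ) (b : ℂ) : psR ψ b 0 = b := if_pos rfl

lemma psR_ne (ψ : ℂ → ℂ) (b : ℂ) {z : ℂ} (hz : z ≠ 0) : psR ψ b z = ψ (-z⁻¹) := if_neg hz

lemma im_ninv (z : ℂ) : (-z⁻¹).im = z.im / Complex.normSq z := by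
  rw [Complex.neg_im, Complex.inv_im]; ring

lemma im_ninv_nonneg {z : ℂ} (hz : 0 ≤ z.im) : 0 ≤ (-z⁻¹).im := by
  rw [im_ninv]; exact div_nonneg hz (Complex.normSq_nonneg _)

lemma im_ninv_pos {z : ℂ} (hz : 0 < z.im) : 0 < (-z⁻¹).im := by
  rw [im_ninv]
  refine div_pos hz (Complex.normSq_pos.2 ?_)
  rintro rfl
  simp at hz

lemma ninv_ninv (z : ℂ) : -(-z⁻¹)⁻¹ = z := by
  rw [inv_neg, neg_neg, inv_inv]

lemma ninv_ne {z : ℂ} (hz : z ≠ 0) : -z⁻¹ ≠ 0 := neg_ne_zero.2 (inv_ne_zero hz)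

lemma tendsto_ninv_cobdd : Tendsto (fun z : ℂ => -z⁻¹) (𝓝[≠] 0) (Bornology.cobounded ℂ) := by
  have h1 : Tendsto (fun z : ℂ => z⁻¹) (𝓝[≠] 0) (Bornology.cobounded ℂ) :=
    Filter.tendsto_inv₀_nhdsNE_zero
  have h2 : Tendsto (fun z : ℂ => -z) (Bornology.cobounded ℂ) (Bornology.cobounded ℂ) := by
    rw [← comap_norm_atTop, tendsto_comap_iff]
    simpa [Function.comp_def] using (tendsto_comap : Tendsto (norm : ℂ → ℝ) _ atTop)
  exact h2.comp h1

lemma tendsto_ninv_zero : Tendsto (fun z : ℂ => -z⁻¹) (Bornology.cobounded ℂ) (𝓝[≠] 0) := by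
  rw [tendsto_nhdsWithin_iff]
  constructor
  · have h1 : Tendsto (fun z : ℂ => z⁻¹) (Bornology.cobounded ℂ) (𝓝 0) :=
      Filter.tendsto_inv₀_cobounded
    simpa using h1.neg
  · have h1 : ∀ᶠ z : ℂ in Bornology.cobounded ℂ, z ≠ 0 :=
        Bornology.isBounded_def.1 (Bornology.isBounded_singleton (x := (0 : ℂ)))
    filter_upwards [h1] with z hz
    exact ninv_ne hz

section psi

variable {ψ : ℂ → ℂ} {b : ℂ}

lemma psR_diff (h : DifferentiableOn ℂ ψ {z | 0 < z.im}) :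
    DifferentiableOn ℂ (psR ψ b) {z | 0 < z.im} := by
  have hne : ∀ z ∈ {z : ℂ | 0 < z.im}, z ≠ 0 := by
    rintro z hz rfl
    simp at hz
  have h1 : DifferentiableOn ℂ (fun z : ℂ => ψ (-z⁻¹)) {z | 0 < z.im} := by
    refine h.comp (f := fun z : ℂ => -z⁻¹) ?_ fun z hz => im_ninv_pos hz
    exact (differentiableOn_inv.mono fun z hz => hne z hz).neg
  exact h1.congr fun z hz => psR_ne _ _ (hne z hz)

lemma psR_image : psR ψ b '' {z | 0 < z.im} = ψ '' {z | 0 < z.im} := by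
  have hne : ∀ z ∈ {z : ℂ | 0 < z.im}, z ≠ 0 := by
    rintro z hz rfl
    simp at hz
  ext w
  constructor
  · rintro ⟨z, hz, rfl⟩
    exact ⟨-z⁻¹, im_ninv_pos hz, (psR_ne _ _ (hne z hz)).symm⟩
  · rintro ⟨z, hz, rfl⟩
    refine ⟨-z⁻¹, im_ninv_pos hz, ?_⟩
    rw [psR_ne _ _ (ninv_ne (hne z hz)), ninv_ninv]

lemma psR_cont (h : ContinuousOn ψ {z | 0 ≤ z.im})
    (hb : Tendsto ψ (Bornology.cobounded ℂ ⊓ 𝓟 {z | 0 ≤ z.im}) (𝓝 b)) :
    ContinuousOn (psR ψ b) {z | 0 ≤ z.im} := by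
  intro z hz
  by_cases h0 : z = 0
  · subst h0
    have h1 : ContinuousWithinAt (psR ψ b) ({z | 0 ≤ z.im} \ {0}) 0 := by
      change Tendsto (psR ψ b) (𝓝[{z | 0 ≤ z.im} \ {0}] 0) (𝓝 (psR ψ b 0))
      rw [psR_zero]
      have h2 : Tendsto (fun z : ℂ => ψ (-z⁻¹)) (𝓝[{z | 0 ≤ z.im} \ {0}] 0) (𝓝 b) := by
        refine hb.comp (tendsto_inf.2 ⟨?_, ?_⟩)
        · refine tendsto_ninv_cobdd.mono_left (nhdsWithin_mono _ fun w hw => hw.2)
        · refine tendsto_principal.2 ?_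
          filter_upwards [self_mem_nhdsWithin] with w hw
          exact im_ninv_nonneg hw.1
      refine h2.congr' ?_
      filter_upwards [self_mem_nhdsWithin] with w hw
      exact (psR_ne _ _ hw.2).symm
    exact (continuousWithinAt_sdiff_self).1 h1
  · have h1 : ContinuousWithinAt (fun z : ℂ => ψ (-z⁻¹)) {z | 0 ≤ z.im} z := by
      refine ContinuousWithinAt.comp (t := {z | 0 ≤ z.im}) (h _ (im_ninv_nonneg hz)) ?_
        fun w hw => im_ninv_nonneg hw
      exact (continuousAt_inv₀ h0).neg.continuousWithinAt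
    refine h1.congr_of_eventuallyEq ?_ (psR_ne _ _ h0)
    filter_upwards [mem_nhdsWithin_of_mem_nhds (isOpen_ne.mem_nhds h0)] with w hw
    exact psR_ne _ _ hw

lemma psR_inf {a : ℂ} (h : ContinuousOn ψ {z | 0 ≤ z.im}) (ha : ψ 0 = a) :
    Tendsto (psR ψ b) (Bornology.cobounded ℂ ⊓ 𝓟 {z | 0 ≤ z.im}) (𝓝 a) := by
  have h0 : ContinuousWithinAt ψ {z | 0 ≤ z.im} 0 := h 0 (by simp)
  have h1 : Tendsto ψ (𝓝[{z | 0 ≤ z.im}] 0) (𝓝 a) := ha ▸ h0
  have h2 : Tendsto (fun z : ℂ => ψ (-z⁻¹)) (Bornology.cobounded ℂ ⊓ 𝓟 {z | 0 ≤ z.im}) (𝓝 a) := by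
    refine h1.comp (tendsto_nhdsWithin_iff.2 ⟨?_, ?_⟩)
    · exact (tendsto_ninv_zero.mono_right nhdsWithin_le_nhds).mono_left inf_le_left
    · filter_upwards [mem_inf_of_right (mem_principal_self {z : ℂ | 0 ≤ z.im})] with w hw
      exact im_ninv_nonneg hw
  refine h2.congr' ?_
  have h3 : ∀ᶠ z : ℂ in Bornology.cobounded ℂ ⊓ 𝓟 {z | 0 ≤ z.im}, z ≠ 0 :=
    mem_inf_of_left (Bornology.isBounded_def.1 (Bornology.isBounded_singleton (x := (0 : ℂ))))
  filter_upwards [h3] with w hw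
  exact (psR_ne _ _ hw).symm

lemma psR_injOn_pos (h : InjOn ψ {z | 0 < z.im}) : InjOn (psR ψ b) {z | 0 < z.im} := by
  have hne : ∀ z ∈ {z : ℂ | 0 < z.im}, z ≠ 0 := by
    rintro z hz rfl
    simp at hz
  intro z hz w hw hzw
  rw [psR_ne _ _ (hne z hz), psR_ne _ _ (hne w hw)] at hzw
  have := h (im_ninv_pos hz) (im_ninv_pos hw) hzw
  exact inv_injective (neg_injective this)

lemma psR_injOn (h : InjOn ψ {z | 0 ≤ z.im}) (hb : ∀ z : ℂ, 0 ≤ z.im → ψ z ≠ b) :
    InjOn (psR ψ b) {z | 0 ≤ z.im} := by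
  intro z hz w hw hzw
  by_cases h1 : z = 0
  · by_cases h2 : w = 0
    · rw [h1, h2]
    · rw [h1, psR_zero, psR_ne _ _ h2] at hzw
      exact absurd hzw.symm (hb _ (im_ninv_nonneg hw))
  · by_cases h2 : w = 0
    · rw [h2, psR_zero, psR_ne _ _ h1] at hzw
      exact absurd hzw (hb _ (im_ninv_nonneg hz))
    · rw [psR_ne _ _ h1, psR_ne _ _ h2] at hzw
      have := h (im_ninv_nonneg hz) (im_ninv_nonneg hw) hzw
      exact inv_injective (neg_injective this)

end psi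

/-- the reversed uniformizer -/
theorem unif_R {Φ : (ℝ × ℝ) ≃ₜ (ℝ × ℝ)} {ψ : ℂ → ℂ} (h : IsUniformizer Φ ψ) :
    IsUniformizer (PhR Φ) (psR ψ (bpt Φ)) := by
  obtain ⟨h1, h2, h3, h4, h5, h6⟩ := h
  refine ⟨psR_diff h1, psR_injOn_pos h2, ?_, psR_cont h4 h6, ?_, ?_⟩
  · rw [psR_image, h3, dom_PhR]
  · rw [psR_zero, PhR_a]; rfl
  · rw [PhR_b]
    exact psR_inf h4 h5

/-- the reversed discrete uniformizer -/
theorem unifD_R {n : ℕ} {p : ZMod n → ℤ × ℤ} {k : ℕ} {S : Finset Tri} {δ : ℝ} {ψ : ℂ → ℂ}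
    (hk : k < n) (h : IsUnifD p k S δ ψ) :
    IsUnifD (pR p k) (n - k) S δ (psR ψ (bptD p k δ)) where
  diff := psR_diff h.diff
  injOn := psR_injOn h.injOn h.ne
  image := by rw [psR_image, h.image]
  cont := psR_cont h.cont h.inf
  zero := by rw [psR_zero, pR_neg, pR_zero]; rfl
  inf := by
    have : bptD (pR p k) (n - k) δ = mid δ (p (-1)) (p 0) := by
      unfold bptD; rw [pR_k hk, pR_k' hk]
    rw [this]
    exact psR_inf h.cont h.zero
  ne := by
    have hb : bptD (pR p k) (n - k) δ = mid δ (p (-1)) (p 0) := by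
      unfold bptD; rw [pR_k hk, pR_k' hk]
    intro z hz he
    rw [hb] at he
    by_cases h0 : z = 0
    · subst h0
      rw [psR_zero] at he
      exact h.ne 0 (by simp) (h.zero.trans he.symm)
    · rw [psR_ne _ _ h0, ← h.zero] at he
      have := h.injOn (im_ninv_nonneg hz) (by simp) he
      exact ninv_ne h0 this

lemma bptD_R {n : ℕ} {p : ZMod n → ℤ × ℤ} {k : ℕ} {δ : ℝ} (hk : k < n) :
    bptD (pR p k) (n - k) δ = mid δ (p (-1)) (p 0) := by
  unfold bptD; rw [pR_k hk, pR_k' hk]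

/-- uniform convergence of the reversed uniformizers -/
theorem conv_R {ψ : ℂ → ℂ} {b : ℂ} {ψn : ℕ → ℂ → ℂ} {bn : ℕ → ℂ}
    (hb : Tendsto ψ (Bornology.cobounded ℂ ⊓ 𝓟 {z | 0 ≤ z.im}) (𝓝 b))
    (hbn : ∀ n, Tendsto (ψn n) (Bornology.cobounded ℂ ⊓ 𝓟 {z | 0 ≤ z.im}) (𝓝 (bn n)))
    (h : ∀ ε > 0, ∀ᶠ n in atTop, ∀ z : ℂ, 0 ≤ z.im → dist (ψn n z) (ψ z) < ε) :
    ∀ ε > 0, ∀ᶠ n in atTop, ∀ z : ℂ, 0 ≤ z.im → dist (psR (ψn n) (bn n) z) (psR ψ b z) < ε := by
  intro ε hε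
  filter_upwards [h (ε / 2) (by linarith)] with n hn z hz
  by_cases h0 : z = 0
  · subst h0
    rw [psR_zero, psR_zero]
    have hne : (Bornology.cobounded ℂ ⊓ 𝓟 {z | 0 ≤ z.im}).NeBot := by
      rw [inf_principal_neBot_iff]
      intro U hU
      obtain ⟨R, -, hR⟩ := (Filter.hasBasis_cobounded_norm (E := ℂ)).mem_iff.1 hU
      refine ⟨⟨0, |R| + 1⟩, hR ?_, ?_⟩
      · change R ≤ ‖(⟨0, |R| + 1⟩ : ℂ)‖
        have := Complex.abs_im_le_norm (⟨0, |R| + 1⟩ : ℂ)
        have h2 : |(|R| + 1)| = |R| + 1 := abs_of_nonneg (by positivity)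
        simp only [h2] at this
        linarith [le_abs_self R]
      · change (0 : ℝ) ≤ |R| + 1
        positivity
    have h1 : dist (bn n) b ≤ ε / 2 := by
      refine le_of_tendsto ((hbn n).dist hb) ?_
      filter_upwards [mem_inf_of_right (mem_principal_self {z : ℂ | 0 ≤ z.im})] with w hw
      exact (hn w hw).le
    linarith
  · rw [psR_ne _ _ h0, psR_ne _ _ h0]
    have := hn _ (im_ninv_nonneg hz)
    linarith

/-! ### The statements at the other end -/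

/-- the starting point of the interface -/
noncomputable def apt (Φ : (ℝ × ℝ) ≃ₜ (ℝ × ℝ)) : ℂ := toC (Φ (circ 0))

/-- before the last visit of a small neighbourhood of `a` the interface stays near `a` -/
def I_enda : Prop := ∀ (Φ : (ℝ × ℝ) ≃ₜ (ℝ × ℝ))
  (δ : ℕ → ℝ) (N k : ℕ → ℕ) (p : ∀ n, ZMod (N n) → ℤ × ℤ) (S : ℕ → Finset Tri),
    Approx Φ δ N k p S → ∀ x : ∀ n : ℕ, Hg → C(unitInterval, ℂ),
      (∀ n, ∀ h ∈ Heights (p n) (k n) (S n), IsInterface (p n) (k n) (S n) (δ n) h (x n h)) →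
      ∀ r : ℝ, 0 < r → ∀ e : ℝ, 0 < e → ∃ r' > 0, ∀ᶠ n in atTop,
        (law (p n) (k n) (S n)).real {h | ∃ s t : unitInterval, s ≤ t ∧
          r < dist (x n h s) (apt Φ) ∧ dist (x n h t) (apt Φ) < r'} ≤ e

/-- the reversed interfaces -/
noncomputable def xR (x : ℕ → Hg → C(unitInterval, ℂ)) : ℕ → Hg → C(unitInterval, ℂ) :=
  fun n h => crv (x n (-h))

lemma xR_intf {δ : ℕ → ℝ} {N k : ℕ → ℕ} {p : ∀ n, ZMod (N n) → ℤ × ℤ} {S : ℕ → Finset Tri}
    (hk : ∀ n, k n < N n) {x : ℕ → Hg → C(unitInterval, ℂ)}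
    (hx : ∀ n, ∀ h ∈ Heights (p n) (k n) (S n), IsInterface (p n) (k n) (S n) (δ n) h (x n h)) :
    ∀ n, ∀ h ∈ Heights (pR (p n) (k n)) (N n - k n) (S n),
      IsInterface (pR (p n) (k n)) (N n - k n) (S n) (δ n) h (xR x n h) := by
  intro n h hh
  have h1 := intf_R (hk n) (hx n (-h) ((heights_R' (hk n)).1 hh))
  rwa [neg_neg] at h1

theorem enda_of (hfin : I_fin) (hend : I_end) : I_enda := by
  intro Φ δ N k p S hA x hx r hr e he
  have hk : ∀ n, k n < N n := fun n => (hA.1 n).2.2.1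
  obtain ⟨r', hr', hev⟩ := hend _ _ _ _ _ _ (approx_R hA) (xR x) (xR_intf hk hx) r hr e he
  refine ⟨r', hr', ?_⟩
  filter_upwards [hev] with n hn
  obtain ⟨-, -, -, h2, h3⟩ := hA.1 n
  rw [law_R_real (hk n) (hfin _ _ _ _ h2 h3).1] at hn
  refine le_trans ?_ hn
  refine measureReal_mono ?_ ?_
  · rintro h ⟨s, t, hst, h4, h5⟩
    refine ⟨unitInterval.symm t, unitInterval.symm s, ?_, ?_, ?_⟩
    · exact unitInterval.symm_le_symm.2 hst
    · simp only [xR, neg_neg, crv_apply, unitInterval.symm_symm]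
      have : bpt (PhR Φ) = apt Φ := by unfold bpt apt; rw [PhR_b]
      rw [this]
      exact h5
    · simp only [xR, neg_neg, crv_apply, unitInterval.symm_symm]
      have : bpt (PhR Φ) = apt Φ := by unfold bpt apt; rw [PhR_b]
      rw [this]
      exact h4
  · have : IsProbabilityMeasure (law (p n) (k n) (S n)) :=
      isProbabilityMeasure_uniformOn (hfin _ _ _ _ h2 h3).1 (hfin _ _ _ _ h2 h3).2
    exact measure_ne_top _ _

/-- the backward drivers converge in law to `2B` -/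
def I_drvR : Prop := ∀ (Φ : (ℝ × ℝ) ≃ₜ (ℝ × ℝ)) (ψ : ℂ → ℂ), IsUniformizer Φ ψ →
  ∀ (δ : ℕ → ℝ) (N k : ℕ → ℕ) (p : ∀ n, ZMod (N n) → ℤ × ℤ) (S : ℕ → Finset Tri),
    Approx Φ δ N k p S → ∀ ψn : ℕ → ℂ → ℂ, (∀ n, IsUnifD (p n) (k n) (S n) (δ n) (ψn n)) →
      (∀ ε > 0, ∀ᶠ n in atTop, ∀ z : ℂ, 0 ≤ z.im → dist (ψn n z) (ψ z) < ε) →
      ∀ x : ∀ n : ℕ, Hg → C(unitInterval, ℂ),
        (∀ n, ∀ h ∈ Heights (p n) (k n) (S n), IsInterface (p n) (k n) (S n) (δ n) h (x n h)) →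
        ∃ (η : ∀ n : ℕ, Hg → ℝ → ℂ) (c : ∀ n : ℕ, Hg → ℝ → ℝ) (w : ∀ n : ℕ, Hg → C(ℝ≥0, ℝ))
          (T₀ T : ∀ n : ℕ, Hg → ℝ) (ε : ℕ → ℝ), Tendsto ε atTop (𝓝 0) ∧
          (∀ n, ∀ h ∈ Heights (p n) (k n) (S n),
            Disc (psR (ψn n) (bptD (p n) (k n) (δ n))) (mid (δ n) (p n (-1)) (p n 0))
              (crv (x n h)) (η n h) (c n h) (w n h) (T₀ n h) (T n h) (ε n)) ∧
          ∀ [MeasurableSpace C(ℝ≥0, ℝ)] [BorelSpace C(ℝ≥0, ℝ)], ∃ lam : Measure C(ℝ≥0, ℝ),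
            IsDrvLaw lam ∧ ∀ f : C(ℝ≥0, ℝ) → ℝ, Continuous f → (∃ M, ∀ y, |f y| ≤ M) →
              Tendsto (fun n => mean (law (p n) (k n) (S n)) fun h => f (w n h)) atTop
                (𝓝 (∫ y, f y ∂lam))

theorem drvR_of (hfin : I_fin) (hdrv : I_drv) : I_drvR := by
  intro Φ ψ hψ δ N k p S hA ψn hψn hconv x hx
  have hk : ∀ n, k n < N n := fun n => (hA.1 n).2.2.1
  have hD : ∀ n, IsUnifD (pR (p n) (k n)) (N n - k n) (S n) (δ n)
      (psR (ψn n) (bptD (p n) (k n) (δ n))) := fun n =>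
    unifD_R (hk n) (hψn n)
  have hc := conv_R hψ.2.2.2.2.2 (fun n => (hψn n).inf) hconv
  obtain ⟨η, c, w, T₀, T, ε, hε, h1, h2⟩ := hdrv _ _ (unif_R hψ) _ _ _ _ _ (approx_R hA) _ hD hc
    (xR x) (xR_intf hk hx)
  refine ⟨fun n h => η n (-h), fun n h => c n (-h), fun n h => w n (-h), fun n h => T₀ n (-h),
    fun n h => T n (-h), ε, hε, fun n h hh => ?_, fun {_ _} => ?_⟩
  · have h3 := h1 n (-h) ((heights_R (hk n)).2 hh)
    simp only [xR, neg_neg] at h3
    rw [bptD_R (hk n)] at h3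
    exact h3
  · obtain ⟨lam, hl, h3⟩ := h2
    refine ⟨lam, hl, fun f hf hM => ?_⟩
    refine (h3 f hf hM).congr fun n => ?_
    obtain ⟨-, -, -, h4, h5⟩ := hA.1 n
    exact mean_R (hk n) (hfin _ _ _ _ h4 h5).1 _

end Vale.Agent.P153.R2.REV
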