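import Vale.Agent.P153.R2.PLAN.Par
import Vale.Agent.P153.R2.PLAN.Box
import Vale.Agent.P153.R2.INTF.Markov

/-!
P153, block SLEX, pieces X2 and X3, part 1: the cochain of a piece of the interface, and the parity
lemma: if there are three crossing strands then no two of them have their left and their right sides
in the same components.
-/

set_option autoImplicit false
set_option linter.unusedVariables false

namespace Vale.Agent.P153.R2.SLEX

open Set Relation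
open Vale.Agent.P153 Vale.Agent.P153.R2
open Vale.Agent.P153.Topo (Conn adj_symm)
open Vale.Agent.P153.R2.PLAN (Hug hug_of_conn cor exists_cob tind ec ec_val ec_zero tind_val
  tind_zero tsum_add z2 PJ)
open Vale.Agent.P153.R2.INTF (St fa fb ah nx Good st_cases)

/-! ### Edges -/

theorem ts_hor (i j : ℤ) (r : PLAN.Tri) :
    PLAN.tsum (ec s((i, j), (i + 1, j))) r = tind ((i, j), false) r + tind ((i, j - 1), true) r := by
  obtain ⟨⟨a, b⟩, c⟩ := r
  cases c
  · rw [tind_val, tind_zero (by decide), add_zero]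
    simp only [PLAN.tsum]
    rw [ec_val (P := a = i ∧ b = j) (by simp only [Prod.mk.injEq]; omega),
      ec_zero (by simp only [Prod.mk.injEq]; omega), ec_zero (by simp only [Prod.mk.injEq]; omega),
      add_zero, add_zero]
  · rw [tind_val, tind_zero (by decide), zero_add]
    simp only [PLAN.tsum]
    rw [ec_val (x := (a, b + 1)) (P := a = i ∧ b = j - 1) (by simp only [Prod.mk.injEq]; omega),
      ec_zero (by simp only [Prod.mk.injEq]; omega), ec_zero (by simp only [Prod.mk.injEq]; omega),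
      zero_add, zero_add]

theorem ts_vert (i j : ℤ) (r : PLAN.Tri) :
    PLAN.tsum (ec s((i, j), (i, j + 1))) r = tind ((i, j), false) r + tind ((i - 1, j), true) r := by
  obtain ⟨⟨a, b⟩, c⟩ := r
  cases c
  · rw [tind_val, tind_zero (by decide), add_zero]
    simp only [PLAN.tsum]
    rw [ec_val (x := (a, b)) (y := (a, b + 1)) (P := a = i ∧ b = j)
        (by simp only [Prod.mk.injEq]; omega),
      ec_zero (by simp only [Prod.mk.injEq]; omega), ec_zero (by simp only [Prod.mk.injEq]; omega),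
      zero_add, add_zero]
  · rw [tind_val, tind_zero (by decide), zero_add]
    simp only [PLAN.tsum]
    rw [ec_val (x := (a + 1, b)) (y := (a + 1, b + 1)) (P := a = i - 1 ∧ b = j)
        (by simp only [Prod.mk.injEq]; omega),
      ec_zero (by simp only [Prod.mk.injEq]; omega), ec_zero (by simp only [Prod.mk.injEq]; omega),
      zero_add, add_zero]

theorem ts_diag (i j : ℤ) (r : PLAN.Tri) :
    PLAN.tsum (ec s((i + 1, j), (i, j + 1))) r = tind ((i, j), false) r + tind ((i, j), true) r := by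
  obtain ⟨⟨a, b⟩, c⟩ := r
  cases c
  · rw [tind_val, tind_zero (by decide), add_zero]
    simp only [PLAN.tsum]
    rw [ec_val (x := (a + 1, b)) (P := a = i ∧ b = j)
        (by simp only [Prod.mk.injEq]; omega),
      ec_zero (by simp only [Prod.mk.injEq]; omega), ec_zero (by simp only [Prod.mk.injEq]; omega),
      zero_add, zero_add]
  · rw [tind_val, tind_zero (by decide), zero_add]
    simp only [PLAN.tsum]
    rw [ec_val (x := (a + 1, b)) (P := a = i ∧ b = j)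
        (by simp only [Prod.mk.injEq]; omega),
      ec_zero (by simp only [Prod.mk.injEq]; omega), ec_zero (by simp only [Prod.mk.injEq]; omega),
      add_zero, add_zero]

/-- The sums of the indicator of an edge around the triangles. -/
theorem ts_edge {s : St} (h : Adj s.1 s.2) (r : PLAN.Tri) :
    PLAN.tsum (ec s(s.1, s.2)) r = tind (fa s) r + tind (fb s) r := by
  obtain ⟨a, b, h | h | h | h | h | h⟩ := st_cases h <;> subst h
  · have e1 : fa ((a + 1, b), (a, b)) = ((a, b - 1), true) := by simp [fa]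
    have e2 : fb ((a + 1, b), (a, b)) = ((a, b), false) := by simp [fa, fb]
    rw [e1, e2, Sym2.eq_swap, ts_hor, add_comm]
  · have e1 : fa ((a, b + 1), (a, b)) = ((a, b), false) := by simp [fa]
    have e2 : fb ((a, b + 1), (a, b)) = ((a - 1, b), true) := by simp [fa, fb]
    rw [e1, e2, Sym2.eq_swap, ts_vert]
  · have e1 : fa ((a - 1, b + 1), (a, b)) = ((a - 1, b), true) := by simp [fa]
    have e2 : fb ((a - 1, b + 1), (a, b)) = ((a - 1, b), false) := by simp [fa, fb]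
    have e3 := ts_diag (a - 1) b r
    rw [sub_add_cancel] at e3
    rw [e1, e2, Sym2.eq_swap, e3, add_comm]
  · have e1 : fa ((a - 1, b), (a, b)) = ((a - 1, b), false) := by simp [fa]
    have e2 : fb ((a - 1, b), (a, b)) = ((a - 1, b - 1), true) := by simp [fa, fb]
    have e3 := ts_hor (a - 1) b r
    rw [sub_add_cancel] at e3
    rw [e1, e2, e3]
  · have e1 : fa ((a, b - 1), (a, b)) = ((a - 1, b - 1), true) := by simp [fa]
    have e2 : fb ((a, b - 1), (a, b)) = ((a, b - 1), false) := by simp [fa, fb]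
    have e3 := ts_vert a (b - 1) r
    rw [sub_add_cancel] at e3
    rw [e1, e2, e3, add_comm]
  · have e1 : fa ((a + 1, b - 1), (a, b)) = ((a, b - 1), false) := by simp [fa]
    have e2 : fb ((a + 1, b - 1), (a, b)) = ((a, b - 1), true) := by simp [fa, fb]
    have e3 := ts_diag a (b - 1) r
    rw [sub_add_cancel] at e3
    rw [e1, e2, e3]

/-! ### Pieces of the interface -/

/-- The cochain of the steps `c, …, d`. -/
def segc (ρ : ℕ → St) (c d : ℕ) (x y : ℤ × ℤ) : ZMod 2 :=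
  ∑ j ∈ Finset.Icc c d, ec s((ρ j).1, (ρ j).2) x y

theorem segc_symm (ρ : ℕ → St) (c d : ℕ) (x y : ℤ × ℤ) : segc ρ c d x y = segc ρ c d y x := by
  unfold segc ec
  simp only [Sym2.eq_swap (a := x) (b := y)]

theorem segc_tsum {ρ : ℕ → St} {c d : ℕ} (hcd : c ≤ d) (hadj : ∀ j, c ≤ j → j ≤ d →
    Adj (ρ j).1 (ρ j).2) (hch : ∀ j, c ≤ j → j < d → fb (ρ (j + 1)) = fa (ρ j)) (r : PLAN.Tri) :
    PLAN.tsum (segc ρ c d) r = tind (fb (ρ c)) r + tind (fa (ρ d)) r := by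
  induction d, hcd using Nat.le_induction with
  | base =>
    have e : segc ρ c c = ec s((ρ c).1, (ρ c).2) := by
      funext x y
      unfold segc
      rw [Finset.Icc_self, Finset.sum_singleton]
    rw [e, ts_edge (hadj c le_rfl le_rfl), add_comm]
  | succ d hcd ih =>
    have e : segc ρ c (d + 1) = fun x y => segc ρ c d x y +
        ec s((ρ (d + 1)).1, (ρ (d + 1)).2) x y := by
      funext x y
      unfold segc
      rw [Finset.sum_Icc_succ_top (by omega)]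
    have h1 := ih (fun j h1 h2 => hadj j h1 (by omega)) (fun j h1 h2 => hch j h1 (by omega))
    rw [e, tsum_add, h1, ts_edge (hadj (d + 1) (by omega) le_rfl), hch d hcd (by omega)]
    have := z2 (tind (fa (ρ d)) r)
    linear_combination this

/-- The edge of `s` touches `K`. -/
def Tch (s : St) (K : Set (ℤ × ℤ)) : Prop := s.1 ∈ K ∨ s.2 ∈ K

theorem corners_cor (t : PLAN.Tri) : F.Dom.corners t = cor t := by
  obtain ⟨⟨i, j⟩, b⟩ := t
  cases b <;> simp [F.Dom.corners, cor]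

theorem cor_fa1 {s : St} (h : Adj s.1 s.2) : s.1 ∈ cor (fa s) := by
  rw [← corners_cor, INTF.corners_fa h]
  exact Or.inl rfl

theorem cor_fa2 {s : St} (h : Adj s.1 s.2) : s.2 ∈ cor (fa s) := by
  rw [← corners_cor, INTF.corners_fa h]
  exact Or.inr (Or.inl rfl)

theorem tch_fa {s : St} {K : Set (ℤ × ℤ)} (h : Adj s.1 s.2) (ht : Tch s K) :
    ∃ v ∈ K, v ∈ cor (fa s) := by
  rcases ht with ht | ht
  · exact ⟨_, ht, cor_fa1 h⟩
  · exact ⟨_, ht, cor_fa2 h⟩

theorem tch_fb {s : St} {K : Set (ℤ × ℤ)} (h : Adj s.1 s.2) (ht : Tch s K) :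
    ∃ v ∈ K, v ∈ cor (fb s) := by
  have h' : Adj (s.2, s.1).1 (s.2, s.1).2 := adj_symm h
  rcases ht with ht | ht
  · exact ⟨_, ht, cor_fa2 h'⟩
  · exact ⟨_, ht, cor_fa1 h'⟩

/-- The cochain of a piece of the interface vanishes between two vertices of the same sign. -/
theorem segc_zero {g : ℤ × ℤ → ℤ} {ρ : ℕ → St} {c d m : ℕ} (hd : d ≤ m)
    (hg : ∀ j ≤ m, Good g (ρ j)) {x y : ℤ × ℤ}
    (hxy : (0 < g x ∧ 0 < g y) ∨ (g x < 0 ∧ g y < 0)) : segc ρ c d x y = 0 := by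
  refine Finset.sum_eq_zero fun j hj => ?_
  have h1 := hg j (by have := (Finset.mem_Icc.1 hj).2; omega)
  refine ec_zero ?_
  rintro (⟨rfl, rfl⟩ | ⟨rfl, rfl⟩) <;> have h2 := h1.2.1 <;> have h3 := h1.2.2 <;> omega

/-- The value at an edge of the interface. -/
theorem segc_edge {g : ℤ × ℤ → ℤ} {ρ : ℕ → St} {c d m a : ℕ} (hd : d ≤ m) (ha : a ≤ m)
    (hg : ∀ j ≤ m, Good g (ρ j)) (hinj : ∀ i ≤ m, ∀ j ≤ m, ρ i = ρ j → i = j) :
    segc ρ c d (ρ a).1 (ρ a).2 = if c ≤ a ∧ a ≤ d then 1 else 0 := by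
  have key : ∀ j ≤ m, j ≠ a → ec s((ρ j).1, (ρ j).2) (ρ a).1 (ρ a).2 = 0 := by
    intro j hj hja
    have h1 := hg j hj
    have h2 := hg a ha
    refine ec_zero ?_
    rintro (⟨e1, e2⟩ | ⟨e1, e2⟩)
    · exact hja (hinj j hj a ha (Prod.ext e1.symm e2.symm))
    · have h3 := h1.2.2
      have h4 := h2.2.1
      rw [e1] at h4
      omega
  unfold segc
  split_ifs with h
  · rw [Finset.sum_eq_single a]
    · unfold ec
      rw [if_pos rfl]
    · intro j hj hja
      exact key j (by have := (Finset.mem_Icc.1 hj).2; omega) hja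
    · intro hc
      exact absurd (Finset.mem_Icc.2 h) hc
  · refine Finset.sum_eq_zero fun j hj => key j ?_ ?_
    · have := (Finset.mem_Icc.1 hj).2
      omega
    · rintro rfl
      exact h (Finset.mem_Icc.1 hj)

/-- **Parity.** -/
theorem no_three {g : ℤ × ℤ → ℤ} {ρ : ℕ → St} {m : ℕ} (hg : ∀ j ≤ m, Good g (ρ j))
    (hch : ∀ j < m, fb (ρ (j + 1)) = fa (ρ j)) (hinj : ∀ i ≤ m, ∀ j ≤ m, ρ i = ρ j → i = j)
    {Ki Ko Cp Cm : Set (ℤ × ℤ)} (hKi : Cn Ki) (hKo : Cn Ko) (hCp : ∀ v ∈ Cp, 0 < g v)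
    (hCm : ∀ v ∈ Cm, g v < 0) (hpi : Disjoint Cp Ki) (hpo : Disjoint Cp Ko) (hmi : Disjoint Cm Ki)
    (hmo : Disjoint Cm Ko) {c₁ d₁ c₃ d₃ a b : ℕ} (h₁ : c₁ ≤ d₁) (h₁m : d₁ ≤ m) (h₃ : c₃ ≤ d₃)
    (h₃m : d₃ ≤ m) (ha1 : c₁ ≤ a) (ha2 : a ≤ d₁) (ha3 : a < c₃ ∨ d₃ < a) (hb1 : b < c₁ ∨ d₁ < b)
    (hb3 : b < c₃ ∨ d₃ < b) (hbm : b ≤ m) (t₁ : Tch (ρ c₁) Ki) (t₁' : Tch (ρ d₁) Ko)
    (t₃ : Tch (ρ c₃) Ki) (t₃' : Tch (ρ d₃) Ko) (hl : Conn Cp (ρ a).1 (ρ b).1)
    (hr : Conn Cm (ρ a).2 (ρ b).2) : False := by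
  have hadj : ∀ j ≤ m, Adj (ρ j).1 (ρ j).2 := fun j hj => (hg j hj).1
  obtain ⟨v₁, hv₁, hv₁'⟩ := tch_fb (hadj c₁ (by omega)) t₁
  obtain ⟨v₃, hv₃, hv₃'⟩ := tch_fb (hadj c₃ (by omega)) t₃
  obtain ⟨w₁, hw₁, hw₁'⟩ := tch_fa (hadj d₁ h₁m) t₁'
  obtain ⟨w₃, hw₃, hw₃'⟩ := tch_fa (hadj d₃ h₃m) t₃'
  obtain ⟨p, p1, p2, p3⟩ := hug_of_conn (hKi v₁ hv₁ v₃ hv₃) hv₁' hv₃'
  obtain ⟨q, q1, q2, q3⟩ := hug_of_conn (hKo w₁ hw₁ w₃ hw₃) hw₁' hw₃'
  set e : ℤ × ℤ → ℤ × ℤ → ZMod 2 := fun x y =>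
    (segc ρ c₁ d₁ x y + segc ρ c₃ d₃ x y) + (p x y + q x y) with he
  have het : ∀ r, PLAN.tsum e r = 0 := by
    intro r
    have e1 : PLAN.tsum e r = (PLAN.tsum (segc ρ c₁ d₁) r + PLAN.tsum (segc ρ c₃ d₃) r) +
        (PLAN.tsum p r + PLAN.tsum q r) := by
      rw [← tsum_add, ← tsum_add, ← tsum_add]
    rw [e1, segc_tsum h₁ (fun j _ h => hadj j (by omega)) (fun j _ h => hch j (by omega)),
      segc_tsum h₃ (fun j _ h => hadj j (by omega)) (fun j _ h => hch j (by omega)), p2, q2]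
    have z1 := z2 (tind (fb (ρ c₁)) r)
    have z3 := z2 (tind (fa (ρ d₁)) r)
    have z4 := z2 (tind (fb (ρ c₃)) r)
    have z5 := z2 (tind (fa (ρ d₃)) r)
    linear_combination z1 + z3 + z4 + z5
  obtain ⟨U, hU⟩ := exists_cob e
    (fun x y => by
      show (segc ρ c₁ d₁ x y + segc ρ c₃ d₃ x y) + (p x y + q x y) =
        (segc ρ c₁ d₁ y x + segc ρ c₃ d₃ y x) + (p y x + q y x)
      rw [segc_symm ρ c₁ d₁ x y, segc_symm ρ c₃ d₃ x y, p1 x y, q1 x y])
    (fun i j => het ((i, j), false)) (fun i j => het ((i, j), true))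
  have hzero : ∀ (C : Set (ℤ × ℤ)), Disjoint C Ki → Disjoint C Ko →
      (∀ x ∈ C, ∀ y ∈ C, (0 < g x ∧ 0 < g y) ∨ (g x < 0 ∧ g y < 0)) → ∀ x y, Conn C x y →
      U x + U y = 0 := by
    intro C h1 h2 h3 x y hxy
    obtain ⟨t, ht⟩ := PJ.of_conn hxy e
    have h4 : t = 0 := by
      refine ht.zero fun u hu v hv => ?_
      show (segc ρ c₁ d₁ u v + segc ρ c₃ d₃ u v) + (p u v + q u v) = 0
      rw [segc_zero h₁m hg (h3 u hu v hv), segc_zero h₃m hg (h3 u hu v hv),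
        p3 u v (Set.disjoint_left.1 h1 hu) (Set.disjoint_left.1 h1 hv),
        q3 u v (Set.disjoint_left.1 h2 hu) (Set.disjoint_left.1 h2 hv)]
      simp
    rw [← ht.pot hU, h4]
  have k1 := hzero Cp hpi hpo (fun x hx y hy => Or.inl ⟨hCp x hx, hCp y hy⟩) _ _ hl
  have k2 := hzero Cm hmi hmo (fun x hx y hy => Or.inr ⟨hCm x hx, hCm y hy⟩) _ _ hr
  have k3 : e (ρ a).1 (ρ a).2 = 1 := by
    show (segc ρ c₁ d₁ (ρ a).1 (ρ a).2 + segc ρ c₃ d₃ (ρ a).1 (ρ a).2) +
      (p (ρ a).1 (ρ a).2 + q (ρ a).1 (ρ a).2) = 1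
    rw [segc_edge h₁m (by omega) hg hinj, segc_edge h₃m (by omega) hg hinj, if_pos ⟨ha1, ha2⟩,
      if_neg (by omega), p3 _ _ (Set.disjoint_left.1 hpi hl.left_mem)
        (Set.disjoint_left.1 hmi hr.left_mem), q3 _ _ (Set.disjoint_left.1 hpo hl.left_mem)
        (Set.disjoint_left.1 hmo hr.left_mem)]
    simp
  have k4 : e (ρ b).1 (ρ b).2 = 0 := by
    show (segc ρ c₁ d₁ (ρ b).1 (ρ b).2 + segc ρ c₃ d₃ (ρ b).1 (ρ b).2) +
      (p (ρ b).1 (ρ b).2 + q (ρ b).1 (ρ b).2) = 0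
    rw [segc_edge h₁m hbm hg hinj, segc_edge h₃m hbm hg hinj, if_neg (by omega),
      if_neg (by omega), p3 _ _ (Set.disjoint_left.1 hpi hl.right_mem)
        (Set.disjoint_left.1 hmi hr.right_mem), q3 _ _ (Set.disjoint_left.1 hpo hl.right_mem)
        (Set.disjoint_left.1 hmo hr.right_mem)]
    simp
  rw [hU _ _ (hadj a (by omega))] at k3
  rw [hU _ _ (hadj b hbm)] at k4
  have h5 : (1 : ZMod 2) = 0 := by
    linear_combination k1 + k2 - k3 - k4
  exact absurd h5 (by decide)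

end Vale.Agent.P153.R2.SLEX
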