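import Vale.Agent.P153.R2.SLEX.StrA
import Vale.Agent.P153.R2.SLEX.Count

/-!
P153, block SLEX, pieces X2 and X3, part 2: strands of the interface which cross a lattice annulus,
and the crossing components of the two signs.
-/

set_option autoImplicit false
set_option linter.unusedVariables false

namespace Vale.Agent.P153.R2.SLEX

open Set Relation
open Vale.Agent.P153 Vale.Agent.P153.R2
open Vale.Agent.P153.Topo (Conn adj_symm adj_iff)
open Vale.Agent.P153.R2.INTF (St fa fb ah nx Good)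
open Vale.Agent.P153.R2.LOC (An)

/-- The component of `v` in `A ∩ S` is next to `I` and next to `O`. -/
def Touch (A I O S : Set (ℤ × ℤ)) (v : ℤ × ℤ) : Prop :=
  (∃ u ∈ Nx I, Conn (A ∩ S) v u) ∧ ∃ z ∈ Nx O, Conn (A ∩ S) v z

theorem adj_bx {y a b : ℤ × ℤ} {r : ℤ} (h : Adj a b) (hb : b ∈ bx y r) : a ∈ bx y (r + 1) := by
  obtain ⟨a1, a2⟩ := a
  obtain ⟨b1, b2⟩ := b
  obtain ⟨y1, y2⟩ := y
  rw [adj_iff] at h
  simp only [bx, mem_ofPred_eq] at hb ⊢
  rw [abs_le, abs_le] at hb ⊢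
  dsimp only at h hb ⊢
  omega

/-- Vertices next to consecutive steps. -/
theorem nx_near {g : ℤ × ℤ → ℤ} {s : St} (hs : Adj s.1 s.2) {v w : ℤ × ℤ}
    (hw : w = s.1 ∨ w = s.2) (hv : v = (nx g s).1 ∨ v = (nx g s).2) : v = w ∨ Adj v w := by
  have h1 := INTF.ah_adj1 hs
  have h2 := INTF.ah_adj2 hs
  unfold nx at hv
  split_ifs at hv
  · rcases hv with rfl | rfl <;> rcases hw with rfl | rfl
    · exact Or.inr (adj_symm h1)
    · exact Or.inr h2
    · exact Or.inr (adj_symm hs)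
    · exact Or.inl rfl
  · rcases hv with rfl | rfl <;> rcases hw with rfl | rfl
    · exact Or.inl rfl
    · exact Or.inr hs
    · exact Or.inr (adj_symm h1)
    · exact Or.inr h2

/-- Consecutive left vertices are equal or neighbours. -/
theorem nx_left {g : ℤ × ℤ → ℤ} {s : St} (hs : Adj s.1 s.2) :
    (nx g s).1 = s.1 ∨ Adj s.1 (nx g s).1 := by
  unfold nx
  split_ifs
  · exact Or.inr (INTF.ah_adj1 hs)
  · exact Or.inl rfl

theorem nx_right {g : ℤ × ℤ → ℤ} {s : St} (hs : Adj s.1 s.2) :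
    (nx g s).2 = s.2 ∨ Adj s.2 (nx g s).2 := by
  unfold nx
  split_ifs
  · exact Or.inl rfl
  · exact Or.inr (adj_symm (INTF.ah_adj2 hs))

/-- A step of a strand with both vertices in crossing components of the annulus. -/
theorem strand {g : ℤ × ℤ → ℤ} {ρ : ℕ → St} {c d : ℕ} (hcd : c ≤ d)
    (hg : ∀ j, c ≤ j → j ≤ d → Good g (ρ j)) (hnx : ∀ j, c ≤ j → j < d → ρ (j + 1) = nx g (ρ j))
    {y : ℤ × ℤ} {r R : ℤ} (hrR : r < R) (hc1 : (ρ c).1 ∈ bx y r) (hc2 : (ρ c).2 ∈ bx y r)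
    (hd : Tch (ρ d) (bx y R)ᶜ) : ∃ a, c ≤ a ∧ a ≤ d ∧
      Touch (An y r R) (bx y r) (bx y R)ᶜ {v | 0 < g v} (ρ a).1 ∧
      Touch (An y r R) (bx y r) (bx y R)ᶜ {v | g v < 0} (ρ a).2 := by
  classical
  have hbb : bx y r ⊆ bx y R := PLAN.bx_mono hrR.le
  -- the last step which touches the inner box
  set P : ℕ → Prop := fun j => c ≤ j ∧ Tch (ρ j) (bx y r) with hP
  have hPc : P c := ⟨le_rfl, Or.inl hc1⟩
  set α := Nat.findGreatest P d with hα
  have hα1 : P α := Nat.findGreatest_spec hcd hPc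
  have hαd : α ≤ d := Nat.findGreatest_le d
  have hα2 : ∀ j, α < j → j ≤ d → ¬ Tch (ρ j) (bx y r) := fun j h1 h2 h3 =>
    Nat.findGreatest_is_greatest h1 h2 ⟨hα1.1.trans h1.le, h3⟩
  -- the first step after it which touches the outside of the outer box
  have hex : ∃ j, α < j ∧ Tch (ρ j) (bx y R)ᶜ := by
    refine ⟨d, lt_of_le_of_ne hαd ?_, hd⟩
    intro he
    -- an edge which touches both
    have ht := hα1.2
    rw [he] at ht
    have hadj := (hg d hcd le_rfl).1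
    have hr1 : bx y (r + 1) ⊆ bx y R := PLAN.bx_mono (by omega)
    rcases hd with h1 | h1 <;> rcases ht with h2 | h2
    · exact h1 (hbb h2)
    · exact h1 (hr1 (adj_bx hadj h2))
    · exact h1 (hr1 (adj_bx (adj_symm hadj) h2))
    · exact h1 (hbb h2)
  set β := Nat.find hex with hβ
  have hβ1 : α < β ∧ Tch (ρ β) (bx y R)ᶜ := Nat.find_spec hex
  have hβd : β ≤ d := by
    refine Nat.find_min' hex ⟨?_, hd⟩
    by_contra hcon
    obtain ⟨j, h1, h2⟩ := hex
    have he : α = d := by omega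
    have ht := hα1.2
    rw [he] at ht
    have hadj := (hg d hcd le_rfl).1
    have hr1 : bx y (r + 1) ⊆ bx y R := PLAN.bx_mono (by omega)
    rcases hd with h1 | h1 <;> rcases ht with h2 | h2
    · exact h1 (hbb h2)
    · exact h1 (hr1 (adj_bx hadj h2))
    · exact h1 (hr1 (adj_bx (adj_symm hadj) h2))
    · exact h1 (hbb h2)
  have hβ2 : ∀ j, α < j → j < β → ¬ Tch (ρ j) (bx y R)ᶜ := fun j h1 h2 h3 =>
    Nat.find_min hex h2 ⟨h1, h3⟩
  -- the step after `α`
  have hα3 : ∀ v, v = (ρ (α + 1)).1 ∨ v = (ρ (α + 1)).2 → ∃ w ∈ bx y r, Adj v w := by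
    intro v hv
    have hlt : α < d := hβ1.1.trans_le hβd
    have hadj := (hg α hα1.1 hαd).1
    have hno := hα2 (α + 1) (Nat.lt_succ_self α) hlt
    have hvr : v ∉ bx y r := by
      rcases hv with rfl | rfl
      · exact fun h => hno (Or.inl h)
      · exact fun h => hno (Or.inr h)
    rw [hnx α hα1.1 hlt] at hv
    rcases hα1.2 with h2 | h2
    · rcases nx_near hadj (Or.inl rfl) hv with h3 | h3
      · exact absurd (h3 ▸ h2) hvr
      · exact ⟨_, h2, h3⟩
    · rcases nx_near hadj (Or.inr rfl) hv with h3 | h3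
      · exact absurd (h3 ▸ h2) hvr
      · exact ⟨_, h2, h3⟩
  have hαβ : α + 1 < β := by
    refine lt_of_le_of_ne hβ1.1 ?_
    intro he
    have hr1 : bx y (r + 1) ⊆ bx y R := PLAN.bx_mono (by omega)
    have ht := hβ1.2
    rw [← he] at ht
    rcases ht with ht | ht
    · obtain ⟨w, hw, hvw⟩ := hα3 _ (Or.inl rfl)
      exact ht (hr1 (adj_bx hvw hw))
    · obtain ⟨w, hw, hvw⟩ := hα3 _ (Or.inr rfl)
      exact ht (hr1 (adj_bx hvw hw))
  -- the step before `β`
  obtain ⟨γ, hγ⟩ : ∃ γ, β = γ + 1 := ⟨β - 1, by omega⟩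
  have hβ3 : ∀ v, v = (ρ γ).1 ∨ v = (ρ γ).2 → ∃ w ∉ bx y R, Adj v w := by
    intro v hv
    have hcγ : c ≤ γ := by have := hα1.1; omega
    have hadj := (hg γ hcγ (by omega)).1
    have hno := hβ2 γ (by omega) (by omega)
    have hvR : v ∈ bx y R := by
      by_contra hcon
      rcases hv with rfl | rfl
      · exact hno (Or.inl hcon)
      · exact hno (Or.inr hcon)
    have ht := hβ1.2
    rw [hγ, hnx γ hcγ (by omega)] at ht
    rcases ht with ht | ht
    · rcases nx_near (g := g) hadj hv (Or.inl rfl) with h3 | h3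
      · exact absurd hvR (h3 ▸ ht)
      · exact ⟨_, ht, adj_symm h3⟩
    · rcases nx_near (g := g) hadj hv (Or.inr rfl) with h3 | h3
      · exact absurd hvR (h3 ▸ ht)
      · exact ⟨_, ht, adj_symm h3⟩
  -- the vertices between are in the annulus
  have hin : ∀ j, α < j → j < β → (ρ j).1 ∈ An y r R ∩ {v | 0 < g v} ∧
      (ρ j).2 ∈ An y r R ∩ {v | g v < 0} := by
    intro j h1 h2
    have h3 := hα2 j h1 (by omega)
    have h4 := hβ2 j h1 h2
    have h5 := hg j (by have := hα1.1; omega) (by omega)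
    refine ⟨⟨⟨?_, fun h => h3 (Or.inl h)⟩, h5.2.1⟩, ⟨⟨?_, fun h => h3 (Or.inr h)⟩, h5.2.2⟩⟩
    · by_contra hcon
      exact h4 (Or.inl hcon)
    · by_contra hcon
      exact h4 (Or.inr hcon)
  have hconn : ∀ j, α + 1 ≤ j → j < β →
      Conn (An y r R ∩ {v | 0 < g v}) (ρ (α + 1)).1 (ρ j).1 ∧
      Conn (An y r R ∩ {v | g v < 0}) (ρ (α + 1)).2 (ρ j).2 := by
    intro j h1
    induction j, h1 using Nat.le_induction with
    | base =>
      intro h2
      have h3 := hin (α + 1) (Nat.lt_succ_self α) h2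
      exact ⟨Conn.refl h3.1, Conn.refl h3.2⟩
    | succ j h1 ih =>
      intro h2
      obtain ⟨i1, i2⟩ := ih (by omega)
      have h3 := hin (j + 1) (by omega) h2
      have hcj : c ≤ j := by have := hα1.1; omega
      have hadj := (hg j hcj (by omega)).1
      have he := hnx j hcj (by omega)
      constructor
      · rcases nx_left (g := g) hadj with h4 | h4
        · rw [he, h4]
          exact i1
        · rw [← he] at h4
          exact i1.tail h4 h3.1
      · rcases nx_right (g := g) hadj with h4 | h4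
        · rw [he, h4]
          exact i2
        · rw [← he] at h4
          exact i2.tail h4 h3.2
  have h0 := hconn (α + 1) le_rfl hαβ
  have hγ' := hconn γ (by omega) (by omega)
  refine ⟨α + 1, by have := hα1.1; omega, by omega, ⟨?_, ?_⟩, ⟨?_, ?_⟩⟩
  · obtain ⟨w, hw, hvw⟩ := hα3 _ (Or.inl rfl)
    exact ⟨_, ⟨w, hw, adj_symm hvw⟩, h0.1⟩
  · obtain ⟨w, hw, hvw⟩ := hβ3 _ (Or.inl rfl)
    exact ⟨_, ⟨w, hw, adj_symm hvw⟩, hγ'.1⟩
  · obtain ⟨w, hw, hvw⟩ := hα3 _ (Or.inr rfl)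
    exact ⟨_, ⟨w, hw, adj_symm hvw⟩, h0.2⟩
  · obtain ⟨w, hw, hvw⟩ := hβ3 _ (Or.inr rfl)
    exact ⟨_, ⟨w, hw, adj_symm hvw⟩, hγ'.2⟩

/-- Few components: the map to the components has few values. -/
theorem crs_or {A I O S : Set (ℤ × ℤ)} {n m : ℕ} {v : Fin n → ℤ × ℤ}
    (hv : ∀ i, Touch A I O S (v i)) (hm : ¬ Crs A I O S (m + 1)) :
    ∃ f : Fin n → Fin m, ∀ i j, f i = f j → Conn (A ∩ S) (v i) (v j) := by
  classical
  have hmem : ∀ i, v i ∈ A ∩ S := fun i => by
    obtain ⟨⟨a, _, h⟩, -⟩ := hv i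
    exact h.left_mem
  let s : Setoid (Fin n) := ⟨fun i j => Conn (A ∩ S) (v i) (v j),
    ⟨fun i => Conn.refl (hmem i), fun h => h.symm, fun h h' => h.trans h'⟩⟩
  have hrel : ∀ a b : Quotient s, Conn (A ∩ S) (v a.out) (v b.out) → a = b := by
    intro a b h
    have h1 : s a.out b.out := h
    rw [← Quotient.out_eq a, ← Quotient.out_eq b]
    exact Quotient.sound h1
  have hcard : Fintype.card (Quotient s) ≤ m := by
    by_contra hcon
    push Not at hcon
    obtain ⟨e⟩ : Nonempty (Fin (m + 1) ↪ Quotient s) := by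
      refine Function.Embedding.nonempty_of_card_le ?_
      rw [Fintype.card_fin]
      exact hcon
    exact hm ⟨fun i => v (e i).out, fun i => hv _, fun i j hij h => hij (e.injective (hrel _ _ h))⟩
  obtain ⟨e⟩ : Nonempty (Quotient s ↪ Fin m) := by
    refine Function.Embedding.nonempty_of_card_le ?_
    rw [Fintype.card_fin]
    exact hcard
  refine ⟨fun i => e (Quotient.mk s i), fun i j hij => ?_⟩
  exact Quotient.exact (e.injective hij)

/-- **Many strands give many components** of one of the two signs. -/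
theorem strands_many {g : ℤ × ℤ → ℤ} {ρ : ℕ → St} {m : ℕ} (hg : ∀ j ≤ m, Good g (ρ j))
    (hnx : ∀ j < m, ρ (j + 1) = nx g (ρ j)) (hinj : ∀ i ≤ m, ∀ j ≤ m, ρ i = ρ j → i = j)
    {y : ℤ × ℤ} {r R : ℤ} (hrR : r < R) {M K : ℕ} (hK : M ^ 2 + 3 ≤ K) {c d : Fin K → ℕ}
    (hcd : ∀ i, c i ≤ d i) (hdm : ∀ i, d i ≤ m) (hdc : ∀ i j : Fin K, i < j → d i < c j)
    (hc1 : ∀ i, (ρ (c i)).1 ∈ bx y r) (hc2 : ∀ i, (ρ (c i)).2 ∈ bx y r)
    (hd : ∀ i, Tch (ρ (d i)) (bx y R)ᶜ) :
    Crs (An y r R) (bx y r) (bx y R)ᶜ {v | 0 < g v} (M + 1) ∨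
      Crs (An y r R) (bx y r) (bx y R)ᶜ {v | g v < 0} (M + 1) := by
  classical
  have hch : ∀ j < m, fb (ρ (j + 1)) = fa (ρ j) := fun j hj => by
    rw [hnx j hj]
    exact INTF.fb_nx (hg j hj.le).1
  have hs : ∀ i : Fin K, ∃ a, c i ≤ a ∧ a ≤ d i ∧
      Touch (An y r R) (bx y r) (bx y R)ᶜ {v | 0 < g v} (ρ a).1 ∧
      Touch (An y r R) (bx y r) (bx y R)ᶜ {v | g v < 0} (ρ a).2 := fun i =>
    strand (hcd i) (fun j _ h => hg j (h.trans (hdm i)))
      (fun j _ h => hnx j (h.trans_le (hdm i))) hrR (hc1 i) (hc2 i) (hd i)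
  choose a ha1 ha2 ha3 ha4 using hs
  by_contra hcon
  rw [not_or] at hcon
  obtain ⟨f, hf⟩ := crs_or (v := fun i => (ρ (a i)).1) ha3 hcon.1
  obtain ⟨f', hf'⟩ := crs_or (v := fun i => (ρ (a i)).2) ha4 hcon.2
  have hlt : Fintype.card (Fin M × Fin M) < Fintype.card (Fin K) := by
    rw [Fintype.card_prod, Fintype.card_fin, Fintype.card_fin]
    nlinarith
  obtain ⟨i, j, hij, he⟩ := Fintype.exists_ne_map_eq_of_card_lt (fun i => (f i, f' i)) hlt
  rw [Prod.mk.injEq] at he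
  -- a third strand
  obtain ⟨k, hki, hkj⟩ : ∃ k : Fin K, k ≠ i ∧ k ≠ j := by
    by_contra hno
    push Not at hno
    have h1 : (Finset.univ : Finset (Fin K)) ⊆ {i, j} := by
      intro k _
      rw [Finset.mem_insert, Finset.mem_singleton]
      by_cases hk : k = i
      · exact Or.inl hk
      · exact Or.inr (hno k hk)
    have h2 := Finset.card_le_card h1
    rw [Finset.card_univ, Fintype.card_fin] at h2
    have h3 := Finset.card_le_two (a := i) (b := j)
    omega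
  have hord : ∀ i j : Fin K, i ≠ j → ∀ b, c i ≤ b → b ≤ d i → b < c j ∨ d j < b := by
    intro i j hij b h1 h2
    rcases lt_or_gt_of_ne hij with h | h
    · exact Or.inl (h2.trans_lt (hdc i j h))
    · exact Or.inr ((hdc j i h).trans_le h1)
  refine no_three hg hch hinj (Ki := bx y r) (Ko := (bx y R)ᶜ) (PLAN.cn_bx y r)
    (PLAN.cn_compl_bx y R) (Cp := An y r R ∩ {v | 0 < g v}) (Cm := An y r R ∩ {v | g v < 0})
    (fun v hv => hv.2) (fun v hv => hv.2) ?_ ?_ ?_ ?_ (hcd i) (hdm i) (hcd k) (hdm k)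
    (ha1 i) (ha2 i) (hord i k (Ne.symm hki) _ (ha1 i) (ha2 i))
    (hord j i (Ne.symm hij) _ (ha1 j) (ha2 j)) (hord j k (Ne.symm hkj) _ (ha1 j) (ha2 j))
    ((ha2 j).trans (hdm j)) (Or.inl (hc1 i)) (hd i) (Or.inl (hc1 k)) (hd k) (hf i j he.1)
    (hf' i j he.2)
  · rw [Set.disjoint_left]
    exact fun v hv h => hv.1.2 h
  · rw [Set.disjoint_left]
    exact fun v hv h => h hv.1.1
  · rw [Set.disjoint_left]
    exact fun v hv h => hv.1.2 h
  · rw [Set.disjoint_left]
    exact fun v hv h => h hv.1.1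

end Vale.Agent.P153.R2.SLEX
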