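import Vale.Agent.P153.R2.SLEX.StrB
import Vale.Agent.P153.R2.SLEX.BdpB

/-!
P153, block SLEX, pieces X2 and X3, part 3: crossings of an annulus by the interface give crossing
components of a lattice annulus.
-/

set_option autoImplicit false
set_option linter.unusedVariables false

namespace Vale.Agent.P153.R2.SLEX

open Filter Topology Set Metric
open Vale.Agent.P145.PT Vale.Agent.P153 Vale.Agent.P153.F.Top Vale.Agent.P153.R2.FLDI
open Vale.Agent.P153.Topo (Conn adj_symm)
open Vale.Agent.P153.R2.UNIQ (Hg)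
open Vale.Agent.P153.R2.INTF (St run fa fb ah nx Good)
open Vale.Agent.P153.R2.DRV (ru nu st sg sh pl Cs Pos)
open Vale.Agent.P153.R2.LOC (An ds mem_bx_iff)

section Lattice

variable {n k : ℕ} {p : ZMod n → ℤ × ℤ} {S : Finset Final.Tri} {δ : ℝ} {g h : Hg}

theorem crs_congr {A I O S S' : Set (ℤ × ℤ)} {k : ℕ} (h : A ∩ S = A ∩ S')
    (hc : Crs A I O S k) : Crs A I O S' k := by
  unfold Crs at hc ⊢
  rw [← h]
  exact hc

/-- **Crossings of the interface give crossing components**, for the signed heights. -/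
theorem cross_signed (hδ : 0 < δ) (hp : Final.IsPolygon p) (hS : Final.Encloses p S) (hk : 0 < k)
    (hkn : k < n) (hh : h ∈ Final.Heights p k S) {x : C(unitInterval, ℂ)}
    (hx : Final.IsInterface p k S δ h x) {y : ℤ × ℤ} {r R : ℤ} (hrR : r < R) {w : ℂ} {s s' : ℝ}
    (h1 : ∀ v : ℤ × ℤ, dist (Final.toC (dp δ v)) w ≤ s + 2 * δ → v ∈ bx y r)
    (h2 : ∀ v ∈ bx y R, dist (Final.toC (dp δ v)) w < s' - 2 * δ) {m M : ℕ}
    (hm : M ^ 2 + 3 ≤ m) (hc : C1.Cross x w s s' m) :
    Crs (An y r R) (bx y r) (bx y R)ᶜ {v | 0 < sh p S h v} (M + 1) ∨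
      Crs (An y r R) (bx y r) (bx y R)ᶜ {v | sh p S h v < 0} (M + 1) := by
  have hg := DRV.sh_mem hp hS hh
  obtain ⟨-, -, -, -, -, hcan⟩ := POLY.s_can n k p S δ hδ hk hkn hp hS h hh
  obtain ⟨σ, -, hσ2, hσ0, hσ1, hσ⟩ := hcan x hx
  set g := sh p S h with hgd
  obtain ⟨t, ht, hcr⟩ := hc
  have hσ0' : ∀ u, 0 ≤ σ u := fun u => by
    rw [← hσ0]
    exact hσ2.monotone (unitInterval.nonneg u)
  have hσ1' : ∀ u, σ u ≤ nu p S g := fun u => by
    rw [← hσ1]
    exact hσ2.monotone (unitInterval.le_one u)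
  set c : ℕ → ℕ := fun i => ⌊σ (t i)⌋₊ with hcd
  have hcm : Monotone c := fun i j hij => Nat.floor_mono (hσ2.monotone (ht hij))
  have hcn : ∀ i, c i ≤ nu p S g := fun i => by
    have := Nat.floor_mono (hσ1' (t i))
    rwa [Nat.floor_natCast] at this
  -- the states
  have hin : ∀ i < m, (ru p S g (c (2 * i))).1 ∈ bx y r ∧ (ru p S g (c (2 * i))).2 ∈ bx y r := by
    intro i hi
    have h3 := (hcr i hi).1
    rw [hσ] at h3
    constructor
    · refine h1 _ ?_
      have h4 := pl_near hδ.le hp hS hk hkn hg (hσ0' (t (2 * i))) (Or.inl rfl)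
      have h5 := dist_triangle (Final.toC (dp δ (ru p S g (c (2 * i))).1))
        (pl δ (ru p S g) (σ (t (2 * i)))) w
      linarith
    · refine h1 _ ?_
      have h4 := pl_near hδ.le hp hS hk hkn hg (hσ0' (t (2 * i))) (Or.inr rfl)
      have h5 := dist_triangle (Final.toC (dp δ (ru p S g (c (2 * i))).2))
        (pl δ (ru p S g) (σ (t (2 * i)))) w
      linarith
  have hout : ∀ i < m, (ru p S g (c (2 * i + 1))).1 ∉ bx y R := by
    intro i hi hv
    have h3 := (hcr i hi).2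
    rw [hσ] at h3
    have h4 := pl_near hδ.le hp hS hk hkn hg (hσ0' (t (2 * i + 1))) (Or.inl rfl)
    have h5 := dist_triangle_left (pl δ (ru p S g) (σ (t (2 * i + 1)))) w
      (Final.toC (dp δ (ru p S g (c (2 * i + 1))).1))
    have h6 := h2 _ hv
    linarith
  obtain ⟨hal, hst⟩ := DRV.nu_spec hp hS hk hkn hg
  refine strands_many (ρ := ru p S g) (m := nu p S g) (K := m)
    (fun j _ => DRV.ru_good hp hS hk hkn hg j) (fun j hj => INTF.run_succ (hal j hj))
    (fun i hi j hj he => INTF.run_inj (DRV.NZ_Cs hg) (DRV.st_good hp hS hk hkn hg)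
      (DRV.st_face hp hS).2 hal hi hj he) hrR hm (c := fun i => c (2 * i))
    (d := fun i => c (2 * i + 1)) (fun i => hcm (by omega)) (fun i => hcn _) ?_
    (fun i => (hin i i.2).1) (fun i => (hin i i.2).2) (fun i => Or.inl (hout i i.2))
  intro i j hij
  have hij' : (i : ℕ) < j := hij
  have h3 : c (2 * i + 1) ≤ c (2 * j) := hcm (by omega)
  refine lt_of_le_of_ne h3 fun he => ?_
  have h4 := hout i i.2
  rw [he] at h4
  exact h4 (PLAN.bx_mono hrR.le (hin j j.2).1)

/-- **Crossings of the interface give crossing components.** -/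
theorem cross_crs (hδ : 0 < δ) (hp : Final.IsPolygon p) (hS : Final.Encloses p S) (hk : 0 < k)
    (hkn : k < n) (hg : g ∈ FLDI.CA p k S) {x : C(unitInterval, ℂ)}
    (hx : Final.IsInterface p k S δ (cut0 S g) x) {y : ℤ × ℤ} {r R : ℤ} (hrR : r < R)
    (hb : bx y R ⊆ inn p S) {w : ℂ} {s s' : ℝ}
    (h1 : ∀ v : ℤ × ℤ, dist (Final.toC (dp δ v)) w ≤ s + 2 * δ → v ∈ bx y r)
    (h2 : ∀ v ∈ bx y R, dist (Final.toC (dp δ v)) w < s' - 2 * δ) {m M : ℕ}
    (hm : M ^ 2 + 3 ≤ m) (hc : C1.Cross x w s s' m) :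
    Crs (An y r R) (bx y r) (bx y R)ᶜ (up g 1) (M + 1) ∨
      Crs (An y r R) (bx y r) (bx y R)ᶜ (dn g (-1)) (M + 1) := by
  have hgH : cut0 S g ∈ Final.Heights p k S := by
    rw [heightsF]
    exact (ca_bij (polyF hp) (enclF hS) k).mapsTo hg
  have hval : ∀ v ∈ An y r R, sh p S (cut0 S g) v = sg p S * g v ∧ Odd (g v) := by
    intro v hv
    have hv' : v ∈ Final.verts S := (mem_inn.1 (hb hv.1)).1
    rw [DRV.sh_in hv', cut0_in hv']
    exact ⟨rfl, Cfg.odd hg v⟩
  have key := cross_signed hδ hp hS hk hkn hgH hx hrR h1 h2 hm hc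
  rcases DRV.sg_cases p S with e | e
  · have e1 : An y r R ∩ {v | 0 < sh p S (cut0 S g) v} = An y r R ∩ up g 1 := by
      ext v
      refine and_congr_right fun hv => ?_
      obtain ⟨h3, -⟩ := hval v hv
      rw [mem_ofPred_eq, h3, e, one_mul]
      exact Iff.rfl
    have e2 : An y r R ∩ {v | sh p S (cut0 S g) v < 0} = An y r R ∩ dn g (-1) := by
      ext v
      refine and_congr_right fun hv => ?_
      obtain ⟨h3, -⟩ := hval v hv
      rw [mem_ofPred_eq, h3, e, one_mul]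
      unfold dn
      rw [mem_ofPred_eq]
      omega
    rcases key with h | h
    · exact Or.inl (crs_congr e1 h)
    · exact Or.inr (crs_congr e2 h)
  · have e1 : An y r R ∩ {v | 0 < sh p S (cut0 S g) v} = An y r R ∩ dn g (-1) := by
      ext v
      refine and_congr_right fun hv => ?_
      obtain ⟨h3, -⟩ := hval v hv
      rw [mem_ofPred_eq, h3, e, neg_one_mul]
      unfold dn
      rw [mem_ofPred_eq]
      omega
    have e2 : An y r R ∩ {v | sh p S (cut0 S g) v < 0} = An y r R ∩ up g 1 := by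
      ext v
      refine and_congr_right fun hv => ?_
      obtain ⟨h3, -⟩ := hval v hv
      rw [mem_ofPred_eq, h3, e, neg_one_mul]
      unfold up
      rw [mem_ofPred_eq]
      omega
    rcases key with h | h
    · exact Or.inr (crs_congr e1 h)
    · exact Or.inl (crs_congr e2 h)

end Lattice

/-! ### The approximations -/

theorem toC_le_dist (a b : ℝ × ℝ) : dist (Final.toC a) (Final.toC b) ≤ 2 * dist a b := by
  rw [Prod.dist_eq, Complex.dist_eq]
  refine (Complex.norm_le_abs_re_add_abs_im _).trans ?_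
  have h1 : |(Final.toC a - Final.toC b).re| ≤ max (dist a.1 b.1) (dist a.2 b.2) :=
    le_max_left (dist a.1 b.1) (dist a.2 b.2)
  have h2 : |(Final.toC a - Final.toC b).im| ≤ max (dist a.1 b.1) (dist a.2 b.2) :=
    le_max_right (dist a.1 b.1) (dist a.2 b.2)
  linarith

variable {Φ : (ℝ × ℝ) ≃ₜ (ℝ × ℝ)} {δ : ℕ → ℝ} {N k : ℕ → ℕ}
  {p : ∀ n, ZMod (N n) → ℤ × ℤ} {S : ℕ → Finset ((ℤ × ℤ) × Bool)}

/-- The ratio of the radii in the plane. -/
noncomputable def ratio (K : ℕ) : ℝ := 40 * (K + 1)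

/-- **X2 + X3.** Eventually, crossings of the annulus with radii `ρ`, `ratio K * ρ` inside the
domain by the interface give crossing components of a lattice annulus. -/
theorem cross_ev (h : Final.Approx Φ δ N k p S) {x : ∀ n : ℕ, Hg → C(unitInterval, ℂ)}
    (hx : ∀ n, ∀ h ∈ Final.Heights (p n) (k n) (S n),
      Final.IsInterface (p n) (k n) (S n) (δ n) h (x n h)) (K : ℕ) (hK : 1 ≤ K) {w : ℂ} {ρ : ℝ}
    (hρ : 0 < ρ) (hball : closedBall w (ratio K * ρ) ⊆ Final.toC '' Final.dom Φ) :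
    ∀ᶠ n in atTop, ∃ (y : Pt) (r : ℕ) (R : ℤ), R = K * (2 * r) + 2 * r ∧ 2 * ρ / δ n ≤ r ∧
      (r : ℝ) ≤ 3 * ρ / δ n ∧ dist (Final.toC (dp (δ n) y)) w ≤ 4 * δ n ∧
      bx y (R + 1) ⊆ inn (p n) (S n) ∧
      ∀ g ∈ FLDI.CA (p n) (k n) (S n), ∀ m M : ℕ, M ^ 2 + 3 ≤ m →
        C1.Cross (x n (cut0 (S n) g)) w ρ (ratio K * ρ) m →
        Crs (An y r R) (bx y r) (bx y R)ᶜ (up g 1) (M + 1) ∨
          Crs (An y r R) (bx y r) (bx y R)ᶜ (dn g (-1)) (M + 1) := by
  have hA := approxF h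
  have hK' : (1 : ℝ) ≤ K := by exact_mod_cast hK
  set W : ℝ × ℝ := (w.re, w.im) with hW
  have hWw : Final.toC W = w := rfl
  -- the compact set
  have hcpt : IsCompact (Final.toC ⁻¹' closedBall w (ratio K * ρ)) := by
    refine Metric.isCompact_of_isClosed_isBounded ?_ ?_
    · refine isClosed_closedBall.preimage ?_
      have : Final.toC = fun z : ℝ × ℝ => (z.1 : ℂ) + z.2 * Complex.I := by
        funext z
        apply Complex.ext <;> simp [Final.toC]
      rw [this]
      fun_prop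
    · refine (Metric.isBounded_closedBall (x := W) (r := ratio K * ρ)).subset ?_
      intro z hz
      rw [mem_closedBall]
      refine (dist_le_toC z W).trans ?_
      rw [hWw]
      exact hz
  have hsub : Final.toC ⁻¹' closedBall w (ratio K * ρ) ⊆ Final.dom Φ := by
    intro z hz
    obtain ⟨z', hz', he⟩ := hball hz
    have : z' = z := by
      have h1 := congrArg Complex.re he
      have h2 := congrArg Complex.im he
      exact Prod.ext h1 h2
    rwa [this] at hz'
  have h2 : ∀ᶠ n in atTop, δ n < ρ / 100 := hA.lim.eventually (gt_mem_nhds (by positivity))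
  filter_upwards [ev_inner h hcpt hsub, h2] with n g1 g2
  have hδ := hA.pos n
  -- the centre
  obtain ⟨y, hy⟩ := ng_nonempty (lc (δ n) W)
  have hyW : dist (dp (δ n) y) W ≤ 2 * δ n := ng_near hδ hy
  have hyw : dist (Final.toC (dp (δ n) y)) w ≤ 4 * δ n := by
    rw [← hWw]
    exact (toC_le_dist _ _).trans (by linarith)
  set r : ℕ := ⌈2 * ρ / δ n + 12⌉₊ with hr
  set R : ℤ := K * (2 * r) + 2 * r with hR
  have hr1 : 2 * ρ / δ n + 12 ≤ r := Nat.le_ceil _
  have hr2 : (r : ℝ) < 2 * ρ / δ n + 12 + 1 := Nat.ceil_lt_add_one (by positivity)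
  have hrδ : (r : ℝ) * δ n ≤ 2 * ρ + 13 * δ n := by
    have h3 : (r : ℝ) * δ n ≤ (2 * ρ / δ n + 12 + 1) * δ n :=
      mul_le_mul_of_nonneg_right hr2.le hδ.le
    have h4 : (2 * ρ / δ n + 12 + 1) * δ n = 2 * ρ + 13 * δ n := by
      field_simp
      ring
    linarith
  have hrρ : (r : ℝ) * δ n ≤ 3 * ρ := by linarith
  have hRr : ((r : ℤ)) < R := by
    have : (0 : ℤ) < r := by
      have h3 : (0 : ℝ) < r := by
        have : 0 < 2 * ρ / δ n := by positivity
        linarith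
      exact_mod_cast h3
    have hK0 : (0 : ℤ) ≤ K := by positivity
    rw [hR]
    nlinarith
  -- the points of the outer box
  have hbox : ∀ v ∈ bx y (R + 1), dist (Final.toC (dp (δ n) v)) w < ratio K * ρ - 2 * δ n := by
    intro v hv
    rw [mem_bx_iff] at hv
    have h3 := dist_le_ds hδ hv
    have h4 := toC_le_dist (dp (δ n) v) (dp (δ n) y)
    have h5 := dist_triangle (Final.toC (dp (δ n) v)) (Final.toC (dp (δ n) y)) w
    have h6 : ((R + 1 : ℤ) : ℝ) = 2 * (K + 1) * r + 1 := by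
      rw [hR]
      push_cast
      ring
    rw [h6] at h3
    have h7 : 3 / 2 * δ n * (2 * (K + 1) * r + 1) = 3 * (K + 1) * (r * δ n) + 3 / 2 * δ n := by
      ring
    rw [h7] at h3
    have h8 : 3 * (K + 1) * (r * δ n) ≤ 3 * (K + 1) * (3 * ρ) :=
      mul_le_mul_of_nonneg_left hrρ (by positivity)
    have h9 : ratio K * ρ = 40 * (K + 1) * ρ := rfl
    rw [h9]
    nlinarith
  have hinn : bx y (R + 1) ⊆ inn (p n) (S n) := by
    intro v hv
    refine Finset.mem_coe.2 (g1 v ?_)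
    show Final.toC (dp (δ n) v) ∈ closedBall w (ratio K * ρ)
    rw [mem_closedBall]
    linarith [hbox v hv]
  refine ⟨y, r, R, rfl, by linarith, ?_, hyw, hinn, ?_⟩
  · rw [le_div_iff₀ hδ]
    exact hrρ
  · intro g hg m M hm hc
    have hgH : cut0 (S n) g ∈ Final.Heights (p n) (k n) (S n) := by
      rw [heightsF]
      exact (ca_bij (polyF (h.1 n).2.2.2.1) (enclF (h.1 n).2.2.2.2) (k n)).mapsTo hg
    have hb1 : bx y R ⊆ bx y (R + 1) := PLAN.bx_mono (by omega)
    refine cross_crs hδ (h.1 n).2.2.2.1 (h.1 n).2.2.2.2 (h.1 n).2.1 (h.1 n).2.2.1 hg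
      (hx n _ hgH) hRr (hb1.trans hinn) ?_ (fun v hv => hbox v (hb1 hv)) hm hc
    intro v hv
    rw [mem_bx_iff]
    refine ds_le_of_dist hδ ?_
    have h3 : dist (dp (δ n) v) (dp (δ n) y) ≤ ρ + 6 * δ n := by
      refine (dist_le_toC _ _).trans ?_
      have h4 := dist_triangle_right (Final.toC (dp (δ n) v)) (Final.toC (dp (δ n) y)) w
      linarith
    have h5 : 2 * dist (dp (δ n) v) (dp (δ n) y) / δ n ≤ 2 * ρ / δ n + 12 := by
      rw [div_add' _ _ _ hδ.ne']
      refine div_le_div_of_nonneg_right ?_ hδ.le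
      linarith
    have h6 := h5.trans hr1
    exact_mod_cast h6

end Vale.Agent.P153.R2.SLEX
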