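import Vale.Agent.P153.R2.SLEX.Count
import Vale.Agent.P153.R2.LAND.Miss

/-!
# P153-R2, block SLEX: one block with a ratio which does not depend on the level (part A)
-/

namespace Vale.Agent.P153.R2.SLEX

open Set Relation
open Vale.Agent.P153
open Vale.Agent.P153.Topo (Conn adj_symm)
open Vale.Agent.P153.R2
open Vale.Agent.P153.R2.LOC (An Blk NO SepA LW ds dep hL mem_bx_iff mem_An_iff ds_adj dep_adj
  hL_mem hL_Cfg Dat_LW SepA_congr mem_ebd_of_adj)
open scoped Classical

variable {V X : Set Pt} {I : Pt → Set ℤ} {x₀ p q x y : Pt} {r R K : ℤ} {i : ℕ} {g h g₀ : Hg}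
  {α : ℝ}

theorem rpl_in {J : Pt → Set ℤ} (hx : x ∈ X) : rpl I X J x = J x := if_pos hx
theorem rpl_out {J : Pt → Set ℤ} (hx : x ∉ X) : rpl I X J x = I x := if_neg hx

theorem fib_rpl (hh : h ∈ Cfg V I) :
    Cfg V I ∩ {g | ∀ x ∈ X, g x = h x} = Cfg V (rpl I X fun x => {h x}) := by
  ext g
  constructor
  · rintro ⟨hg, hg'⟩
    refine ⟨hg.1, fun x => ?_, hg.2.2⟩
    by_cases hx : x ∈ X
    · rw [rpl_in hx]
      exact hg' x hx
    · rw [rpl_out hx]
      exact hg.2.1 x
  · intro hg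
    have h1 : ∀ x ∈ X, g x = h x := fun x hx => by
      have := hg.2.1 x
      rw [rpl_in hx] at this
      exact this
    refine ⟨⟨hg.1, fun x => ?_, hg.2.2⟩, h1⟩
    by_cases hx : x ∈ X
    · rw [h1 x hx]
      exact hh.2.1 x
    · have := hg.2.1 x
      rwa [rpl_out hx] at this

/-- The revealed heights may be changed, except next to the other sites. -/
theorem Pr_rpl (hh : h ∈ Cfg V I) (ho : ∀ x, Odd (g₀ x))
    (hl : ∀ x ∈ V, ∀ y, Adj x y → |g₀ x - g₀ y| ≤ 2)
    (hX : ∀ x ∈ X, ∀ y, y ∉ X → Adj x y → (x ∈ V ∨ y ∈ V) → g₀ x = h x) {E : Set Hg}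
    (hE : ∀ g g' : Hg, (∀ x, x ∉ X → g x = g' x) → (g ∈ E ↔ g' ∈ E)) :
    Pr (Cfg V (rpl I X fun x => {g₀ x})) E = Pr (Cfg V (rpl I X fun x => {h x})) E := by
  have key : ∀ g₁ g₂ : Hg, (∀ x, Odd (g₂ x)) → (∀ x ∈ V, ∀ y, Adj x y → |g₂ x - g₂ y| ≤ 2) →
      (∀ x ∈ X, ∀ y, y ∉ X → Adj x y → (x ∈ V ∨ y ∈ V) → g₂ x = g₁ x) →
      MapsTo (fun (g : Hg) (x : Pt) => if x ∈ X then g₂ x else g x)
        (Cfg V (rpl I X fun x => {g₁ x})) (Cfg V (rpl I X fun x => {g₂ x})) := by
    intro g₁ g₂ ho hl hX g hg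
    have hgX : ∀ x ∈ X, g x = g₁ x := fun x hx => by
      have := hg.2.1 x
      rw [rpl_in hx] at this
      exact this
    refine ⟨fun x => ?_, fun x => ?_, fun x hx y hxy => ?_⟩
    · dsimp only
      split_ifs
      · exact ho x
      · exact hg.1 x
    · by_cases h1 : x ∈ X
      · rw [rpl_in h1]
        dsimp only
        rw [if_pos h1]
        rfl
      · rw [rpl_out h1]
        dsimp only
        rw [if_neg h1]
        have := hg.2.1 x
        rwa [rpl_out h1] at this
    · dsimp only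
      by_cases h1 : x ∈ X
      · by_cases h2 : y ∈ X
        · rw [if_pos h1, if_pos h2]
          exact hl x hx y hxy
        · rw [if_pos h1, if_neg h2, hX x h1 y h2 hxy (Or.inl hx), ← hgX x h1]
          exact hg.2.2 x hx y hxy
      · by_cases h2 : y ∈ X
        · rw [if_neg h1, if_pos h2, hX y h2 x h1 (adj_symm hxy) (Or.inr hx), ← hgX y h2]
          exact hg.2.2 x hx y hxy
        · rw [if_neg h1, if_neg h2]
          exact hg.2.2 x hx y hxy
  symm
  refine MULT.Pr_bij (fun (g : Hg) (x : Pt) => if x ∈ X then h x else g x) ⟨?_, ?_, ?_⟩ ?_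
  · exact key g₀ h hh.1 hh.2.2 fun x hx y hy hxy hv => (hX x hx y hy hxy hv).symm
  · intro a ha b hb hab
    funext x
    by_cases hx : x ∈ X
    · have h1 := ha.2.1 x
      have h2 := hb.2.1 x
      rw [rpl_in hx] at h1 h2
      rw [mem_singleton_iff.1 h1, mem_singleton_iff.1 h2]
    · have := congrFun hab x
      dsimp only at this
      rwa [if_neg hx, if_neg hx] at this
  · intro g hg
    refine ⟨fun x => if x ∈ X then g₀ x else g x, key h g₀ ho hl hX hg, ?_⟩
    funext x
    dsimp only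
    by_cases hx : x ∈ X
    · rw [if_pos hx]
      have h1 := hg.2.1 x
      rw [rpl_in hx] at h1
      exact (mem_singleton_iff.1 h1).symm
    · rw [if_neg hx, if_neg hx]
  · intro g _
    apply hE
    intro x hx
    rw [if_neg hx]

/-! ### The data of the lowest law -/

theorem LW_ebd (h1 : x ∈ ebd V) (h2 : (i : ℤ) < dep x₀ r R x) : LW i V x₀ r R x = {-1, 1} := by
  unfold LW
  rw [if_neg h1.1, if_pos h1, if_neg (by omega), if_neg (by omega)]

theorem LW_deep (h1 : x ∉ V) (h2 : (i : ℤ) < dep x₀ r R x) {a : ℤ} (ha : a ∈ LW i V x₀ r R x) :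
    a = -1 ∨ a = 1 := by
  by_cases h3 : x ∈ ebd V
  · rw [LW_ebd h3 h2] at ha
    exact ha
  · unfold LW at ha
    rw [if_neg h1, if_neg h3, mem_singleton_iff] at ha
    left
    rw [ha]
    unfold hL
    omega

/-- Bounds off the free sites. -/
theorem LW_bd (h1 : x ∉ V ∨ x ∉ An x₀ r R) {a : ℤ} (ha : a ∈ LW i V x₀ r R x) :
    -(2 * (i : ℤ) + 1) ≤ a ∧ a ≤ 2 * i + 1 := by
  unfold LW at ha
  split_ifs at ha with h2 h3 h4 h5 h6
  · exact absurd h1 (not_or.2 ⟨fun h => h h2, fun h => h h3⟩)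
  · simp only [mem_insert_iff, mem_singleton_iff] at ha
    omega
  · simp only [mem_insert_iff, mem_singleton_iff] at ha
    omega
  · rw [mem_singleton_iff] at ha
    omega
  · simp only [mem_insert_iff, mem_singleton_iff] at ha
    omega
  · rw [mem_singleton_iff] at ha
    unfold hL at ha
    omega

/-- The data are symmetric or negative. -/
theorem LW_sd (hi : 1 ≤ i) : Sd 0 (-1) (LW i V x₀ r R x) := by
  unfold LW
  split_ifs with h2 h3 h4 h5 h6
  · exact Or.inr fun a _ _ => mem_univ _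
  · left
    intro a ha _
    simp only [mem_insert_iff, mem_singleton_iff] at ha
    omega
  · left
    intro a ha _
    simp only [mem_insert_iff, mem_singleton_iff] at ha
    omega
  · left
    intro a ha _
    rw [mem_singleton_iff] at ha
    omega
  · right
    intro a ha _
    simp only [mem_insert_iff, mem_singleton_iff] at ha ⊢
    omega
  · left
    intro a ha _
    rw [mem_singleton_iff] at ha
    unfold hL at ha
    omega

/-! ### Step 2: the block after the exploration of the low clusters -/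

/-- The revealed vertices. -/
def Tlo (V : Set Pt) (x₀ : Pt) (r R : ℤ) (i : ℕ) (c : ℤ) (h : Hg) : Set Pt :=
  Tx (V ∩ An x₀ (r + i) (R - i)) (An x₀ (r + i) (R - i))ᶜ c h

/-- The low clusters do not reach the middle annulus. -/
def Glo (V : Set Pt) (x₀ : Pt) (r R K : ℤ) (i : ℕ) (c : ℤ) : Set Hg :=
  {h | Disjoint (Tlo V x₀ r R i c h) (An x₀ (2 * r) K)}

theorem dep_deep (hx : x ∈ An x₀ (r + i) (R - i)) : (i : ℤ) + 2 ≤ dep x₀ r R x := by
  rw [mem_An_iff] at hx
  unfold dep
  omega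

theorem An_sub (_hK : 0 ≤ K) (hir : (i : ℤ) ≤ r) (hKR : K + i ≤ R) :
    An x₀ (2 * r) K ⊆ An x₀ (r + i) (R - i) := by
  intro x hx
  rw [mem_An_iff] at hx ⊢
  omega

theorem step2 {N₁ r₁ : ℤ} (hb : HB 1 α N₁ r₁) (hV : V.Finite) (hCC : CC V) (hx₀ : x₀ ∉ V)
    (hK : K = N₁ * (2 * r)) (hN₁ : 1 ≤ N₁) (hr1 : r₁ ≤ 2 * r) (hr : 1 ≤ r) (hir : (i : ℤ) ≤ r)
    (hKR : K + i ≤ R) (hp : NO V p) (hq : NO V q) (hpr : p ∈ bx x₀ r) (hqR : q ∉ bx x₀ R)
    (hh : h ∈ Cfg V (LW i V x₀ r R)) (hG : h ∈ Glo V x₀ r R K i (-5)) :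
    α ≤ Pr (Cfg V (LW i V x₀ r R) ∩
      {g | ∀ x ∈ (Tlo V x₀ r R i (-5) h ∪ (An x₀ (r + i) (R - i))ᶜ), g x = h x})
      {g | ¬ Conn (V ∩ dn g (-1)) p q} := by
  set I := LW i V x₀ r R with hI
  set Ai := An x₀ (r + i) (R - i) with hAi
  set T := Tlo V x₀ r R i (-5) h with hT
  set X := T ∪ Aiᶜ with hX
  set A' := An x₀ (2 * r) K with hA'
  have hK0 : 0 ≤ K := by rw [hK]; nlinarith
  have hA'Ai : A' ⊆ Ai := An_sub hK0 hir hKR
  have hTV : T ⊆ V ∩ Ai := Tx_sub
  have hnX : ∀ x, x ∉ X → x ∈ Ai ∧ x ∉ T := by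
    intro x hx
    refine ⟨?_, fun h1 => hx (Or.inl h1)⟩
    by_contra h1
    exact hx (Or.inr h1)
  have hAiA : Ai ⊆ An x₀ r R := by
    intro x hx
    rw [mem_An_iff] at hx ⊢
    omega
  have hfree : ∀ x ∈ V, x ∉ X → I x = univ := by
    intro x hx hx'
    rw [hI]
    unfold LW
    rw [if_pos hx, if_pos (hAiA (hnX x hx').1)]
  have hdeep : ∀ x, x ∉ V → x ∈ Ai → h x = -1 ∨ h x = 1 := fun x hx hx' =>
    LW_deep hx (by have := dep_deep hx'; omega) (hh.2.1 x)
  rw [fib_rpl hh]
  set g₀ : Hg := fun x => max (h x) (-3) with hg₀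
  have ho : ∀ x, Odd (g₀ x) := by
    intro x
    rcases max_choice (h x) (-3) with h1 | h1
    · show Odd (max (h x) (-3))
      rw [h1]
      exact hh.1 x
    · show Odd (max (h x) (-3))
      rw [h1]
      decide
  have hl : ∀ x ∈ V, ∀ y, Adj x y → |g₀ x - g₀ y| ≤ 2 := fun x hx y hxy =>
    (abs_max_sub _ _ _).trans (hh.2.2 x hx y hxy)
  have hge : ∀ x, -3 ≤ g₀ x := fun x => le_max_right _ _
  have hblk : Blk 1 V A' (rpl I X fun x => {g₀ x}) := by
    refine ⟨⟨hV, fun x hx => ?_, ?_⟩, ⟨g₀, ho, fun x => ?_, hl⟩, ?_, ?_, ?_, ?_⟩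
    · by_cases h1 : x ∈ X
      · rw [rpl_in h1]
        exact finite_singleton _
      · rw [rpl_out h1]
        exact (Dat_LW hV).bdd x hx
    · refine (Dat_LW (i := i) (x₀ := x₀) (r := r) (R := R) hV).cof.subset fun x hx hc => hx ?_
      by_cases h1 : x ∈ X
      · rw [rpl_in h1]
        exact subsingleton_singleton
      · rw [rpl_out h1]
        exact hc
    · by_cases h1 : x ∈ X
      · rw [rpl_in h1]
        rfl
      · rw [rpl_out h1]
        by_cases h2 : x ∈ V
        · rw [hfree x h2 h1]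
          trivial
        · have h3 := hdeep x h2 (hnX x h1).1
          have h4 : g₀ x = h x := max_eq_left (by omega)
          rw [h4]
          exact hh.2.1 x
    · intro x hx hx'
      have h1 : x ∉ X := by
        rintro (h1 | h1)
        · exact Set.disjoint_left.1 hG h1 hx'
        · exact h1 (hA'Ai hx')
      rw [rpl_out h1]
      exact hfree x hx h1
    · intro x hx
      by_cases h1 : x ∈ X
      · right
        rw [rpl_in h1]
        intro a ha
        rw [mem_singleton_iff.1 ha]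
        have := hge x
        push_cast
        linarith
      · left
        rw [rpl_out h1]
        exact hfree x hx h1
    · intro x hx a ha
      by_cases h1 : x ∈ X
      · rw [rpl_in h1] at ha
        rw [mem_singleton_iff.1 ha]
        have := hge x
        push_cast
        linarith
      · rw [rpl_out h1] at ha
        have h2 := dep_deep (hnX x h1).1
        have := LW_deep hx.1 (by omega) ha
        push_cast
        omega
    · intro x hx hx'
      have h1 : x ∉ X := by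
        rintro (h1 | h1)
        · exact hx.1 (hTV h1).1
        · exact h1 (hA'Ai hx')
      rw [rpl_out h1]
      have h2 := dep_deep (hA'Ai hx')
      rw [hI, LW_ebd hx (by omega)]
      exact SLe.refl _
  have key := hb V _ x₀ (2 * r) p q hCC hx₀ hr1 hp hq (PLAN.bx_mono (by omega) hpr)
    (fun h1 => hqR (PLAN.bx_mono (by rw [← hK]; omega) h1)) (by rw [← hK]; exact hblk)
  rw [← hK] at key
  rw [Pr_rpl hh ho hl ?_ ?_] at key
  · refine key.trans (Pr_mono fun g _ hg hc => ?_)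
    have hs : V ∩ dn g (-1) ⊆ V \ LOC.Wat V (V ∩ A') 1 g := by
      rintro x ⟨h0, h3⟩
      refine ⟨h0, fun h1 => ?_⟩
      have h2 : (1 : ℤ) ≤ g x := (LOC.Wat_subset h1).2
      have h3' : g x ≤ -1 := h3
      omega
    exact hg (hc.mono hs)
  · intro x hx y hy hxy hv
    refine max_eq_left ?_
    by_contra hc
    push Not at hc
    obtain ⟨hyA, hyT⟩ := hnX y hy
    by_cases hyV : y ∈ V
    · rcases hx with hx | hx
      · have hxD : x ∈ Dx (V ∩ Ai) Aiᶜ (-5) h := by
          by_contra h1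
          have := lt_of_Tx hx h1
          have h2 := hh.1 x
          rw [Int.odd_iff] at h2
          omega
        exact hyT (Tx_adj hxD hxy ⟨hyV, hyA⟩)
      · exact hyT (Tx_nx ⟨hyV, hyA⟩ ⟨x, hx, hxy⟩)
    · have hxV : x ∈ V := hv.resolve_right hyV
      have h1 := hdeep y hyV hyA
      have h2 := hh.2.2 x hxV y hxy
      rw [abs_le] at h2
      omega
  · intro g g' hgg
    refine SepA_congr fun x hx => hgg x ?_
    rintro (h1 | h1)
    · exact Set.disjoint_left.1 hG h1 hx.2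
    · exact h1 (hA'Ai hx.2)

end Vale.Agent.P153.R2.SLEX
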