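import Vale.Agent.P153.R2.SLEX.UniA

/-!
# P153-R2, block SLEX: one block with a ratio which does not depend on the level (part B)

The low clusters of the lowest law do not reach the middle annulus, with probability bounded below.
-/

namespace Vale.Agent.P153.R2.SLEX

open Set Relation
open Vale.Agent.P153
open Vale.Agent.P153.Topo (Conn adj_symm)
open Vale.Agent.P153.R2
open Vale.Agent.P153.R2.LOC (An Blk NO SepA LW ds dep hL mem_bx_iff mem_An_iff ds_adj dep_adj
  hL_mem hL_Cfg hL_adj hL_odd Dat_LW LW_off SepA_congr mem_ebd_of_adj)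
open Vale.Agent.P153.R2.F2 (OneS Cx Bdd thk lay)
open scoped Classical

variable {V X : Set Pt} {I : Pt → Set ℤ} {x₀ p q x y : Pt} {r R K : ℤ} {i n : ℕ} {g h g₀ : Hg}
  {α : ℝ}

/-- The middle region. -/
def Am (x₀ : Pt) (r R : ℤ) (i : ℕ) : Set Pt := An x₀ (r + (i + 1 : ℕ)) (R - (i + 1 : ℕ))

/-- The law with free walls in the middle region. -/
noncomputable def I3 (V : Set Pt) (x₀ : Pt) (r R : ℤ) (i : ℕ) : Pt → Set ℤ := fun x =>
  if x ∉ V ∧ x ∈ Am x₀ r R i then {-1, 1} else LW i V x₀ r R x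

/-- The law where the walls of the middle region are opened. -/
noncomputable def Ih (V : Set Pt) (x₀ : Pt) (r R : ℤ) (i : ℕ) : Pt → Set ℤ := fun x =>
  if x ∈ Am x₀ r R i then univ else LW i V x₀ r R x

theorem mem_Am : x ∈ Am x₀ r R i ↔ r + (i + 1) < ds x₀ x ∧ ds x₀ x ≤ R - (i + 1) := by
  unfold Am
  rw [mem_An_iff]
  push_cast
  rfl

theorem dep_Am (hx : x ∈ Am x₀ r R i) : (i : ℤ) + 3 ≤ dep x₀ r R x := by
  rw [mem_Am] at hx
  unfold dep
  omega

theorem Am_A (hx : x ∈ Am x₀ r R i) : x ∈ An x₀ r R := by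
  rw [mem_Am] at hx
  rw [mem_An_iff]
  omega

theorem dep_near (hx : x ∈ Am x₀ r R i) (hxy : Adj x y) : (i : ℤ) + 2 ≤ dep x₀ r R y := by
  have h1 := dep_Am hx
  have h2 := dep_adj (x₀ := x₀) (r := r) (R := R) hxy
  rw [abs_le] at h2
  omega

theorem cfg_I3 : Cfg V (I3 V x₀ r R i) = Cfg (V ∪ Am x₀ r R i) (Ih V x₀ r R i) ∩
    {h | md 0 h ∈ {a : Hg | ∀ x, x ∈ Am x₀ r R i → x ∉ V → a x ≤ 1}} := by
  ext h
  constructor
  · intro hh
    have hw : ∀ x, x ∉ V → x ∈ Am x₀ r R i → h x = -1 ∨ h x = 1 := by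
      intro x hx hx'
      have := hh.2.1 x
      unfold I3 at this
      rw [if_pos ⟨hx, hx'⟩] at this
      exact this
    have hw2 : ∀ x y, x ∈ Am x₀ r R i → Adj x y → y ∉ V → h y = -1 ∨ h y = 1 := by
      intro x y hx hxy hy
      by_cases h1 : y ∈ Am x₀ r R i
      · exact hw y hy h1
      · have h2 := hh.2.1 y
        unfold I3 at h2
        rw [if_neg (fun h3 => h1 h3.2)] at h2
        have h3 := dep_near hx hxy
        exact LW_deep hy (by omega) h2
    refine ⟨⟨hh.1, fun x => ?_, fun x hx y hxy => ?_⟩, fun x hx hx' => ?_⟩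
    · unfold Ih
      split_ifs with h1
      · trivial
      · have := hh.2.1 x
        unfold I3 at this
        rwa [if_neg (fun h3 => h1 h3.2)] at this
    · by_cases h1 : x ∈ V
      · exact hh.2.2 x h1 y hxy
      · have h2 : x ∈ Am x₀ r R i := hx.resolve_left h1
        by_cases h3 : y ∈ V
        · rw [abs_sub_comm]
          exact hh.2.2 y h3 x (adj_symm hxy)
        · have h4 := hw x h1 h2
          have h5 := hw2 x y h2 hxy h3
          rw [abs_le]
          omega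
    · have := hw x hx' hx
      show |h x - 0| ≤ 1
      rw [abs_le]
      omega
  · rintro ⟨hh, hD⟩
    refine ⟨hh.1, fun x => ?_, fun x hx y hxy => hh.2.2 x (Or.inl hx) y hxy⟩
    unfold I3
    split_ifs with h1
    · have h2 : |h x - 0| ≤ 1 := hD x h1.2 h1.1
      rw [abs_le] at h2
      have h3 := hh.1 x
      rw [Int.odd_iff] at h3
      simp only [mem_insert_iff, mem_singleton_iff]
      omega
    · have h2 := hh.2.1 x
      unfold Ih at h2
      split_ifs at h2 with h3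
      · have h4 : x ∈ V := by
          by_contra h4
          exact h1 ⟨h4, h3⟩
        unfold LW
        rw [if_pos h4, if_pos (Am_A h3)]
        trivial
      · exact h2

theorem Am_finite : (Am x₀ r R i).Finite := (PLAN.bx_finite _ _).subset fun _ hx => hx.1

theorem Ih_lv (hV : V.Finite) (hi : 1 ≤ i) :
    Lv (V ∪ Am x₀ r R i) (Ih V x₀ r R i) 0 (-1) where
  even := Even.zero
  sg := Or.inr rfl
  dI := by
    refine ⟨hV.union (Am_finite (x₀ := x₀) (r := r) (R := R) (i := i)), fun x hx => ?_, ?_⟩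
    · unfold Ih
      rw [if_neg fun h => hx (Or.inr h)]
      exact (Dat_LW hV).bdd x fun h => hx (Or.inl h)
    · refine ((Dat_LW (i := i) (x₀ := x₀) (r := r) (R := R) hV).cof.union
      (Am_finite (x₀ := x₀) (r := r) (R := R) (i := i))).subset ?_
      intro x hx
      by_cases h1 : x ∈ Am x₀ r R i
      · exact Or.inr h1
      · left
        intro h2
        apply hx
        unfold Ih
        rw [if_neg h1]
        exact h2
  ne := by
    refine ⟨hL i x₀ r R, fun x => hL_odd x, fun x => ?_, fun _ _ _ hxy => hL_adj hxy⟩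
    unfold Ih
    split_ifs
    · trivial
    · exact hL_mem i V x₀ r R x
  sd := fun x => by
    left
    unfold Ih
    split_ifs
    · exact Or.inr fun a _ _ => mem_univ _
    · exact LW_sd hi

/-- Bounds off the middle region. -/
theorem Ih_bd (hh : h ∈ Cfg (V ∪ Am x₀ r R i) (Ih V x₀ r R i)) (hx : x ∉ Am x₀ r R i)
    (h1 : x ∉ V ∨ x ∉ An x₀ r R) : |h x| ≤ 2 * i + 1 := by
  have h2 := hh.2.1 x
  unfold Ih at h2
  rw [if_neg hx] at h2
  have := LW_bd h1 h2
  rw [abs_le]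
  omega

/-- One step towards the box. -/
theorem step_in0 {a b r : ℤ} (hr : 0 ≤ r) (h : r < max |a| |b|) :
    ∃ a' b' : ℤ, (((a' = a + 1 ∨ a' = a - 1) ∧ b' = b) ∨ (a' = a ∧ (b' = b + 1 ∨ b' = b - 1))) ∧
      max |a'| |b'| ≤ max |a| |b| ∧
      max 0 (|a'| - r) + max 0 (|b'| - r) + 1 ≤ max 0 (|a| - r) + max 0 (|b| - r) := by
  by_cases h4 : r < |a|
  · rcases le_total 0 a with h5 | h5
    · refine ⟨a - 1, b, Or.inl ⟨Or.inr rfl, rfl⟩, ?_⟩
      rw [abs_of_nonneg h5] at *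
      rw [abs_of_nonneg (by omega : 0 ≤ a - 1)]
      omega
    · refine ⟨a + 1, b, Or.inl ⟨Or.inl rfl, rfl⟩, ?_⟩
      rw [abs_of_nonpos h5] at *
      rw [abs_of_nonpos (by omega : a + 1 ≤ 0)]
      omega
  · have h6 : r < |b| := by omega
    rcases le_total 0 b with h5 | h5
    · refine ⟨a, b - 1, Or.inr ⟨rfl, Or.inr rfl⟩, ?_⟩
      rw [abs_of_nonneg h5] at *
      rw [abs_of_nonneg (by omega : 0 ≤ b - 1)]
      omega
    · refine ⟨a, b + 1, Or.inr ⟨rfl, Or.inl rfl⟩, ?_⟩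
      rw [abs_of_nonpos h5] at *
      rw [abs_of_nonpos (by omega : b + 1 ≤ 0)]
      omega

theorem step_adj {x x₀ : Pt} {a' b' : ℤ}
    (h : ((a' = x.1 - x₀.1 + 1 ∨ a' = x.1 - x₀.1 - 1) ∧ b' = x.2 - x₀.2) ∨
      (a' = x.1 - x₀.1 ∧ (b' = x.2 - x₀.2 + 1 ∨ b' = x.2 - x₀.2 - 1))) :
    Adj x (x₀.1 + a', x₀.2 + b') := by
  rw [Topo.adj_iff]
  dsimp only
  omega

theorem step_in (hr : 0 ≤ r) (h : r < ds x₀ x) : ∃ y, Adj x y ∧ ds x₀ y ≤ ds x₀ x ∧
    max 0 (|y.1 - x₀.1| - r) + max 0 (|y.2 - x₀.2| - r) + 1 ≤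
      max 0 (|x.1 - x₀.1| - r) + max 0 (|x.2 - x₀.2| - r) := by
  obtain ⟨a', b', h1, h2, h3⟩ := step_in0 hr h
  refine ⟨(x₀.1 + a', x₀.2 + b'), step_adj h1, ?_, ?_⟩
  · unfold ds
    simpa using h2
  · simpa using h3

theorem step_out : ∃ y, Adj x y ∧ ds x₀ y = ds x₀ x + 1 := by
  have : ∀ a b : ℤ, ∃ a' b' : ℤ, (((a' = a + 1 ∨ a' = a - 1) ∧ b' = b) ∨
      (a' = a ∧ (b' = b + 1 ∨ b' = b - 1))) ∧ max |a'| |b'| = max |a| |b| + 1 := by
    intro a b
    rcases le_total |b| |a| with h4 | h4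
    · rcases le_total 0 a with h5 | h5
      · refine ⟨a + 1, b, Or.inl ⟨Or.inl rfl, rfl⟩, ?_⟩
        rw [abs_of_nonneg h5] at *
        rw [abs_of_nonneg (by omega : 0 ≤ a + 1)]
        omega
      · refine ⟨a - 1, b, Or.inl ⟨Or.inr rfl, rfl⟩, ?_⟩
        rw [abs_of_nonpos h5] at *
        rw [abs_of_nonpos (by omega : a - 1 ≤ 0)]
        omega
    · rcases le_total 0 b with h5 | h5
      · refine ⟨a, b + 1, Or.inr ⟨rfl, Or.inl rfl⟩, ?_⟩
        rw [abs_of_nonneg h5] at *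
        rw [abs_of_nonneg (by omega : 0 ≤ b + 1)]
        omega
      · refine ⟨a, b - 1, Or.inr ⟨rfl, Or.inr rfl⟩, ?_⟩
        rw [abs_of_nonpos h5] at *
        rw [abs_of_nonpos (by omega : b - 1 ≤ 0)]
        omega
  obtain ⟨a', b', h1, h2⟩ := this (x.1 - x₀.1) (x.2 - x₀.2)
  refine ⟨(x₀.1 + a', x₀.2 + b'), step_adj h1, ?_⟩
  unfold ds
  simpa using h2

theorem Ih_in (hh : h ∈ Cfg (V ∪ Am x₀ r R i) (Ih V x₀ r R i)) (hr : 0 ≤ r) :
    ∀ (m : ℕ) (x : Pt), ds x₀ x ≤ r + (i + 1) →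
      max 0 (|x.1 - x₀.1| - r) + max 0 (|x.2 - x₀.2| - r) ≤ m → |h x| ≤ 2 * i + 1 + 2 * m := by
  intro m
  induction m with
  | zero =>
    intro x hx hm
    have h1 : x ∉ An x₀ r R := by
      rw [mem_An_iff]
      unfold ds
      omega
    have h2 : x ∉ Am x₀ r R i := fun h => h1 (Am_A h)
    have := Ih_bd hh h2 (Or.inr h1)
    simpa using this
  | succ m ih =>
    intro x hx hm
    have h2 : x ∉ Am x₀ r R i := by
      rw [mem_Am]
      omega
    by_cases h1 : x ∉ V ∨ x ∉ An x₀ r R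
    · have := Ih_bd hh h2 h1
      push_cast
      linarith
    · push Not at h1
      have h3 := h1.2
      rw [mem_An_iff] at h3
      obtain ⟨y, hxy, h4', h5'⟩ := step_in (x₀ := x₀) (x := x) hr h3.1
      have h4 : ds x₀ y ≤ r + (i + 1) := h4'.trans hx
      have h5 : max 0 (|y.1 - x₀.1| - r) + max 0 (|y.2 - x₀.2| - r) ≤ m := by
        push_cast at hm
        linarith
      have h6 := ih y h4 h5
      have h7 := hh.2.2 x (Or.inl h1.1) y hxy
      have h8 : |h x| ≤ |h x - h y| + |h y| := by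
        have := abs_add_le (h x - h y) (h y)
        rwa [sub_add_cancel] at this
      push_cast
      linarith

theorem Ih_out (hh : h ∈ Cfg (V ∪ Am x₀ r R i) (Ih V x₀ r R i)) :
    ∀ (m : ℕ) (x : Pt), R - i ≤ ds x₀ x → R + 1 - ds x₀ x ≤ m → |h x| ≤ 2 * i + 1 + 2 * m := by
  intro m
  induction m with
  | zero =>
    intro x hx hm
    have h1 : x ∉ An x₀ r R := by
      rw [mem_An_iff]
      push_cast at hm
      omega
    have h2 : x ∉ Am x₀ r R i := fun h => h1 (Am_A h)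
    have := Ih_bd hh h2 (Or.inr h1)
    simpa using this
  | succ m ih =>
    intro x hx hm
    have h2 : x ∉ Am x₀ r R i := by
      rw [mem_Am]
      omega
    by_cases h1 : x ∉ V ∨ x ∉ An x₀ r R
    · have := Ih_bd hh h2 h1
      push_cast
      linarith
    · push Not at h1
      obtain ⟨y, hxy, h4⟩ := step_out (x₀ := x₀) (x := x)
      push_cast at hm
      have h6 := ih y (by omega) (by omega)
      have h7 := hh.2.2 x (Or.inl h1.1) y hxy
      have h8 : |h x| ≤ |h x - h y| + |h y| := by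
        have := abs_add_le (h x - h y) (h y)
        rwa [sub_add_cancel] at this
      push_cast
      linarith

theorem Ih_bdd (hh : h ∈ Cfg (V ∪ Am x₀ r R i) (Ih V x₀ r R i)) (hr : 0 ≤ r) :
    Bdd (Am x₀ r R i) h (-(2 * ((3 * i + 2 : ℕ) : ℤ) + 1)) (2 * ((3 * i + 2 : ℕ) : ℤ) + 1) := by
  rintro x ⟨hx, y, hy, hyx⟩
  have h1 : |h x| ≤ 2 * i + 1 + 2 * ((2 * (i + 1) : ℕ) : ℤ) := by
    rw [mem_Am] at hx hy
    have h2 := ds_adj (x₀ := x₀) hyx
    rw [abs_le] at h2
    by_cases h3 : ds x₀ x ≤ r + (i + 1)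
    · refine Ih_in hh hr _ x h3 ?_
      unfold ds at h3
      push_cast
      omega
    · have h4 : R - i ≤ ds x₀ x := by omega
      have := Ih_out hh (i + 1) x h4 (by push_cast; omega)
      push_cast at this ⊢
      linarith
  push_cast at h1 ⊢
  rw [abs_le] at h1
  constructor <;> linarith

end Vale.Agent.P153.R2.SLEX
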