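import Vale.Agent.P153.R2.SLEX.UniB

/-!
# P153-R2, block SLEX: one block with a ratio which does not depend on the level (part C)

The low clusters of the lowest law do not reach the middle annulus, with probability bounded below.
-/

namespace Vale.Agent.P153.R2.SLEX

open Set Relation
open Vale.Agent.P153
open Vale.Agent.P153.Topo (Conn adj_symm)
open Vale.Agent.P153.R2
open Vale.Agent.P153.R2.LOC (An Blk NO SepA LW ds dep hL mem_bx_iff mem_An_iff ds_adj dep_adj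
  hL_mem hL_Cfg hL_adj hL_odd Dat_LW LW_off SepA_congr mem_ebd_of_adj)
open Vale.Agent.P153.R2.F2 (OneS Cx Bdd thk lay)
open scoped Classical

variable {V X Z M : Set Pt} {I : Pt → Set ℤ} {x₀ p q x y : Pt} {r R K : ℤ} {i n : ℕ} {g h g₀ : Hg}
  {α : ℝ}

theorem lay_single {a b : ℤ} : lay {x₀} a b = An x₀ a b := by
  unfold F2.lay
  rw [LAND.thk_singleton, LAND.thk_singleton]
  rfl

/-- (d) The open clusters of the boundary do not reach the middle annulus. -/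
theorem step_d {R₁ s₀ : ℤ} {c : ℝ} (hR₁ : 1 ≤ R₁) (hs₀ : 1 ≤ s₀) (hc : 0 < c)
    (hone : OneS R₁ s₀ c) {N₁ : ℤ} (hN₁ : 1 ≤ N₁) (i : ℕ) (hi : 1 ≤ i) :
    ∃ c' : ℝ, 0 < c' ∧ ∃ r₂ : ℤ, 1 ≤ r₂ ∧ (i : ℤ) + 2 ≤ r₂ ∧ ∀ (V : Set Pt) (x₀ : Pt) (r : ℤ),
      V.Finite → r₂ ≤ r →
      c' ≤ Pr (Cfg (V ∪ Am x₀ r (N₁ * (2 * r) + r) i) (Ih V x₀ r (N₁ * (2 * r) + r) i))
        {g | Disjoint (CluL 0 (Am x₀ r (N₁ * (2 * r) + r) i)ᶜ g)
          (An x₀ (2 * r) (N₁ * (2 * r)))} := by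
  set n : ℕ := 3 * i + 2 with hn
  set C : ℤ := (2 * (n : ℤ) + 4) * (2 * R₁ + 7) with hC
  have hC1 : 1 ≤ C := by
    have h1 : (1 : ℤ) ≤ 2 * n + 4 := by omega
    have h2 : 1 ≤ 2 * R₁ + 7 := by omega
    calc (1 : ℤ) = 1 * 1 := by ring
      _ ≤ (2 * (n : ℤ) + 4) * (2 * R₁ + 7) := mul_le_mul h1 h2 (by norm_num) (by omega)
  obtain ⟨c', hc', key⟩ := F2.r0_aux hR₁ hs₀ hc hone (C * (i + 3) * (2 * N₁ + 1)) n
  refine ⟨c', hc', C * s₀ + i + 2, by nlinarith, by nlinarith, ?_⟩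
  intro V x₀ r hV hr
  set K : ℤ := N₁ * (2 * r) with hK
  set R : ℤ := K + r with hR
  have hr0 : 0 ≤ r := by nlinarith
  have hKr : 2 * r ≤ K := by rw [hK]; nlinarith
  set s : ℤ := (r - i - 2) / C with hs
  have g1 : C * s ≤ r - i - 2 := by
    rw [hs, mul_comm]
    exact Int.ediv_mul_le _ (by omega)
  have g2 : r - i - 2 < C * (s + 1) := by
    rw [hs]
    have := Int.lt_ediv_add_one_mul_self (r - i - 2) (show 0 < C by omega)
    linarith
  have g3 : s₀ ≤ s := by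
    by_contra hcon
    push Not at hcon
    have h1 : s + 1 ≤ s₀ := by omega
    have h2 : C * (s + 1) ≤ C * s₀ := mul_le_mul_of_nonneg_left h1 (by omega)
    omega
  have hs1 : 1 ≤ s := hs₀.trans g3
  have g4 : (2 * (n : ℤ) + 4) * ((2 * R₁ + 7) * s) = C * s := by rw [hC]; ring
  have g5 : r ≤ C * (i + 3) * s := by
    have h1 : C ≤ C * s := by nlinarith
    have h2 : (i : ℤ) ≤ C * s * i := by
      have : (1 : ℤ) ≤ C * s := by nlinarith
      have h3 : (0 : ℤ) ≤ i := by positivity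
      nlinarith
    have h4 : C * (i + 3) * s = C * s * i + 3 * (C * s) := by ring
    have h5 : C * (s + 1) = C * s + C := by ring
    omega
  have g6 : K + r - i - 1 ≤ C * (i + 3) * (2 * N₁ + 1) * s := by
    have h1 : K + r = (2 * N₁ + 1) * r := by rw [hK]; ring
    have h2 : (2 * N₁ + 1) * r ≤ (2 * N₁ + 1) * (C * (i + 3) * s) :=
      mul_le_mul_of_nonneg_left g5 (by omega)
    have h3 : (2 * N₁ + 1) * (C * (i + 3) * s) = C * (i + 3) * (2 * N₁ + 1) * s := by ring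
    omega
  refine LAND.Pr_ge_of_exact (Ih_lv hV hi).dI (Ih_lv hV hi).ne subset_union_right
    (fun x hx => if_pos hx) fun h hh hhx => ?_
  have k1 := key s g3 x₀ {x₀} (Am x₀ r R i) h (r + (i + 1 : ℕ)) (R - (i + 1 : ℕ))
    ((2 * R₁ + 7) * s) ?_ (by push_cast; omega) le_rfl ?_ ?_ Am_finite ?_ ⟨h, hhx⟩ ?_
  · refine k1.trans (Pr_mono fun g _ hg => ?_)
    rw [mem_ofPred_eq] at hg ⊢
    refine hg.mono_right ?_
    rw [lay_single]
    intro x hx
    rw [mem_An_iff] at hx ⊢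
    have e : ((2 : ℤ) * (n : ℤ) + 4) * ((2 * R₁ + 7) * s) = C * s := g4
    rw [e]
    push_cast
    omega
  · rintro x rfl
    simp only [bx, mem_ofPred_eq, sub_self, abs_zero]
    have : 0 ≤ C * (i + 3) * (2 * N₁ + 1) * s := by positivity
    exact ⟨this, this⟩
  · rw [g4]
    push_cast
    omega
  · push_cast
    omega
  · rw [lay_single]
    exact fun x hx => hx
  · have := Ih_bdd hh hr0
    exact this

/-! ### Open paths through the moduli -/

/-- No path from `Z` to `M` with the modulus at least two on one end of every edge. -/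
def Dn (Z M : Set Pt) : Set Hg :=
  {a | ∀ x ∈ Z, ∀ y ∈ M, ¬ ReflTransGen (fun u v => Adj u v ∧ ¬ (a u ≤ 1 ∧ a v ≤ 1)) x y}

theorem Dn_lower : IsLowerSet (Dn Z M) := by
  intro a b hba ha x hx y hy hxy
  exact ha x hx y hy (ReflTransGen.mono (fun u v huv => ⟨huv.1, fun h1 => huv.2
    ⟨(hba u).trans h1.1, (hba v).trans h1.2⟩⟩) _ _ hxy)

theorem one_le_md' (ho : Odd (h x)) : 1 ≤ md 0 h x := by
  show 1 ≤ |h x - 0|
  rw [sub_zero]
  have : h x ≠ 0 := by
    intro h0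
    rw [h0] at ho
    simp at ho
  exact Int.one_le_abs this

theorem Dn_iff (ho : ∀ x, Odd (h x)) : Disjoint (CluL 0 Z h) M ↔ md 0 h ∈ Dn Z M := by
  have e : ∀ u v, OpL 0 h u v ↔ Adj u v ∧ ¬ (md 0 h u ≤ 1 ∧ md 0 h v ≤ 1) := by
    intro u v
    have hu := one_le_md' (ho u)
    have hv := one_le_md' (ho v)
    have hu' : md 0 h u = |h u - 0| := rfl
    have hv' : md 0 h v = |h v - 0| := rfl
    unfold OpL
    rw [← hu', ← hv']
    refine and_congr_right fun _ => not_congr ?_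
    omega
  rw [Set.disjoint_left]
  constructor
  · intro h1 x hx y hy hxy
    exact h1 ⟨x, hx, ReflTransGen.mono (fun u v huv => (e u v).2 huv) _ _ hxy⟩ hy
  · rintro h1 y ⟨x, hx, hxy⟩ hy
    exact h1 x hx y hy (ReflTransGen.mono (fun u v huv => (e u v).1 huv) _ _ hxy)

/-- The lower set of the moduli at most one on the walls of the middle region. -/
theorem D1_lower {A : Set Pt} : IsLowerSet {a : Hg | ∀ x, x ∈ A → x ∉ V → a x ≤ 1} :=
  fun _ _ hba ha x hx hx' => (hba x).trans (ha x hx hx')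

theorem I3_ne : (Cfg V (I3 V x₀ r R i)).Nonempty := by
  refine ⟨hL i x₀ r R, fun x => hL_odd x, fun x => ?_, fun _ _ _ hxy => hL_adj hxy⟩
  have h0 := hL_mem i V x₀ r R x
  unfold I3
  split_ifs with h1
  · have h2 := dep_Am h1.2
    exact LW_deep h1.1 (by omega) h0
  · exact h0

/-- (f) The same with free walls. -/
theorem step_f (hV : V.Finite) (hi : 1 ≤ i) :
    Pr (Cfg (V ∪ Am x₀ r R i) (Ih V x₀ r R i)) {g | Disjoint (CluL 0 Z g) M} ≤
      Pr (Cfg V (I3 V x₀ r R i)) {g | Disjoint (CluL 0 Z g) M} := by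
  have hl := Ih_lv (x₀ := x₀) (r := r) (R := R) hV hi
  have key := md_Pr_anti hl.cmp (D := {a : Hg | ∀ x, x ∈ Am x₀ r R i → x ∉ V → a x ≤ 1})
    (U := univ) (A := Dn Z M) D1_lower isUpperSet_univ (by rw [← cfg_I3]; exact I3_ne)
    (by
      obtain ⟨g, hg⟩ := hl.ne
      exact ⟨g, hg, mem_univ _⟩) Dn_lower
  rw [← cfg_I3] at key
  have e1 : Cfg (V ∪ Am x₀ r R i) (Ih V x₀ r R i) ∩ {g | md 0 g ∈ (univ : Set Hg)} =
      Cfg (V ∪ Am x₀ r R i) (Ih V x₀ r R i) := by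
    ext g
    simp
  rw [e1] at key
  refine le_trans (Pr_mono fun g hg h1 => (Dn_iff hg.1).1 h1)
    (key.trans (Pr_mono fun g hg h1 => (Dn_iff hg.1).2 h1))

/-- (g) The low clusters are in the open clusters. -/
theorem step_g (hir : (i : ℤ) + 2 ≤ r) (hKR : K + r ≤ R)
    (h1 : Disjoint (CluL 0 (Am x₀ r R i)ᶜ g) (An x₀ (2 * r) K)) :
    g ∈ Glo V x₀ r R K (i + 1) (-3) := by
  show Disjoint (Tlo V x₀ r R (i + 1) (-3) g) (An x₀ (2 * r) K)
  rw [Set.disjoint_left]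
  intro x hx hxA
  have hbig : ∀ z, g z ≤ -3 → ¬ |g z - 0| = 1 := by
    intro z hz h2
    rw [sub_zero] at h2
    rcases abs_choice (g z) with h3 | h3 <;> omega
  have hD : ∀ z, z ∈ Dx (V ∩ Am x₀ r R i) (Am x₀ r R i)ᶜ (-3) g →
      z ∈ CluL 0 (Am x₀ r R i)ᶜ g := by
    rintro z ⟨u, ⟨t, ht, htu⟩, huz⟩
    refine ⟨t, ht, ?_⟩
    refine Conn.ind (S := (V ∩ Am x₀ r R i) ∩ dn g (-3)) (fun w => ReflTransGen (OpL 0 g) t w)
      ?_ ?_ huz
    · exact ReflTransGen.single ⟨htu, fun h2 => hbig u huz.left_mem.2 h2.2⟩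
    · intro a b _ hab hb ih
      exact ih.tail ⟨hab, fun h2 => hbig b hb.2 h2.2⟩
  rcases hx with ⟨hxA', ⟨v, hv, hvx⟩ | h2 | ⟨v, hv, hvx⟩⟩
  · have h3 := ds_adj (x₀ := x₀) hvx
    rw [abs_le] at h3
    have h4 : ¬ (v ∈ Am x₀ r R i) := hv
    rw [mem_Am] at h4
    rw [mem_An_iff] at hxA
    omega
  · exact Set.disjoint_left.1 h1 (hD x h2) hxA
  · obtain ⟨t, ht, hp⟩ := hD v hv
    exact Set.disjoint_left.1 h1
      ⟨t, ht, hp.tail ⟨hvx, fun h2 => hbig v (Dx_sub hv).2 h2.1⟩⟩ hxA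

/-! ### The shift -/

theorem Tlo_shift {c : ℤ} : Tlo V x₀ r R i (c - 2) (fun x => g x - 2) = Tlo V x₀ r R i c g := by
  have : dn (fun x => g x - 2) (c - 2) = dn g c := by
    ext x
    show g x - 2 ≤ c - 2 ↔ g x ≤ c
    omega
  unfold Tlo Tx Dx
  rw [this]

theorem Glo_upper {c : ℤ} : IsUpperSet (Glo V x₀ r R K i c) := by
  intro a b hab ha
  have hs : dn b c ⊆ dn a c := fun x hx => (hab x).trans hx
  have hD : Dx (V ∩ An x₀ (r + i) (R - i)) (An x₀ (r + i) (R - i))ᶜ c b ⊆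
      Dx (V ∩ An x₀ (r + i) (R - i)) (An x₀ (r + i) (R - i))ᶜ c a := by
    rintro z ⟨u, hu, h1⟩
    exact ⟨u, hu, h1.mono (inter_subset_inter_right _ hs)⟩
  have hT : Tlo V x₀ r R i c b ⊆ Tlo V x₀ r R i c a := by
    rintro z ⟨hz, h1 | h1 | ⟨v, hv, hvz⟩⟩
    · exact ⟨hz, Or.inl h1⟩
    · exact ⟨hz, Or.inr (Or.inl (hD h1))⟩
    · exact ⟨hz, Or.inr (Or.inr ⟨v, hD hv, hvz⟩)⟩
  exact Disjoint.mono_left hT ha

/-- The shifted data. -/
def sh (I : Pt → Set ℤ) : Pt → Set ℤ := fun x => {a | a + 2 ∈ I x}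

theorem SLe_pair {a b a' b' : ℤ} (h1 : a ≤ b) (h2 : a' ≤ b') (ha : a ≤ a') (hb : b ≤ b')
    (hm : b' = b ∨ b ≤ a') (hm' : a' = a ∨ b ≤ a') : SLe {a, b} {a', b'} := by
  rintro x (rfl | rfl) y (rfl | rfl) <;> simp only [mem_insert_iff, mem_singleton_iff] at * <;>
    omega

theorem sh_SLe (x : Pt) : SLe (sh (I3 V x₀ r R i) x) (LW (i + 1) V x₀ r R x) := by
  by_cases hV : x ∈ V
  · have h1 : ¬ (x ∉ V ∧ x ∈ Am x₀ r R i) := fun h => h.1 hV
    by_cases hA : x ∈ An x₀ r R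
    · have e1 : sh (I3 V x₀ r R i) x = univ := by
        unfold sh I3 LW
        rw [if_neg h1, if_pos hV, if_pos hA]
        rfl
      have e2 : LW (i + 1) V x₀ r R x = univ := by
        unfold LW
        rw [if_pos hV, if_pos hA]
      rw [e1, e2]
      exact fun a _ b _ => ⟨trivial, trivial⟩
    · intro a ha b hb
      unfold sh I3 LW at ha
      rw [if_neg h1, if_pos hV, if_neg hA] at ha
      unfold LW at hb
      rw [if_pos hV, if_neg hA] at hb
      unfold sh I3 LW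
      rw [if_neg h1, if_pos hV, if_neg hA, if_pos hV, if_neg hA]
      simp only [mem_insert_iff, mem_singleton_iff, mem_ofPred_eq] at ha hb ⊢
      push_cast at hb ⊢
      omega
  · by_cases hA : x ∈ Am x₀ r R i
    · have h1 : x ∉ V ∧ x ∈ Am x₀ r R i := ⟨hV, hA⟩
      have hd := dep_Am hA
      intro a ha b hb
      unfold sh I3 at ha
      rw [if_pos h1] at ha
      have hb' := LW_deep hV (by push_cast; omega) hb
      unfold sh I3
      rw [if_pos h1]
      simp only [mem_insert_iff, mem_singleton_iff, mem_ofPred_eq] at ha ⊢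
      have e1 : max a b = b := max_eq_right (by omega)
      rw [e1]
      refine ⟨?_, hb⟩
      rw [min_eq_left (by omega)]
      omega
    · have h1 : ¬ (x ∉ V ∧ x ∈ Am x₀ r R i) := fun h => hA h.2
      intro a ha b hb
      unfold sh I3 at ha
      rw [if_neg h1] at ha
      unfold sh I3
      rw [if_neg h1]
      rw [mem_ofPred_eq] at ha ⊢
      unfold LW hL at ha hb ⊢
      rw [if_neg hV] at ha hb ⊢
      rw [if_neg hV]
      push_cast at ha hb ⊢
      split_ifs at ha hb ⊢ <;>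
        simp only [mem_insert_iff, mem_singleton_iff] at ha hb ⊢ <;> omega

end Vale.Agent.P153.R2.SLEX
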