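import Vale.Agent.P153.R2.SLEX.UniC

/-!
# P153-R2, block SLEX: one block with a ratio which does not depend on the level (part D)
-/

namespace Vale.Agent.P153.R2.SLEX

open Set Relation
open Vale.Agent.P153
open Vale.Agent.P153.Topo (Conn adj_symm)
open Vale.Agent.P153.R2
open Vale.Agent.P153.R2.LOC (An Blk NO SepA LW ds dep hL mem_bx_iff mem_An_iff ds_adj dep_adj
  hL_mem hL_Cfg hL_adj hL_odd Dat_LW LW_off SepA_congr mem_ebd_of_adj block_low block_le)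
open Vale.Agent.P153.R2.F2 (OneS Cx Bdd thk lay)
open scoped Classical

variable {V X Z M : Set Pt} {I : Pt → Set ℤ} {x₀ p q x y : Pt} {r R K : ℤ} {i n : ℕ} {g h g₀ : Hg}
  {α : ℝ}

theorem Dat_I3 (hV : V.Finite) : Dat V (I3 V x₀ r R i) := by
  refine ⟨hV, fun x hx => ?_, ?_⟩
  · unfold I3
    split_ifs
    · exact (finite_singleton _).insert _
    · exact (Dat_LW hV).bdd x hx
  · refine ((Dat_LW (i := i) (x₀ := x₀) (r := r) (R := R) hV).cof.union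
      (Am_finite (x₀ := x₀) (r := r) (R := R) (i := i))).subset fun x hx => ?_
    by_cases h1 : x ∉ V ∧ x ∈ Am x₀ r R i
    · exact Or.inr h1.2
    · left
      intro h2
      apply hx
      unfold I3
      rw [if_neg h1]
      exact h2

theorem Dat_sh (hI : Dat V I) : Dat V (sh I) := by
  refine ⟨hI.fin, fun x hx => ?_, hI.cof.subset fun x hx h1 => hx ?_⟩
  · exact (hI.bdd x hx).preimage (f := fun a : ℤ => a + 2)
      (fun a _ b _ hab => by simpa using hab)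
  · intro a ha b hb
    have := h1 ha hb
    omega

theorem sh_bij : BijOn (fun (g : Hg) (x : Pt) => g x - 2) (Cfg V I) (Cfg V (sh I)) := by
  refine ⟨?_, ?_, ?_⟩
  · intro g hg
    refine ⟨fun x => ?_, fun x => ?_, fun x hx y hxy => ?_⟩
    · exact (hg.1 x).sub_even (by decide)
    · show g x - 2 + 2 ∈ I x
      rw [sub_add_cancel]
      exact hg.2.1 x
    · have := hg.2.2 x hx y hxy
      rwa [sub_sub_sub_cancel_right]
  · intro a _ b _ hab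
    funext x
    have := congrFun hab x
    dsimp only at this
    omega
  · intro g hg
    refine ⟨fun x => g x + 2, ⟨fun x => ?_, fun x => ?_, fun x hx y hxy => ?_⟩, ?_⟩
    · exact (hg.1 x).add_even (by decide)
    · exact hg.2.1 x
    · have := hg.2.2 x hx y hxy
      rwa [add_sub_add_right_eq_sub]
    · funext x
      dsimp only
      ring

/-- (s), (t) The lowest law of the next level. -/
theorem step_st (hV : V.Finite) :
    Pr (Cfg V (I3 V x₀ r R i)) (Glo V x₀ r R K (i + 1) (-3)) ≤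
      Pr (Cfg V (LW (i + 1) V x₀ r R)) (Glo V x₀ r R K (i + 1) (-5)) := by
  have h1 : Pr (Cfg V (sh (I3 V x₀ r R i))) (Glo V x₀ r R K (i + 1) (-5)) =
      Pr (Cfg V (I3 V x₀ r R i)) (Glo V x₀ r R K (i + 1) (-3)) := by
    refine MULT.Pr_bij _ sh_bij fun g _ => ?_
    show Disjoint _ _ ↔ Disjoint _ _
    have := Tlo_shift (V := V) (x₀ := x₀) (r := r) (R := R) (i := i + 1) (g := g) (c := -3)
    rw [show (-3 : ℤ) - 2 = -5 by norm_num] at this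
    rw [this]
  rw [← h1]
  have hne : (Cfg V (sh (I3 V x₀ r R i))).Nonempty := by
    obtain ⟨g, hg⟩ := I3_ne (V := V) (x₀ := x₀) (r := r) (R := R) (i := i)
    exact ⟨_, sh_bij.mapsTo hg⟩
  exact MULT.Pr_le_of_upper (Dat_sh (Dat_I3 hV)) (Dat_LW hV) hne ⟨_, hL_Cfg _ _ _ _ _⟩ sh_SLe
    Glo_upper

/-- The low clusters of the lowest law do not reach the middle annulus. -/
theorem low_uni {R₁ s₀ : ℤ} {c : ℝ} (hR₁ : 1 ≤ R₁) (hs₀ : 1 ≤ s₀) (hc : 0 < c)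
    (hone : OneS R₁ s₀ c) {N₁ : ℤ} (hN₁ : 1 ≤ N₁) (i : ℕ) (hi : 1 ≤ i) :
    ∃ c' : ℝ, 0 < c' ∧ ∃ r₂ : ℤ, 1 ≤ r₂ ∧ (i : ℤ) + 2 ≤ r₂ ∧ ∀ (V : Set Pt) (x₀ : Pt) (r : ℤ),
      V.Finite → r₂ ≤ r →
      c' ≤ Pr (Cfg V (LW (i + 1) V x₀ r (N₁ * (2 * r) + r)))
        (Glo V x₀ r (N₁ * (2 * r) + r) (N₁ * (2 * r)) (i + 1) (-5)) := by
  obtain ⟨c', hc', r₂, h1, h2, key⟩ := step_d hR₁ hs₀ hc hone hN₁ i hi
  refine ⟨c', hc', r₂, h1, h2, fun V x₀ r hV hr => ?_⟩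
  refine ((key V x₀ r hV hr).trans (step_f hV hi)).trans (le_trans (Pr_mono fun g _ hg => ?_)
    (step_st hV))
  exact step_g (by omega) le_rfl hg

theorem land_uni {R₁ s₀ : ℤ} {c : ℝ} (hR₁ : 1 ≤ R₁) (hs₀ : 1 ≤ s₀) (hc : 0 < c)
    (hone : OneS R₁ s₀ c) {N₁ r₁ : ℤ} (hN₁ : 1 ≤ N₁) (hα : 0 < α) (hb : HB 1 α N₁ r₁)
    (i : ℕ) (hi : 1 ≤ i) : ∃ α' : ℝ, 0 < α' ∧ ∃ r₀ : ℤ, 1 ≤ r₀ ∧
    ∀ (V : Set Pt) (x₀ : Pt) (r : ℤ) (p q : Pt), V.Finite → CC V → x₀ ∉ V → r₀ ≤ r →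
      NO V p → NO V q → p ∈ bx x₀ r → q ∉ bx x₀ ((2 * N₁ + 1) * r) →
      α' ≤ Pr (Cfg V (LW (i + 1) V x₀ r ((2 * N₁ + 1) * r))) {h | ¬ Conn (V ∩ dn h (-1)) p q} := by
  obtain ⟨c', hc', r₂, h1, h2, key⟩ := low_uni hR₁ hs₀ hc hone hN₁ i hi
  refine ⟨α * c', by positivity, max r₂ r₁, h1.trans (le_max_left _ _), ?_⟩
  intro V x₀ r p q hV hCC hx₀ hr hp hq hpr hqR
  have hr2 : r₂ ≤ r := (le_max_left _ _).trans hr
  have hr1 : r₁ ≤ r := (le_max_right _ _).trans hr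
  have hk := key V x₀ r hV hr2
  have e : (2 * N₁ + 1) * r = N₁ * (2 * r) + r := by ring
  rw [e] at hqR ⊢
  set K : ℤ := N₁ * (2 * r) with hK
  set R : ℤ := K + r with hR
  set A := An x₀ (r + (i + 1 : ℕ)) (R - (i + 1 : ℕ)) with hA
  have hX : ∀ g h : Hg, (∀ x ∈ Tlo V x₀ r R (i + 1) (-5) h, g x = h x) →
      Tlo V x₀ r R (i + 1) (-5) g = Tlo V x₀ r R (i + 1) (-5) h := fun g h hgh => Tx_of_eq hgh
  have hfib := Pr_ge_of_fiber (Cfg_finite (Dat_LW (i := i + 1) (x₀ := x₀) (r := r) (R := R) hV))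
    (rv A (Tlo V x₀ r R (i + 1) (-5))) {g | ¬ Conn (V ∩ dn g (-1)) p q}
    (Glo V x₀ r R K (i + 1) (-5)) (c := α) ?_ ?_
  · refine le_trans (mul_le_mul_of_nonneg_left hk hα.le) (hfib.trans (Pr_mono fun g _ hg => hg.2))
  · intro a ha b hb' hab
    rw [rv_eq_iff hX hb'.1] at hab
    have := hX a b fun x hx => hab x (Or.inl hx)
    show Disjoint _ _ ↔ Disjoint _ _
    rw [this]
  · intro a ha haG
    have e1 : Cfg V (LW (i + 1) V x₀ r R) ∩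
        {b | rv A (Tlo V x₀ r R (i + 1) (-5)) b = rv A (Tlo V x₀ r R (i + 1) (-5)) a} =
        Cfg V (LW (i + 1) V x₀ r R) ∩
          {g | ∀ x ∈ (Tlo V x₀ r R (i + 1) (-5) a ∪
            (An x₀ (r + (i + 1 : ℕ)) (R - (i + 1 : ℕ)))ᶜ), g x = a x} := by
      ext g
      refine and_congr_right fun hg => ?_
      rw [mem_ofPred_eq, rv_eq_iff hX ha.1]
      rfl
    rw [e1]
    exact step2 hb hV hCC hx₀ hK hN₁ (by omega) (by omega) (by push_cast; omega)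
      (by push_cast; omega) hp hq hpr hqR ha haG

theorem Blk_mono {j j' : ℕ} {A : Set Pt} (hj : j ≤ j') (h : Blk j V A I) : Blk j' V A I where
  dat := h.dat
  ne := h.ne
  inn := h.inn
  offv := fun x hx => (h.offv x hx).imp id fun h1 a ha => by
    have := h1 a ha
    have : (j : ℤ) ≤ j' := by exact_mod_cast hj
    linarith
  wall := fun x hx a ha => by
    have := h.wall x hx a ha
    have : (j : ℤ) ≤ j' := by exact_mod_cast hj
    linarith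
  wallA := h.wallA

theorem HB_mono {j j' : ℕ} {N r₀ : ℤ} (hj : j ≤ j') (h : HB j' α N r₀) : HB j α N r₀ :=
  fun V I x₀ r p q h1 h2 h3 h4 h5 h6 h7 h8 => h V I x₀ r p q h1 h2 h3 h4 h5 h6 h7 (Blk_mono hj h8)

/-- **One block at every level, with the same ratio.** -/
theorem hb_all (hL : LOC.S_land 2) (hone : ∃ R₁ s₀ : ℤ, 1 ≤ R₁ ∧ 1 ≤ s₀ ∧ OneS R₁ s₀ (1 / 4)) :
    ∃ N : ℤ, 1 ≤ N ∧ ∀ j : ℕ, ∃ α : ℝ, 0 < α ∧ α ≤ 1 ∧ ∃ r₀ : ℤ, 1 ≤ r₀ ∧ HB j α N r₀ := by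
  obtain ⟨R₁, s₀, hR₁, hs₀, h1⟩ := hone
  obtain ⟨α, hα, N₁, hN₁, r₁, hr₁, hb⟩ := LOC.block (j := 1) hL
  refine ⟨2 * N₁ + 1, by omega, ?_⟩
  have key : ∀ j : ℕ, 1 ≤ j → ∃ α : ℝ, 0 < α ∧ α ≤ 1 ∧ ∃ r₀ : ℤ, 1 ≤ r₀ ∧
      HB j α (2 * N₁ + 1) r₀ := by
    intro j hj
    obtain ⟨α', hα', r₀, hr₀, h2⟩ := land_uni hR₁ hs₀ (by norm_num) h1 hN₁ hα hb j hj
    refine ⟨min α' 1, lt_min hα' one_pos, min_le_right _ _, r₀, hr₀, ?_⟩
    intro V I x₀ r p q hV hx₀ hr hp hq hpr hqr hbk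
    refine (min_le_left _ _).trans ?_
    exact (block_low hV hp hq (by omega) hpr
      (h2 V x₀ r p q hbk.dat.fin hV hx₀ hr hp hq hpr hqr)).trans (block_le hbk)
  intro j
  rcases Nat.eq_zero_or_pos j with rfl | h2
  · obtain ⟨α', h3, h4, r₀, h5, h6⟩ := key 1 le_rfl
    exact ⟨α', h3, h4, r₀, h5, HB_mono (by omega) h6⟩
  · exact key j h2

end Vale.Agent.P153.R2.SLEX
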